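import Vale.Agent.P073.H238.RT0
import Vale.Agent.P073.H669.PLevA

/-!
# P073, H687: [P-LEV4], the marked points of the windows of the levels of round P

`Marks G J R Q`: the ends of the boxes of round T which matter for the levels of `s` lie near the
corners of the square or are marked points (at hanging vertices); the windows of radius `R s`
around the marked points are disjoint.  `SlG`: big slivers only near the ends of the box.
-/

open Set Metric Topology Filter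
open scoped ENNReal

namespace Vale.Agent.P073.H687

open _root_.P073 _root_.P073.Net _root_.P073.PA691
open _root_.P073.PR720 (LF)
open Vale.Agent.P073.St (V)
open Vale.Agent.P073.H471 (Rad Wid Boxes)
open Vale.Agent.P073.H267
open Vale.Agent.P073.H669 (Rel)
open Vale.Agent.P073.H238.K3 (SlIn)
open _root_.P073.H345 (tg)

variable {Λ : Set V} {v : V} {K : BoxCx Λ v} {S₀ : Rad K} {Wd : Wid K S₀} {B : Boxes Wd}

/-- **the marked points** of the square `s` and the direction `tg s β` -/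
structure Marks (G : Geo B) (J R : K.S → ℝ) (Q : K.S → Bool → Finset ℝ) : Prop where
  card : ∀ s β, (Q s β).card ≤ 4
  lo : ∀ s β, ∀ q ∈ Q s β, K.slo s (tg s β) + G.a s + R s ≤ q
  hi : ∀ s β, ∀ q ∈ Q s β, q + R s ≤ K.shi s (tg s β) - G.a s
  sep : ∀ s β, ∀ q ∈ Q s β, ∀ q' ∈ Q s β, q ≠ q' → 2 * R s ≤ |q - q'|
  hang : ∀ s β, ∀ q ∈ Q s β, ∃ H : Hang K, H.s = s ∧ H.l = tg s β ∧
    (q = K.w H.i H.l - G.be H.i ∨ q = K.w H.i H.l + G.be H.i)
  ends : ∀ s β (b : TBx K), Rel s (tg s β) b → ∀ t, (t = G.tlo true b b.ax ∨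
    t = G.thi true b b.ax) → t + J s ≤ K.slo s (tg s β) + G.a s ∨
      K.shi s (tg s β) - G.a s ≤ t - J s ∨ t ∈ Q s β

/-- the windows around the marked points -/
def wnd (R : K.S → ℝ) (Q : K.S → Bool → Finset ℝ) (s : K.S) (β : Bool) : Set ℝ :=
  ⋃ q ∈ Q s β, Ioo (q - R s) (q + R s)

/-- the slivers of `b`: long ones only near the ends of the box, at distance at most `J` -/
def SlG (G : Geo B) (J : ℝ) (b : TBx K) (σ : ℝ) (sl : Finset (ℝ × ℝ)) : Prop :=
  ∃ inner : Finset (ℝ × ℝ), (∀ p ∈ inner, p.1 ≤ p.2) ∧ ∑ p ∈ inner, (p.2 - p.1) ≤ σ ∧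
    ∀ p ∈ sl, p ∈ inner ∨ (p.1 ≤ p.2 ∧ ∃ t, (t = G.tlo true b b.ax ∨ t = G.thi true b b.ax) ∧
      t - J ≤ p.1 ∧ p.2 ≤ t + J)

theorem SlG.mono {G : Geo B} {J J' : ℝ} {b : TBx K} {σ σ' : ℝ} {sl sl' : Finset (ℝ × ℝ)}
    (H : SlG G J b σ sl) (hJ : J ≤ J') (hσ : σ ≤ σ') (hs : sl' ⊆ sl) : SlG G J' b σ' sl' := by
  obtain ⟨inner, h1, h2, h3⟩ := H
  refine ⟨inner, h1, h2.trans hσ, fun p hp => ?_⟩
  rcases h3 p (hs hp) with h | ⟨h, t, h4, h5, h6⟩
  · exact Or.inl h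
  · exact Or.inr ⟨h, t, h4, by linarith, by linarith⟩

theorem SlG.empty {G : Geo B} {J : ℝ} {b : TBx K} {σ : ℝ} (hσ : 0 ≤ σ) : SlG G J b σ ∅ :=
  ⟨∅, by simp, by simpa using hσ, by simp⟩

open Classical in
theorem SlG.union {G : Geo B} {J : ℝ} {b : TBx K} {σ : ℝ} {sl X : Finset (ℝ × ℝ)}
    (H : SlG G J b σ sl) (hX : ∀ p ∈ X, p.1 ≤ p.2 ∧ ∃ t, (t = G.tlo true b b.ax ∨
      t = G.thi true b b.ax) ∧ t - J ≤ p.1 ∧ p.2 ≤ t + J) : SlG G J b σ (sl ∪ X) := by
  obtain ⟨inner, h1, h2, h3⟩ := H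
  refine ⟨inner, h1, h2, fun p hp => ?_⟩
  rcases Finset.mem_union.1 hp with h | h
  · exact h3 p h
  · exact Or.inr (hX p h)

theorem SlG.le {G : Geo B} {J : ℝ} {b : TBx K} {σ : ℝ} {sl : Finset (ℝ × ℝ)}
    (H : SlG G J b σ sl) : ∀ p ∈ sl, p.1 ≤ p.2 := by
  obtain ⟨inner, h1, -, h3⟩ := H
  intro p hp
  rcases h3 p hp with h | h
  · exact h1 p h
  · exact h.1

/-- the slivers of round T -/
theorem slG_of {G : Geo B} {ω : TBx K → ℝ} {b : TBx K} {σ : ℝ} {sl : Finset (ℝ × ℝ)}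
    (H : SlIn G ω b σ sl) {J : ℝ} (hJ : 31 * ω b ≤ J) : SlG G J b σ sl := by
  obtain ⟨q₀, q₁, q₂, q₃, inner, a1, a2, a3, a4, a5, a6, a7, a8, -, -, h5, h6, h7⟩ := H
  refine ⟨inner, h6, h7, fun p hp => ?_⟩
  rcases h5 p hp with rfl | rfl | h
  · exact Or.inr ⟨(a2.trans a3).le, _, Or.inl rfl, by dsimp only; linarith, by dsimp only; linarith⟩
  · exact Or.inr ⟨(a6.trans a7).le, _, Or.inr rfl, by dsimp only; linarith, by dsimp only; linarith⟩
  · exact Or.inl h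

open Classical in
/-- **193's larger family**: the ends of the boxes are fattened -/
theorem slG_fat {G : Geo B} {ω : TBx K → ℝ} {b : TBx K} {σ : ℝ} {sl : Finset (ℝ × ℝ)}
    (H : SlIn G ω b σ sl) {d J : ℝ} (hd : 0 ≤ d) (hJ : 31 * ω b ≤ J) (hdJ : d ≤ J) :
    SlG G J b σ (sl ∪ {(G.tlo true b b.ax - d, G.tlo true b b.ax + d),
      (G.thi true b b.ax - d, G.thi true b b.ax + d)}) := by
  refine (slG_of H hJ).union fun p hp => ?_
  rcases Finset.mem_insert.1 hp with rfl | hp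
  · exact ⟨by dsimp only; linarith, _, Or.inl rfl, by dsimp only; linarith, by dsimp only; linarith⟩
  · rw [Finset.mem_singleton] at hp
    subst hp
    exact ⟨by dsimp only; linarith, _, Or.inr rfl, by dsimp only; linarith, by dsimp only; linarith⟩

end Vale.Agent.P073.H687
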