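import Vale.Agent.P073.H196.Cells
import Vale.Agent.P073.H236.Fam

/-!
# P073, H687: [P-LEV4], part 1: levels on the line with compensation windows

`LevW`: the levels of one square and one direction; `W` is the union of the compensation windows.
Off the windows the staircase moves the points by at most `3 S` or so.
-/

open Set Metric Topology

namespace Vale.Agent.P073.H687

open _root_.P073.Croft (Cells exists_cells SepL levs)
open _root_.P073.H236 (Lvs Tgt stp sm sm_flat sm_strictMono sm_out abs_sm_sub_self_le)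

/-- **levels with compensation windows** -/
structure LevW (lo hi θ δ η r S Bg : ℝ) (W : Set ℝ) (T : Finset (ℝ × ℝ)) (n : ℕ) (a : ℕ → ℝ) :
    Prop where
  ge : ∀ k < n, lo + δ / 4 < a k
  le : ∀ k < n, a k + δ / 4 < hi
  gap : ∀ k, k + 1 < n → a k + δ / 2 ≤ a (k + 1)
  succ : ∀ k, k + 1 < n → (1 - 2 * η) * δ / (1 + r) ≤ a (k + 1) - a k
  sliver : ∀ k < n, ∀ p ∈ T, p.2 < a k - δ / 4 ∨ a k + δ / 4 < p.1
  rat : ∀ k, ∃ q : ℚ, a k = θ + q
  num_le : n * δ ≤ hi - lo
  le_num : hi - lo ≤ n * δ + S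
  disp : ∀ k < n, |a k - (lo + (k + 1 / 2) * δ)| ≤ S + Bg
  cnt : ∀ t, lo ≤ t → t ≤ hi → t ∉ W → ∃ k ≤ n, (∀ j < k, a j ≤ t) ∧
    (∀ j < n, k ≤ j → t < a j) ∧ |k * δ - (t - lo)| ≤ S

namespace LevW

variable {lo hi θ δ η r S Bg : ℝ} {W : Set ℝ} {T : Finset (ℝ × ℝ)} {n : ℕ} {a : ℕ → ℝ}

theorem sep (H : LevW lo hi θ δ η r S Bg W T n a) (hδ : 0 < δ) (hη : η ≤ 1 / 4) (hr : 0 ≤ r)
    {i j : ℕ} (hij : i < j) (hj : j < n) : (1 - 2 * η) * δ / (1 + r) ≤ a j - a i := by
  have h0 : 0 ≤ (1 - 2 * η) * δ / (1 + r) :=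
    div_nonneg (mul_nonneg (by linarith) hδ.le) (by linarith)
  induction j, hij using Nat.le_induction with
  | base => exact H.succ i hj
  | succ j hij ih =>
    have h1 := ih (by omega)
    have h2 := H.succ j hj
    linarith

theorem sepL (H : LevW lo hi θ δ η r S Bg W T n a) (hδ : 0 < δ) (hη : η ≤ 1 / 4) (hr : 0 ≤ r) :
    SepL ((1 - 2 * η) * δ / (1 + r)) (levs n a) := by
  have h0 : 0 < (1 - 2 * η) * δ / (1 + r) :=
    div_pos (mul_pos (by linarith) hδ) (by linarith)
  rintro _ ⟨k, hk, rfl⟩ _ ⟨l, hl, rfl⟩ hlt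
  rcases lt_trichotomy k l with h | h | h
  · exact H.sep hδ hη hr h hl
  · subst h; exact absurd hlt (lt_irrefl _)
  · have := H.sep hδ hη hr h hk
    linarith

/-- a larger `r` -/
theorem mono_r (H : LevW lo hi θ δ η r S Bg W T n a) (hδ : 0 < δ) (hη : η ≤ 1 / 4) (hr : 0 ≤ r)
    {r' : ℝ} (hrr : r ≤ r') : LevW lo hi θ δ η r' S Bg W T n a where
  ge := H.ge
  le := H.le
  gap := H.gap
  succ k hk := by
    refine le_trans ?_ (H.succ k hk)
    have h0 : 0 ≤ (1 - 2 * η) * δ := mul_nonneg (by linarith) hδ.le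
    exact div_le_div_of_nonneg_left h0 (by linarith) (by linarith)
  sliver := H.sliver
  rat := H.rat
  num_le := H.num_le
  le_num := H.le_num
  disp := H.disp
  cnt := H.cnt

/-- fewer levels -/
theorem trunc (H : LevW lo hi θ δ η r S Bg W T n a) (hδ : 0 < δ) {n' : ℕ} (hn : n' ≤ n)
    (h : hi - lo ≤ n' * δ + S) : LevW lo hi θ δ η r S Bg W T n' a where
  ge k hk := H.ge k (hk.trans_le hn)
  le k hk := H.le k (hk.trans_le hn)
  gap k hk := H.gap k (hk.trans_le hn)
  succ k hk := H.succ k (hk.trans_le hn)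
  sliver k hk := H.sliver k (hk.trans_le hn)
  rat := H.rat
  num_le := by
    have h1 : (n' : ℝ) ≤ n := by exact_mod_cast hn
    have h2 := mul_le_mul_of_nonneg_right h1 hδ.le
    linarith [H.num_le]
  le_num := h
  disp k hk := H.disp k (hk.trans_le hn)
  cnt t h1 h2 h3 := by
    obtain ⟨k, hk, h4, h5, h6⟩ := H.cnt t h1 h2 h3
    rcases le_or_gt k n' with hkn | hkn
    · exact ⟨k, hkn, h4, fun j hj => h5 j (hj.trans_le hn), h6⟩
    · refine ⟨n', le_rfl, fun j hj => h4 j (hj.trans hkn), fun j hj hj' => absurd hj' (by omega), ?_⟩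
      have h7 : (n' : ℝ) * δ ≤ k * δ := by
        have : (n' : ℝ) ≤ k := by exact_mod_cast hkn.le
        gcongr
      rw [abs_le] at h6 ⊢
      constructor <;> linarith [h6.1, h6.2]

theorem lvs (H : LevW lo hi θ δ η r S Bg W T n a) (hδ : 0 < δ) (hn : 0 < n) :
    Lvs n a (δ / 8) lo hi where
  pos := hn
  c0 := by positivity
  first := by linarith [H.ge 0 hn]
  sep k hk := by linarith [H.gap k hk]
  last := by linarith [H.le (n - 1) (Nat.sub_lt hn one_pos)]

/-- the steps of the target -/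
theorem om_key (H : LevW lo hi θ δ η r S Bg W T n a) (hn : 0 < n) {k : ℕ} (hk : k ≤ n) :
    k * δ ≤ k * stp n lo hi ∧ k * stp n lo hi ≤ k * δ + S := by
  have hn' : (0:ℝ) < n := by exact_mod_cast hn
  have h1 := H.num_le
  have h2 := H.le_num
  have h3 : (n:ℝ) * stp n lo hi = hi - lo := by
    unfold stp
    rw [mul_div_cancel₀ _ hn'.ne']
  have h4 : δ ≤ stp n lo hi := by
    by_contra hcon
    push Not at hcon
    have := mul_lt_mul_of_pos_left hcon hn'
    linarith
  have hk' : (k:ℝ) ≤ n := by exact_mod_cast hk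
  refine ⟨mul_le_mul_of_nonneg_left h4 (Nat.cast_nonneg _), ?_⟩
  have h5 : (k:ℝ) * (stp n lo hi - δ) ≤ n * (stp n lo hi - δ) :=
    mul_le_mul_of_nonneg_right hk' (by linarith)
  have h6 : (n : ℝ) * (stp n lo hi - δ) = hi - lo - n * δ := by
    rw [mul_sub, h3]
  linarith

/-- **the displacement** of the staircase -/
theorem disp_sm (H : LevW lo hi θ δ η r S Bg W T n a) (hn : 0 < n) {c : ℝ}
    (hl : Lvs n a c lo hi) (hc : c ≤ δ / 8) {e : ℝ} (he : 0 < e) (he8 : e ≤ δ / 8) {D : ℝ}
    (hD : 2 * S + Bg + δ ≤ D) (t : ℝ) :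
    |sm n a c lo hi lo (stp n lo hi) e t - t| ≤ D := by
  have hc0 := hl.c0
  have hSB : 0 ≤ S + Bg := (abs_nonneg _).trans (H.disp 0 hn)
  have hS0 : 0 ≤ S := by
    have := H.om_key hn (le_refl n)
    linarith [this.1, this.2]
  refine abs_sm_sub_self_le hl (by linarith) (fun k hk => ?_) (fun k hk => ?_) t
  · have e2 := abs_le.1 (H.disp k hk)
    have e4 := H.om_key hn hk.le
    have e5 : ((k:ℝ) + 1 / 2) * δ = k * δ + δ / 2 := by ring
    rw [e5] at e2
    rw [abs_le]
    constructor <;> linarith [e2.1, e2.2, e4.1, e4.2]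
  · have e2 := abs_le.1 (H.disp k hk)
    have e4 := H.om_key hn (show k + 1 ≤ n from hk)
    push_cast at e4
    have e5 : ((k:ℝ) + 1 / 2) * δ = (k + 1) * δ - δ / 2 := by ring
    rw [e5] at e2
    rw [abs_le]
    constructor <;> linarith [e2.1, e2.2, e4.1, e4.2]

/-- **the displacement off the windows** -/
theorem near_sm (H : LevW lo hi θ δ η r S Bg W T n a) (hn : 0 < n) {c : ℝ}
    (hl : Lvs n a c lo hi) {e : ℝ} (he : 0 < e) (heo : 2 * e < stp n lo hi) {t : ℝ} (ht : t ∉ W) :
    |sm n a c lo hi lo (stp n lo hi) e t - t| ≤ stp n lo hi + 2 * S := by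
  have hc0 := hl.c0
  have hS0 : 0 ≤ S := by
    have := H.om_key hn (le_refl n)
    linarith [this.1, this.2]
  have hn' : (0:ℝ) < n := by exact_mod_cast hn
  have hst : 0 < stp n lo hi := by linarith
  have htgt : Tgt n lo hi lo (stp n lo hi) e := Tgt.full hn he heo
  have hmono := (sm_strictMono hl htgt).monotone
  by_cases hout : t ≤ lo ∨ hi ≤ t
  · rw [sm_out hl hout, sub_self, abs_zero]
    linarith
  push Not at hout
  obtain ⟨k, hk, h1, h2, h3⟩ := H.cnt t hout.1.le hout.2.le ht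
  have hkey := H.om_key hn hk
  have h3' := abs_le.1 h3
  -- lower bound
  have hlow : lo + k * stp n lo hi - stp n lo hi ≤ sm n a c lo hi lo (stp n lo hi) e t := by
    rcases Nat.eq_zero_or_pos k with h0 | h0
    · subst h0
      have h4 : sm n a c lo hi lo (stp n lo hi) e lo = lo := sm_out hl (Or.inl le_rfl)
      have h5 := hmono hout.1.le
      rw [h4] at h5
      push_cast
      linarith
    · obtain ⟨i, rfl⟩ : ∃ i, k = i + 1 := ⟨k - 1, by omega⟩
      have h4 : a i - c ≤ t := by linarith [h1 i (by omega)]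
      have h5 := hmono h4
      have h6 := sm_flat (t₀ := lo) (om := stp n lo hi) (e := e) hl (show i < n by omega)
        (t := a i - c) (by rw [sub_sub_cancel_left, abs_neg, abs_of_pos hc0])
      rw [h6] at h5
      push_cast
      have h7 : a i - c - (a i - c) = 0 := sub_self _
      rw [h7] at h5
      simp only [mul_zero, add_zero] at h5
      linarith
  have hhigh : sm n a c lo hi lo (stp n lo hi) e t ≤ lo + k * stp n lo hi + stp n lo hi := by
    rcases eq_or_lt_of_le hk with h0 | h0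
    · subst h0
      have h4 : sm k a c lo hi lo (stp k lo hi) e hi = hi := sm_out hl (Or.inr le_rfl)
      have h5 := hmono hout.2.le
      rw [h4] at h5
      have h6 : (k:ℝ) * stp k lo hi = hi - lo := by
        unfold stp
        rw [mul_div_cancel₀ _ hn'.ne']
      linarith
    · have h4 : t ≤ a k + c := by linarith [h2 k h0 le_rfl]
      have h5 := hmono h4
      have h6 := sm_flat (t₀ := lo) (om := stp n lo hi) (e := e) hl h0
        (t := a k + c) (by rw [add_sub_cancel_left, abs_of_pos hc0])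
      rw [h6] at h5
      have h7 : a k + c - (a k - c) = 2 * c := by ring
      rw [h7] at h5
      have h8 : (stp n lo hi - 2 * e) / (2 * c) * (2 * c) = stp n lo hi - 2 * e :=
        div_mul_cancel₀ _ (by positivity)
      rw [h8] at h5
      linarith
  rw [abs_le]
  constructor <;> linarith [h3'.1, h3'.2, hkey.1, hkey.2]

end LevW

end Vale.Agent.P073.H687
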