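import Vale.Agent.P073.H669.PLevG
import Vale.Agent.P073.H687.PL4B

/-!
# P073, H687: **[P-LEV4]** the levels of round P for `K3C`, with compensation windows

`PLw`: as `PLg`, with compensation windows `Wn s β`: the staircase of the square `s` and the
direction `β` moves the points off the windows by at most `μ s`, all points by at most
`μ s + Bg s`.
-/

open Set Metric Topology Filter
open scoped ENNReal

namespace Vale.Agent.P073.H687

open _root_.P073 _root_.P073.TR _root_.P073.Net _root_.P073.PA691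
open _root_.P073.PR720 (LF)
open Vale.Agent.P073.St (V)
open Vale.Agent.P073.H471 (Rad Wid Boxes Near lf_ss ss_subset)
open Vale.Agent.P073.H267
open Vale.Agent.P073.H73 (Mesh)
open Vale.Agent.P073.H193 (Edges)
open _root_.P073.Croft (Cells Crs levs Generic onS cross varIn TransAt SepL)
open _root_.P073.H345 (tg tg_ne tg_ne_not tg_cases bt bt_tg tg_bt PK PB_sub_PK PK_sub_ss PK_unique
  PLev)
open _root_.P073.H236 (BX Lvs NoSl BFam stp abs_sm_sub_self_le abs_sm_sub_le)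
open _root_.P073.H805 (Reg)
open Vale.Agent.P073.H669

variable {Ω Λ : Set V} {v : V} {K : BoxCx Λ v} {S : Rad K} {W : Wid K S} {B : Boxes W}

/-! ### the levels -/

/-- **the levels of round P**, with arbitrary slivers, family, segments and compensation windows -/
structure PLw (G : Geo B) (h : ConHomeo Ω Λ) (T : K.S → Bool → Finset (ℝ × ℝ)) (η r : ℝ)
    {τ : Type*} (F : τ → Set V) (C : Set ℝ) {ξ : Type*} (sa sb : ξ → V)
    (εE : ξ → ℝ) (Wn : K.S → Bool → Set ℝ) (Jn : K.S → Bool → Finset (ℝ × ℝ))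
    (μ Bg δ : K.S → ℝ) where
  /-- the offset -/
  θ : Fin 3 → ℝ
  /-- number of levels, in both directions -/
  N : K.S → ℕ
  /-- the levels -/
  a : K.S → Bool → ℕ → ℝ
  δ0 : ∀ s, 0 < δ s
  η0 : 0 < η
  η4 : η ≤ 1 / 4
  r0 : 0 ≤ r
  r7 : r ≤ 1 / 7
  Bg0 : ∀ s, 0 ≤ Bg s
  μw : ∀ s, μ s ≤ G.a s
  δμ : ∀ s, 8 * δ s ≤ μ s
  sq : ∀ s β β', wl G s β = wl G s β'
  pos : ∀ s, 0 < N s
  lv : ∀ s β, LevW (K.slo s (tg s β) + G.a s) (K.shi s (tg s β) - G.a s) (θ (tg s β))
    (δ s) η r (μ s / 4) (Bg s) (Wn s β) (T s β) (N s) (a s β)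
  gen : Generic h.toFun F Ω C θ
  crs : ∀ e, Crs h.toFun (sa e) (sb e) (fun q : K.S × Bool => tg q.1 q.2)
    (fun q => PK G q.1) (fun q => δ q.1) (fun q => levs (N q.1) (a q.1 q.2))
    ((1 - 2 * η)⁻¹ * (1 + r)) (εE e)
  /-- a better constant if there is no compensation window -/
  crs0 : ∀ e s β, Wn s β = ∅ → ENNReal.ofReal (δ s) *
        cnt (cross (onS h.toFun (sa e) (sb e)) (tg s β) (levs (N s) (a s β)) (PK G s)) ≤
      ENNReal.ofReal (1 - 2 * η)⁻¹ *
        varIn (onS h.toFun (sa e) (sb e)) (tg s β) (PK G s) 0 1 + ENNReal.ofReal (εE e)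
  /-- the crossings in the parts `Jn` of the window -/
  crsw : ∀ e s β, ∀ p ∈ Jn s β, ENNReal.ofReal (δ s) *
        cnt (cross (onS h.toFun (sa e) (sb e)) (tg s β) (levs (N s) (a s β))
          (PK G s ∩ {y | p.1 ≤ y (tg s β) ∧ y (tg s β) ≤ p.2})) ≤
      ENNReal.ofReal ((1 - 2 * η)⁻¹ * (1 + r)) *
        varIn (onS h.toFun (sa e) (sb e)) (tg s β)
          (PK G s ∩ {y | p.1 ≤ y (tg s β) ∧ y (tg s β) ≤ p.2}) 0 1 + ENNReal.ofReal (εE e)

section lemmas

variable {G : Geo B} {h : ConHomeo Ω Λ} {T : K.S → Bool → Finset (ℝ × ℝ)} {η r : ℝ}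
  {τ : Type*} {F : τ → Set V} {C : Set ℝ} {ξ : Type*} {sa sb : ξ → V} {εE : ξ → ℝ}
  {Wn : K.S → Bool → Set ℝ} {Jn : K.S → Bool → Finset (ℝ × ℝ)} {μ Bg δ : K.S → ℝ}

namespace PLw

variable (L : PLw G h T η r F C sa sb εE Wn Jn μ Bg δ)

/-- **345's levels** -/
noncomputable def lev : PLev G where
  N := fun s _ => L.N s
  a := L.a
  c := fun s _ => δ s / 8
  lvs := fun s β => (L.lv s β).lvs (L.δ0 s) (L.pos s)

theorem lev_N (s : K.S) (β : Bool) : L.lev.N s β = L.N s := rfl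

theorem lev_c (s : K.S) (β : Bool) : L.lev.c s β = δ s / 8 := rfl

theorem mem_lv {s : K.S} {l : Fin 3} {t : ℝ} (ht : t ∈ L.lev.lv s l) :
    ∃ β, tg s β = l ∧ ∃ n < L.N s, L.a s β n = t := by
  obtain ⟨h1, n, h2, h3⟩ := PLev.mem_lv.1 ht
  exact ⟨bt s l, tg_bt s h1, n, h2, h3⟩

theorem mem_lv_iff {s : K.S} {β : Bool} {t : ℝ} :
    t ∈ L.lev.lv s (tg s β) ↔ ∃ n < L.N s, L.a s β n = t := by
  rw [PLev.mem_lv, bt_tg]
  exact ⟨fun h => h.2, fun h => ⟨tg_ne s β, h⟩⟩

theorem mem_levs {s : K.S} {β : Bool} {t : ℝ} :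
    t ∈ levs (L.N s) (L.a s β) ↔ t ∈ L.lev.lv s (tg s β) := by
  rw [mem_lv_iff]
  constructor
  · rintro ⟨k, hk, h1⟩; exact ⟨k, hk, h1.symm⟩
  · rintro ⟨k, hk, h1⟩; exact ⟨k, hk, h1.symm⟩

/-- the window -/
theorem win (s : K.S) (l : Fin 3) (_ : l ≠ K.nrm s) : ∀ t ∈ L.lev.lv s l,
    K.slo s l + G.a s ≤ t ∧ t ≤ K.shi s l - G.a s := by
  intro t ht
  obtain ⟨β, rfl, n, hn, rfl⟩ := L.mem_lv ht
  have h1 := (L.lv s β).ge n hn
  have h2 := (L.lv s β).le n hn
  have h4 := L.δ0 s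
  constructor <;> linarith

/-- **(BAND)**, the cells avoid the closed slivers -/
theorem bandT (s : K.S) (β : Bool) {n : ℕ} (hn : n < L.N s) {p : ℝ × ℝ} (hp : p ∈ T s β) :
    p.2 < L.a s β n - 2 * (δ s / 8) ∨ L.a s β n + 2 * (δ s / 8) < p.1 := by
  rcases (L.lv s β).sliver n hn p hp with h2 | h2
  · left; linarith
  · right; linarith

/-- the same, for the levels of 345 -/
theorem bandT' (s : K.S) (β : Bool) {n : ℕ} (hn : n < L.lev.N s β) {p : ℝ × ℝ}
    (hp : p ∈ T s β) : p.2 < L.lev.a s β n - 2 * L.lev.c s β ∨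
      L.lev.a s β n + 2 * L.lev.c s β < p.1 := L.bandT s β hn hp

/-- no sliver of the boxes of round T meets a cell -/
theorem band {sl : TBx K → Finset (ℝ × ℝ)} {s : K.S} {β : Bool} {b : TBx K}
    (hT : sl b ⊆ T s β) {n : ℕ} (hn : n < L.N s) {t : ℝ}
    (hr : |t - L.a s β n| ≤ 2 * (δ s / 8)) : NoSl (sl b) t := by
  intro p hp hmem
  have h3 := abs_le.1 hr
  have h4 := hmem.1
  have h5 := hmem.2
  rcases L.bandT s β hn (hT hp) with h2 | h2
  · linarith [h3.1, h3.2]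
  · linarith [h3.1, h3.2]

theorem hns {sl : TBx K → Finset (ℝ × ℝ)} {s : K.S} {β : Bool} {b : TBx K}
    (hT : sl b ⊆ T s β) {t : ℝ} (ht : t ∈ L.lev.lv s (tg s β)) : NoSl (sl b) t := by
  obtain ⟨n, hn, rfl⟩ := L.mem_lv_iff.1 ht
  have h4 := L.δ0 s
  exact L.band hT hn (by rw [sub_self, abs_zero]; linarith)

/-- the levels avoid the countable set -/
theorem notMem (s : K.S) (β : Bool) (n : ℕ) : L.a s β n ∉ C := by
  obtain ⟨q, hq⟩ := (L.lv s β).rat n
  rw [hq]
  exact L.gen.notMem _ q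

theorem lv_notMem {s : K.S} {l : Fin 3} {t : ℝ} (ht : t ∈ L.lev.lv s l) : t ∉ C := by
  obtain ⟨β, -, n, -, rfl⟩ := L.mem_lv ht
  exact L.notMem s β n

theorem rat {s : K.S} {l : Fin 3} {t : ℝ} (ht : t ∈ L.lev.lv s l) : ∃ q : ℚ, t = L.θ l + q := by
  obtain ⟨β, rfl, n, -, rfl⟩ := L.mem_lv ht
  exact (L.lv s β).rat n

/-- regularity for the large family -/
theorem regF {s : K.S} {l : Fin 3} {x : V} (hx : x ∈ Ω) (hl : h.toFun x l ∈ L.lev.lv s l) :
    Reg (fun y => h.toFun y l) F x := by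
  obtain ⟨q, hq⟩ := L.rat hl
  exact L.gen.reg1 hx hq

theorem regF2 {s s' : K.S} {l l' : Fin 3} (hll : l ≠ l') {x : V} (hx : x ∈ Ω)
    (hl : h.toFun x l ∈ L.lev.lv s l) (hl' : h.toFun x l' ∈ L.lev.lv s' l') :
    Reg (fun y => (h.toFun y l, h.toFun y l')) F x := by
  obtain ⟨q, hq⟩ := L.rat hl
  obtain ⟨q', hq'⟩ := L.rat hl'
  exact L.gen.reg2 hx hll hq hq'

/-! ### the staircases -/

/-- the step -/
noncomputable def om (s : K.S) (β : Bool) : ℝ :=
  stp (L.N s) (K.slo s (tg s β) + G.a s) (K.shi s (tg s β) - G.a s)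

theorem om_eq_omP (s : K.S) (β : Bool) (t : ℝ) : L.lev.omP s (tg s β) t = L.om s β :=
  PLev.omP_tg _ _ _ _

/-- the step is the same in both directions -/
theorem om_eq (s : K.S) (β β' : Bool) : L.om s β = L.om s β' := by
  unfold om stp
  have h1 := L.sq s β β'
  unfold wl at h1
  rw [h1]

theorem omP_eq (s : K.S) {j j' : Fin 3} (hj : j ≠ K.nrm s) (hj' : j' ≠ K.nrm s) (t t' : ℝ) :
    L.lev.omP s j t = L.lev.omP s j' t' := by
  obtain ⟨β, rfl⟩ : ∃ β, j = tg s β := ⟨bt s j, (tg_bt s hj).symm⟩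
  obtain ⟨β', rfl⟩ : ∃ β, j' = tg s β := ⟨bt s j', (tg_bt s hj').symm⟩
  rw [om_eq_omP, om_eq_omP, L.om_eq s β β']

theorem N0 (s : K.S) : (0:ℝ) < L.N s := by exact_mod_cast L.pos s

theorem Ns (s : K.S) (β : Bool) : (L.N s : ℝ) * L.om s β = wl G s β := by
  have := L.N0 s
  unfold om stp wl
  rw [mul_div_cancel₀ _ this.ne']

/-- few levels are lost -/
theorem num (s : K.S) (β : Bool) : wl G s β ≤ L.N s * δ s + μ s / 4 := (L.lv s β).le_num

theorem Nδ_le (s : K.S) (β : Bool) : (L.N s : ℝ) * δ s ≤ wl G s β := (L.lv s β).num_le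

theorem om_ge (s : K.S) (β : Bool) : δ s ≤ L.om s β := by
  have h1 := L.Nδ_le s β
  have h2 := L.Ns s β
  have h3 := L.N0 s
  by_contra hcon
  push Not at hcon
  have := mul_lt_mul_of_pos_left hcon h3
  linarith

theorem om_pos (s : K.S) (β : Bool) : 0 < L.om s β := (L.δ0 s).trans_le (L.om_ge s β)

include L in
theorem μ0 (s : K.S) : 0 < μ s := by linarith [L.δ0 s, L.δμ s]

/-- **the step is at most `(1 + c) δ`** if the displacement is at most `c` times the window -/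
theorem om_le (s : K.S) (β : Bool) {c : ℝ} (hr0 : 0 ≤ c) (hr1 : c ≤ 1)
    (hr : μ s ≤ c * wl G s β) : L.om s β ≤ (1 + c) * δ s := by
  have h1 := L.num s β
  have h2 := L.Ns s β
  have h3 := L.N0 s
  have hμ := L.μ0 s
  have hw : 0 < wl G s β := by have := wl_pos G s β; have := G.a_pos s; linarith
  have h4 : (1 - c / 2) * wl G s β ≤ L.N s * δ s := by nlinarith
  have h5 : 1 ≤ (1 + c) * (1 - c / 2) := by nlinarith
  have h6 : (L.N s : ℝ) * L.om s β ≤ L.N s * ((1 + c) * δ s) := by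
    calc (L.N s : ℝ) * L.om s β = wl G s β := h2
      _ ≤ (1 + c) * ((1 - c / 2) * wl G s β) := by nlinarith
      _ ≤ (1 + c) * (L.N s * δ s) := mul_le_mul_of_nonneg_left h4 (by linarith)
      _ = _ := by ring
  exact le_of_mul_le_mul_left h6 h3

theorem om_le_two (s : K.S) (β : Bool) : L.om s β ≤ 2 * δ s := by
  have h1 := L.μw s
  have h2 := wl_pos G s β
  have h3 := G.a_pos s
  have := L.om_le s β zero_le_one le_rfl (by linarith)
  linarith

/-- **the displacement** -/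
theorem disp (s : K.S) (β : Bool) {e : ℝ} (he : 0 < e) (he8 : e ≤ δ s / 8) (t : ℝ) :
    |_root_.P073.H236.sm (L.N s) (L.a s β) (δ s / 8) (K.slo s (tg s β) + G.a s) (K.shi s (tg s β) - G.a s)
      (K.slo s (tg s β) + G.a s) (L.om s β) e t - t| ≤ μ s + Bg s :=
  (L.lv s β).disp_sm (L.pos s) (L.lev.lvs s β) le_rfl he he8 (by linarith [L.δμ s, L.δ0 s]) t

/-- **the displacement off the windows** -/
theorem near (s : K.S) (β : Bool) {e : ℝ} (he : 0 < e) (he8 : e ≤ δ s / 8) {t : ℝ}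
    (ht : t ∉ Wn s β) :
    |_root_.P073.H236.sm (L.N s) (L.a s β) (δ s / 8) (K.slo s (tg s β) + G.a s) (K.shi s (tg s β) - G.a s)
      (K.slo s (tg s β) + G.a s) (L.om s β) e t - t| ≤ μ s := by
  have h1 := L.om_ge s β
  have h2 := L.om_le_two s β
  have h3 := L.δ0 s
  have h4 := L.δμ s
  have h5 : 2 * e < stp (L.N s) (K.slo s (tg s β) + G.a s) (K.shi s (tg s β) - G.a s) := by
    change 2 * e < L.om s β
    linarith
  refine ((L.lv s β).near_sm (L.pos s) (L.lev.lvs s β) he h5 ht).trans ?_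
  change L.om s β + _ ≤ _
  linarith

theorem bx_sub (s : K.S) (β : Bool) : (L.lev.bx β s).K ⊆ PK G s := fun _ hy =>
  (PLev.mem_bxK.1 hy).1

/-- **the two families of staircases of round P** -/
noncomputable def bfam (e : K.S → ℝ) (he : ∀ s, 0 < e s) (he8 : ∀ s, e s ≤ δ s / 8) (β : Bool) :
    BFam 3 K.S Λ where
  B := L.lev.bx β
  e := e
  D := fun s => μ s + Bg s
  he := he
  heo := fun s => by
    have h1 := L.om_ge s β
    have h2 := he8 s
    have h3 := L.δ0 s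
    show 2 * e s < L.om s β
    linarith
  hD := fun s t => L.disp s β (he s) (he8 s) t
  sub := fun s => (L.bx_sub s β).trans (PK_sub G s)
  lf := fun z hz => by
    obtain ⟨U, hU, hf⟩ := lf_PK G z hz
    refine ⟨U, hU, hf.subset ?_⟩
    rintro s ⟨x, hx, hxU⟩
    exact ⟨x, L.bx_sub s β hx, hxU⟩
  dis := fun s s' hne => Set.disjoint_left.2 fun y hy hy' =>
    hne (PK_unique (L.bx_sub s β (interior_subset hy)) (L.bx_sub s' β hy'))

theorem bfam_B (e : K.S → ℝ) (he : ∀ s, 0 < e s) (he8 : ∀ s, e s ≤ δ s / 8) (β : Bool) :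
    (L.bfam e he he8 β).B = L.lev.bx β := rfl

theorem bfam_om (e : K.S → ℝ) (he : ∀ s, 0 < e s) (he8 : ∀ s, e s ≤ δ s / 8) (β : Bool)
    (s : K.S) : (L.bfam e he he8 β).om s = L.om s β := rfl

/-! ### crossings -/

/-- **the crossing numbers** against the variation of one coordinate in the plate -/
theorem cnt_one (e : ξ) (s : K.S) (β : Bool) : ENNReal.ofReal (δ s) *
        cnt (cross (onS h.toFun (sa e) (sb e)) (tg s β)
          (L.lev.lv s (tg s β) : Set ℝ) (PK G s)) ≤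
      ENNReal.ofReal ((1 - 2 * η)⁻¹ * (1 + r)) *
        varIn (onS h.toFun (sa e) (sb e)) (tg s β) (PK G s) 0 1 +
        ENNReal.ofReal (εE e) := by
  have h1 : (L.lev.lv s (tg s β) : Set ℝ) = levs (L.N s) (L.a s β) := by
    ext t
    rw [Finset.mem_coe, mem_levs]
  rw [h1]
  exact (L.crs e).one (s, β)

/-- **the crossing numbers** of the squares without compensation windows -/
theorem cnt_one0 (e : ξ) (s : K.S) (β : Bool) (hW : Wn s β = ∅) : ENNReal.ofReal (δ s) *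
        cnt (cross (onS h.toFun (sa e) (sb e)) (tg s β)
          (L.lev.lv s (tg s β) : Set ℝ) (PK G s)) ≤
      ENNReal.ofReal (1 - 2 * η)⁻¹ *
        varIn (onS h.toFun (sa e) (sb e)) (tg s β) (PK G s) 0 1 +
        ENNReal.ofReal (εE e) := by
  have h1 : (L.lev.lv s (tg s β) : Set ℝ) = levs (L.N s) (L.a s β) := by
    ext t
    rw [Finset.mem_coe, mem_levs]
  rw [h1]
  exact L.crs0 e s β hW

/-- **the crossing numbers** in a part of the window -/
theorem cnt_win (e : ξ) (s : K.S) (β : Bool) {p : ℝ × ℝ} (hp : p ∈ Jn s β) :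
    ENNReal.ofReal (δ s) * cnt (cross (onS h.toFun (sa e) (sb e)) (tg s β)
          (L.lev.lv s (tg s β) : Set ℝ) (PK G s ∩ {y | p.1 ≤ y (tg s β) ∧ y (tg s β) ≤ p.2})) ≤
      ENNReal.ofReal ((1 - 2 * η)⁻¹ * (1 + r)) *
        varIn (onS h.toFun (sa e) (sb e)) (tg s β)
          (PK G s ∩ {y | p.1 ≤ y (tg s β) ∧ y (tg s β) ≤ p.2}) 0 1 +
        ENNReal.ofReal (εE e) := by
  have h1 : (L.lev.lv s (tg s β) : Set ℝ) = levs (L.N s) (L.a s β) := by
    ext t
    rw [Finset.mem_coe, mem_levs]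
  rw [h1]
  exact L.crsw e s β p hp

/-- finitely many, transversal crossings -/
theorem cross_fin (e : ξ) (s : K.S) (β : Bool) :
    (cross (onS h.toFun (sa e) (sb e)) (tg s β) (L.lev.lv s (tg s β) : Set ℝ)
      (PK G s)).Finite := by
  have h1 : (L.lev.lv s (tg s β) : Set ℝ) = levs (L.N s) (L.a s β) := by
    ext t
    rw [Finset.mem_coe, mem_levs]
  rw [h1]
  exact (L.crs e).fin (s, β)

theorem cross_trans (e : ξ) (s : K.S) (β : Bool) :
    ∀ t ∈ cross (onS h.toFun (sa e) (sb e)) (tg s β) (L.lev.lv s (tg s β) : Set ℝ)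
      (PK G s), TransAt (onS h.toFun (sa e) (sb e)) (tg s β) t := by
  have h1 : (L.lev.lv s (tg s β) : Set ℝ) = levs (L.N s) (L.a s β) := by
    ext t
    rw [Finset.mem_coe, mem_levs]
  rw [h1]
  exact (L.crs e).trans (s, β)

/-- **all crossings of one edge** against its length -/
theorem cnt_sum (e : ξ) (he : segment ℝ (sa e) (sb e) ⊆ Ω) : ∑' q : K.S × Bool, ENNReal.ofReal (δ q.1) *
        cnt (cross (onS h.toFun (sa e) (sb e)) (tg q.1 q.2)
          (L.lev.lv q.1 (tg q.1 q.2) : Set ℝ) (PK G q.1)) ≤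
      ENNReal.ofReal ((1 - 2 * η)⁻¹ * (1 + r)) *
        (2 * len (onS h.toFun (sa e) (sb e)) (Icc 0 1)) + ENNReal.ofReal (εE e) := by
  have h0 : ∀ q : K.S × Bool, (L.lev.lv q.1 (tg q.1 q.2) : Set ℝ) =
      levs (L.N q.1) (L.a q.1 q.2) := by
    intro q
    ext t
    rw [Finset.mem_coe, mem_levs]
  simp_rw [h0]
  have h1 := (L.crs e).sum_le_len (m := 2) (Croft.conicalOn_onS h.conical he)
    (fun q => PK_convex G q.1) (fun y => by exact_mod_cast encard_PK G y)
  exact_mod_cast h1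

/-- the same, with the steps as weights -/
theorem cnt_sum_om (e : ξ) (he : segment ℝ (sa e) (sb e) ⊆ Ω) : ∑' q : K.S × Bool, ENNReal.ofReal (L.om q.1 q.2) *
        cnt (cross (onS h.toFun (sa e) (sb e)) (tg q.1 q.2)
          (L.lev.lv q.1 (tg q.1 q.2) : Set ℝ) (PK G q.1)) ≤
      2 * (ENNReal.ofReal ((1 - 2 * η)⁻¹ * (1 + r)) *
        (2 * len (onS h.toFun (sa e) (sb e)) (Icc 0 1)) + ENNReal.ofReal (εE e)) := by
  refine le_trans ?_ (mul_le_mul_right (L.cnt_sum e he) 2)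
  rw [← ENNReal.tsum_mul_left]
  refine ENNReal.tsum_le_tsum fun q => ?_
  rw [← mul_assoc]
  refine mul_le_mul_left ?_ _
  have h1 : ENNReal.ofReal (L.om q.1 q.2) ≤ ENNReal.ofReal (2 * δ q.1) :=
    ENNReal.ofReal_le_ofReal (L.om_le_two q.1 q.2)
  refine h1.trans (le_of_eq ?_)
  rw [ENNReal.ofReal_mul (by norm_num)]
  norm_num

/-- the step against the width of the flats -/
theorem om_le_c (s : K.S) (β : Bool) : L.om s β ≤ 16 * (δ s / 8) := by
  have := L.om_le_two s β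
  linarith

theorem omP_le_c (s : K.S) (β : Bool) (t : ℝ) :
    L.lev.omP s (tg s β) t ≤ 16 * L.lev.c s β := by
  rw [om_eq_omP]
  exact L.om_le_c s β

section bfam

variable {e : K.S → ℝ} (he : ∀ s, 0 < e s) (he8 : ∀ s, e s ≤ δ s / 8)

/-- **slope of the staircases** -/
theorem bfam_slope (β : Bool) (s : K.S) (t t' : ℝ) :
    |(L.bfam e he he8 β).σ s t - (L.bfam e he he8 β).σ s t'| ≤ 8 * |t - t'| := by
  have h0 := L.δ0 s
  have hN := L.pos s
  have he' := he s
  have he8' := he8 s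
  have h2 := L.om_le_two s β
  have hNs := L.Ns s β
  refine abs_sm_sub_le (L.lev.lvs s β) ((L.bfam e he he8 β).tgt s) (by norm_num) ?_ ?_ ?_ t t'
  · have h1 := (L.lv s β).ge 0 hN
    change K.slo s (tg s β) + G.a s + e s - (K.slo s (tg s β) + G.a s) ≤
      8 * (L.a s β 0 - δ s / 8 - (K.slo s (tg s β) + G.a s))
    linarith
  · change L.om s β ≤ 8 * (2 * (δ s / 8))
    linarith
  · have h1 := (L.lv s β).le (L.N s - 1) (Nat.sub_lt hN one_pos)
    change K.shi s (tg s β) - G.a s - (K.slo s (tg s β) + G.a s + (L.N s : ℝ) * L.om s β - e s) ≤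
      8 * (K.shi s (tg s β) - G.a s - (L.a s β (L.N s - 1) + δ s / 8))
    rw [hNs]
    unfold wl
    linarith

/-- **142's hypothesis on the slopes** -/
theorem hs16 : ∀ β s t t', |(L.bfam e he he8 β).σ s t - (L.bfam e he he8 β).σ s t'| ≤
    16 * |t - t'| := fun β s t t' => (L.bfam_slope he he8 β s t t').trans
  (mul_le_mul_of_nonneg_right (by norm_num) (abs_nonneg _))

/-- **142's `PS`** -/
theorem ps {T : Bool → ConHomeo Λ Λ} (hT : ∀ β, (L.bfam e he he8 β).IsS (T β)) :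
    _root_.P073.H142.PS L.lev (fun β => L.bfam e he he8 β) T where
  B := fun _ => rfl
  isS := hT

/-- the displacement off the windows -/
theorem bfam_near (β : Bool) (s : K.S) {t : ℝ} (ht : t ∉ Wn s β) :
    |(L.bfam e he he8 β).σ s t - t| ≤ μ s := L.near s β (he s) (he8 s) ht

end bfam

end PLw

end lemmas

end Vale.Agent.P073.H687
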