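import Vale.Agent.P073.H687.PL4E
import Vale.Agent.P073.H687.PL4D
import Vale.Agent.P073.H669.PLevH

/-!
# P073, H687: **[P-LEV4]** `exists_plev4`

The levels of round P for `K3C` from the slivers of round T (`SlG`), with the compensation windows
around the marked points (`Marks`).
-/

open Set Metric Topology Filter
open scoped ENNReal

namespace Vale.Agent.P073.H687

open _root_.P073 _root_.P073.TR _root_.P073.Net _root_.P073.PA691
open _root_.P073.PR720 (LF)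
open Vale.Agent.P073.St (V)
open Vale.Agent.P073.H471 (Rad Wid Boxes Near lf_ss ss_subset)
open Vale.Agent.P073.H267
open _root_.P073.H345 (tg tg_ne tg_ne_not tg_cases bt bt_tg tg_bt PK)
open Vale.Agent.P073.H669

variable {Λ : Set V} {v : V} {K : BoxCx Λ v} {S : Rad K} {W : Wid K S} {B : Boxes W}

/-- **[P-LEV4]**: the widths `σ` of the slivers are chosen first; `μ` is the displacement off the
windows, `dmax` bounds the spacings (the steps are at most `2 δ`). -/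
theorem exists_plev4 {ρ : V → ℝ} (D : H471.Cells ρ v K) (G : Geo B) {μ : K.S → ℝ}
    (hμ : ∀ s, 0 < μ s) :
    ∃ (μ' : K.S → ℝ) (σ : TBx K → ℝ), (∀ s, 0 < μ' s) ∧ (∀ s, μ' s ≤ μ s) ∧ (∀ b, 0 < σ b) ∧
      ∀ {J R : K.S → ℝ} {Q : K.S → Bool → Finset ℝ} (_ : Marks G J R Q) {r : ℝ} (_ : 0 ≤ r)
        (_ : r ≤ 1 / 7) (_ : ∀ s, 0 ≤ J s) (_ : ∀ s, J s < R s) (_ : ∀ s, J s ≤ r * (R s - J s))
        {Ω : Set V} (_ : IsOpen Ω) (h : ConHomeo Ω Λ)
        {Jb : TBx K → ℝ} (_ : ∀ s l b, Rel s l b → Jb b ≤ J s)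
        {sl : TBx K → Finset (ℝ × ℝ)} (_ : ∀ b, SlG G (Jb b) b (σ b) (sl b))
        {τ : Type} {F : τ → Set V} (_ : ∀ t, ∀ x ∈ Ω, LocConeAt (F t) x)
        (_ : ∀ x ∈ Ω, ∃ U ∈ 𝓝 x, {t | (F t ∩ U).Nonempty}.Finite)
        {ξ : Type} {sa sb : ξ → V} (_ : ∀ e, segment ℝ (sa e) (sb e) ⊆ Ω)
        (_ : ∀ X ⊆ Ω, IsCompact X → {e | (segment ℝ (sa e) (sb e) ∩ X).Nonempty}.Finite)
        {εE : ξ → ℝ} (_ : ∀ e, 0 < εE e) {C : Set ℝ} (_ : C.Countable) {η : ℝ} (_ : 0 < η)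
        (_ : η ≤ 1 / 4) (Jn : K.S → Bool → Finset (ℝ × ℝ)) {dmax : K.S → ℝ}
        (_ : ∀ s, 0 < dmax s),
        ∃ δ : K.S → ℝ, (∀ s, δ s ≤ dmax s) ∧
          Nonempty (PLw G h (plT3 G h F sl) η r F C sa sb εE (wnd R Q) Jn μ' J δ) := by
  have hμ' : ∀ s, 0 < min (μ s) (G.a s) := fun s => lt_min (hμ s) (G.a_pos s)
  obtain ⟨σ, hσ0, hσ, -⟩ := exists_sig (K := K) (μ := fun s => min (μ s) (G.a s) / 16)
    fun s => by have := hμ' s; positivity
  refine ⟨fun s => min (μ s) (G.a s), σ, hμ', fun s => min_le_left _ _, hσ0, ?_⟩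
  intro J R Q HQ r hr hr7 hJ hJR hJr Ω hΩ h Jb hJb sl hsl τ F hF hFlf ξ sa sb hseg hslf εE hε C hC
    η hη hη4 Jn dmax hd
  choose inn hi1 hi2 hi3 using hsl
  refine exists_plw hΩ G h (fun s => side_eq D s (tg_ne s false) (tg_ne s true))
    (T₀ := plT3 G h F inn) (fun s β => plT3_le (fun b p hp => ?_) s β)
    (fun s β => plT3_le hi1 s β) hr hr7 hJ hJR hJr HQ.lo HQ.hi HQ.sep (fun s β p hp => ?_) hμ'
    (fun s => min_le_right _ _)
    (fun s β => (sum_plT3_le hi1 hi2 s β).trans (hσ s (tg s β))) hF hFlf hseg hslf hε hC hη hη4 Jn hd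
  · rcases hi3 b p hp with h1 | h1
    · exact hi1 b p h1
    · exact h1.1
  · classical
    rcases Finset.mem_union.1 hp with h1 | h1
    · obtain ⟨b, hb, hpb⟩ := mem_plT.1 h1
      rcases hi3 b p hpb with h2 | ⟨-, t, ht, h3, h4⟩
      · exact Or.inl (Finset.mem_union.2 (Or.inl (mem_plT.2 ⟨b, hb, h2⟩)))
      · have h5 := hJb s (tg s β) b hb
        rcases HQ.ends s β b hb t ht with h6 | h6 | h6
        · exact Or.inr (Or.inl (by linarith))
        · exact Or.inr (Or.inr (Or.inl (by linarith)))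
        · exact Or.inr (Or.inr (Or.inr ⟨t, h6, by linarith, by linarith⟩))
    · exact Or.inl (Finset.mem_union.2 (Or.inr h1))

end Vale.Agent.P073.H687
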