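import Vale.Agent.P073.H333.NetInB
import Vale.Agent.P073.H73.PreSpec

/-!
# P073, A15 [PRE-B]: the length of a conical curve is the integral of its derivative
-/

open Set Metric Topology Filter Module MeasureTheory
open scoped ENNReal

namespace Vale.Agent.P073.H687

open Vale.Agent.P073.St (V euc)
open Vale.Agent.P073.SQ (ev)
open Vale.Agent.P073.AB
open Vale.Agent.P073.H73 (onSeg segP)
open _root_.P073 (ConHomeo ConicalOn)
open _root_.P073.Net (len euc_nonneg euc_le euc_smul len_add len_segment conical_left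
  conical_right)
open _root_.P073.Gauge (gam)
open _root_.P073.Gauge.C110 (mem_edge_iff ev_apply)
open _root_.P073.Gauge.O407 (jInt eInt_eq deriv_gam)

/-- an affine piece -/
theorem len_affine_piece {q : ℝ → V} {x y : ℝ} {p w : V} (_hxy : x ≤ y)
    (h : ∀ t ∈ Icc x y, q t = p + t • w) :
    len q (Icc x y) ≤ ∫⁻ t in Icc x y, ENNReal.ofReal (euc (deriv q t)) := by
  have h1 : len q (Icc x y) = len (fun t => p + t • w) (Icc x y) :=
    _root_.P073.Net.len_congr h
  have h2 : len (fun t => p + (fun s : ℝ => s) t • w) (Icc x y) ≤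
      ENNReal.ofReal ((y - x) * euc w) :=
    len_segment (Or.inl fun a _ b _ hab => hab) (fun t ht => ht) p w
  have h3 : ∫⁻ t in Icc x y, ENNReal.ofReal (euc (deriv q t)) =
      ENNReal.ofReal ((y - x) * euc w) := by
    rw [← restrict_Ioo_eq_restrict_Icc]
    have h4 : ∫⁻ t in Ioo x y, ENNReal.ofReal (euc (deriv q t)) =
        ∫⁻ _t in Ioo x y, ENNReal.ofReal (euc w) := by
      apply setLIntegral_congr_fun measurableSet_Ioo
      intro t ht
      have h5 : q =ᶠ[𝓝 t] fun t => p + t • w := by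
        filter_upwards [isOpen_Ioo.mem_nhds ht] with s hs
        exact h s (Ioo_subset_Icc_self hs)
      have h6 : HasDerivAt (fun t : ℝ => p + t • w) ((1:ℝ) • w) t :=
        ((hasDerivAt_id t).smul_const w).const_add p
      show ENNReal.ofReal (euc (deriv q t)) = ENNReal.ofReal (euc w)
      rw [h5.deriv_eq, h6.deriv, one_smul]
    rw [h4, setLIntegral_const, Real.volume_Ioo, ← ENNReal.ofReal_mul (euc_nonneg _), mul_comm]
  rw [h1, h3]
  exact h2

theorem lint_add {g : ℝ → ℝ≥0∞} {a b c : ℝ} (hab : a ≤ b) (hbc : b ≤ c) :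
    ∫⁻ t in Icc a c, g t = (∫⁻ t in Icc a b, g t) + ∫⁻ t in Icc b c, g t := by
  have h1 : ∫⁻ t in Icc b c, g t = ∫⁻ t in Ioc b c, g t := by
    rw [Measure.restrict_congr_set Ioc_ae_eq_Icc]
  rw [h1, ← Icc_union_Ioc_eq_Icc hab hbc, lintegral_union measurableSet_Ioc]
  rw [Set.disjoint_left]
  intro x hx hx'
  exact absurd hx.2 (not_le.2 hx'.1)

/-- **the length of a conical curve** (Euclidean norms) -/
theorem conical_len_le {q : ℝ → V} {a b : ℝ} (hab : a ≤ b) (hq : ConicalOn q (Icc a b)) :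
    len q (Icc a b) ≤ ∫⁻ t in Icc a b, ENNReal.ofReal (euc (deriv q t)) := by
  set S : Set ℝ := {x | x ∈ Icc a b ∧
    len q (Icc a x) ≤ ∫⁻ t in Icc a x, ENNReal.ofReal (euc (deriv q t))} with hS
  have haS : a ∈ S := by
    refine ⟨⟨le_refl _, hab⟩, ?_⟩
    have : len q (Icc a a) = 0 :=
      eVariationOn.subsingleton _ (by rw [Icc_self]; exact subsingleton_singleton)
    rw [this]; exact bot_le
  have hbdd : BddAbove S := ⟨b, fun x hx => hx.1.2⟩
  set c := sSup S with hc
  have hac : a ≤ c := le_csSup hbdd haS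
  have hcb : c ≤ b := csSup_le ⟨a, haS⟩ fun x hx => hx.1.2
  have step : ∀ x y, a ≤ x → x ≤ y → len q (Icc a x) ≤
      (∫⁻ t in Icc a x, ENNReal.ofReal (euc (deriv q t))) →
      len q (Icc x y) ≤ (∫⁻ t in Icc x y, ENNReal.ofReal (euc (deriv q t))) →
      len q (Icc a y) ≤ ∫⁻ t in Icc a y, ENNReal.ofReal (euc (deriv q t)) := by
    intro x y hx hxy h1 h2
    rw [len_add hx hxy, lint_add hx hxy]
    exact add_le_add h1 h2
  have hcS : c ∈ S := by
    refine ⟨⟨hac, hcb⟩, ?_⟩
    rcases hac.eq_or_lt with h | h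
    · rw [← h]; exact haS.2
    · obtain ⟨r, hr, hra, w, hw⟩ := conical_left hq ⟨hac, hcb⟩ h
      obtain ⟨x, hxS, hx⟩ := exists_lt_of_lt_csSup ⟨a, haS⟩ (show c - r < c by linarith)
      have hxc : x ≤ c := le_csSup hbdd hxS
      refine step x c hxS.1.1 hxc hxS.2 (len_affine_piece (p := q c + c • w) (w := -w) hxc ?_)
      intro t ht
      have := hw (c - t) ⟨by linarith [ht.2], by linarith [ht.1]⟩
      rw [sub_sub_cancel] at this
      rw [this]
      module
  rcases hcb.eq_or_lt with h | h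
  · rw [← h]; exact hcS.2
  · exfalso
    obtain ⟨r, hr, hrb, w, hw⟩ := conical_right hq ⟨hac, hcb⟩ h
    have : c + r ∈ S := by
      refine ⟨⟨by linarith, hrb⟩, ?_⟩
      refine step c (c + r) hac (by linarith) hcS.2
        (len_affine_piece (p := q c - c • w) (w := w) (by linarith) ?_)
      intro t ht
      have := hw (t - c) ⟨by linarith [ht.1], by linarith [ht.2]⟩
      rw [add_sub_cancel] at this
      rw [this]
      module
    have := le_csSup hbdd this
    linarith

theorem onSeg_segP (h : V → V) (v : V) (e : Idx × Fin 3) :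
    onSeg h (segP v e) = fun t => h (gam v e t) := by
  funext t
  simp only [onSeg, segP, gam, add_sub_cancel_left]

variable {Ω Λ : Set V}

/-- **[PRE-B]**, Euclidean form -/
theorem len_onSeg_euc (h : ConHomeo Ω Λ) {v : V} {e : Idx × Fin 3} (he : edge v e ⊆ Ω) :
    len (onSeg h.toFun (segP v e)) (Icc 0 1) ≤
      eInt v e fun x => ENNReal.ofReal (euc (lineDeriv ℝ h.toFun x (ev e.2))) := by
  have hmaps : MapsTo (gam v e) (Icc 0 1) Ω := fun t ht => he (mem_edge_iff.2 ⟨t, ht, rfl⟩)
  have hg : gam v e = fun t => AffineMap.lineMap (k := ℝ) (segP v e).1 (segP v e).2 t := by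
    funext t
    rw [AffineMap.lineMap_apply]
    simp only [gam, segP, vsub_eq_sub, vadd_eq_add, add_sub_cancel_left]
    rw [add_comm]
  have hcon : ConicalOn (fun t => h.toFun (gam v e t)) (Icc 0 1) := by
    refine ConicalOn.comp (g := h.toFun) (h := gam v e) h.conical ?_ hmaps ?_
    · rw [hg]
      exact _root_.P073.conicalOn_of_affine _ (_root_.P073.Convex.conicalSet (convex_Icc 0 1))
    · rw [hg]
      exact AffineMap.lineMap_continuous.continuousOn
  rw [onSeg_segP]
  refine (conical_len_le zero_le_one hcon).trans ?_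
  rw [eInt_eq, jInt, ← lintegral_const_mul' _ _ ENNReal.ofReal_ne_top]
  refine lintegral_mono fun t => ?_
  rw [deriv_gam, euc_smul, abs_of_nonneg (by positivity), ENNReal.ofReal_mul (by positivity)]

/-- **[PRE-B]** -/
theorem len_onSeg_le (h : ConHomeo Ω Λ) {v : V} {e : Idx × Fin 3} (he : edge v e ⊆ Ω) :
    len (onSeg h.toFun (segP v e)) (Icc 0 1) ≤
      2 * eInt v e fun x => ENNReal.ofReal ‖lineDeriv ℝ h.toFun x (ev e.2)‖ := by
  refine (len_onSeg_euc h he).trans ?_
  rw [← S293.eInt_const_mul _ _ _ (by norm_num)]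
  refine H333.eInt_mono' v e fun x => ?_
  calc ENNReal.ofReal (euc (lineDeriv ℝ h.toFun x (ev e.2)))
      ≤ ENNReal.ofReal (2 * ‖lineDeriv ℝ h.toFun x (ev e.2)‖) :=
        ENNReal.ofReal_le_ofReal (euc_le _)
    _ = 2 * ENNReal.ofReal ‖lineDeriv ℝ h.toFun x (ev e.2)‖ := by
        rw [ENNReal.ofReal_mul (by norm_num)]; norm_num

end Vale.Agent.P073.H687
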