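import Vale.Agent.P073.H687.Til
import Vale.Agent.P073.H194.PartMesh
import Vale.Agent.P073.AB.Graph907
import Vale.Agent.P073.H73.PreSpec

/-!
# P073, A15 [DICT] + [ADP]: the uncut part of the cut mesh

Let `T` be a tiling of `Ω` by convex polytopes, some of whose tiles are the cubes of a dyadic
partition `I`. The faces between two such tiles are the minimal squares of `I`, and the minimal
edges of `I` are adapted to the mesh of `T`.
-/

open Set Metric Topology Filter Module MeasureTheory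
open scoped ENNReal

namespace Vale.Agent.P073.H687

open Vale.Agent.P073.St (V)
open Vale.Agent.P073.SQ (ev)
open Vale.Agent.P073.H73 (Fat Mesh usq MinEdge segP)
open Vale.Agent.P073.AB Vale.Agent.P073.AB.P86
open _root_.P073.Net (dyc dyo)
open _root_.P073.Net.NC (dyA dyB fine_sub fine_sub' dyc_sub)

theorem fin3_third (k l : Fin 3) (_ : k ≠ l) : ∃ j : Fin 3, j ≠ l ∧ j ≠ k := by
  revert k l; decide

theorem fin3_all (l k j : Fin 3) (_ : k ≠ l) (_ : j ≠ l) (_ : j ≠ k) :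
    ∀ i, i = l ∨ i = k ∨ i = j := by
  revert l k j; decide

/-! ### Two dimensional sets -/

theorem proj_ne_zero (j : Fin 3) : (ContinuousLinearMap.proj j : V →L[ℝ] ℝ) ≠ 0 := fun h => by
  have := congrArg (fun L : V →L[ℝ] ℝ => L (ev j)) h
  simp [ev] at this

theorem not_two_of_coords {F : Set V} {j k : Fin 3} (hjk : j ≠ k) {a b : ℝ}
    (ha : ∀ x ∈ F, x j = a) (hb : ∀ x ∈ F, x k = b) : ¬ Two F := by
  intro h
  have h1 : vectorSpan ℝ F =
      LinearMap.ker ((ContinuousLinearMap.proj j : V →L[ℝ] ℝ) : V →ₗ[ℝ] ℝ) :=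
    Submodule.eq_of_le_of_finrank_eq (vectorSpan_le_ker (u := a) ha)
      (by rw [finrank_ker (proj_ne_zero j)]; exact h)
  have h2 := vectorSpan_le_ker (f := (ContinuousLinearMap.proj k : V →L[ℝ] ℝ)) (u := b) hb
  rw [h1] at h2
  have h3 : ev k ∈ LinearMap.ker ((ContinuousLinearMap.proj j : V →L[ℝ] ℝ) : V →ₗ[ℝ] ℝ) := by
    show ev k j = 0
    simp [ev, hjk]
  have h4 : ev k k = 0 := h2 h3
  simp [ev] at h4

theorem vectorSpan_squ (v : V) (s : Idx × Fin 3) : vectorSpan ℝ (squ v s) =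
    LinearMap.ker ((ContinuousLinearMap.proj s.2 : V →L[ℝ] ℝ) : V →ₗ[ℝ] ℝ) := by
  apply le_antisymm (vectorSpan_le_ker (u := v s.2 + s.1.2 s.2 / 2 ^ s.1.1) fun x hx => hx.1)
  have hm : (0:ℝ) < 2 ^ s.1.1 := by positivity
  have key : ∀ j, j ≠ s.2 → ev j ∈ vectorSpan ℝ (squ v s) := by
    intro j hj
    have h0 : pt v s.1.1 s.1.2 ∈ squ v s :=
      ⟨rfl, fun k _ => ⟨le_rfl, by show v k + _ / _ ≤ _; gcongr; linarith⟩⟩
    have h1 : pt v s.1.1 s.1.2 + (1 / 2 ^ s.1.1 : ℝ) • ev j ∈ squ v s := by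
      refine ⟨?_, fun k _ => ?_⟩
      · simp [pt, ev, hj.symm]
      · by_cases hk : k = j
        · subst hk
          have e : (pt v s.1.1 s.1.2 + (1 / 2 ^ s.1.1 : ℝ) • ev k) k =
              v k + (s.1.2 k + 1) / 2 ^ s.1.1 := by
            simp only [pt, ev, Pi.add_apply, Pi.smul_apply, Pi.single_eq_same, smul_eq_mul, mul_one]
            rw [add_div]; ring
          rw [e]
          exact ⟨by gcongr; linarith, le_rfl⟩
        · have e : (pt v s.1.1 s.1.2 + (1 / 2 ^ s.1.1 : ℝ) • ev j) k =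
              v k + s.1.2 k / 2 ^ s.1.1 := by
            simp [pt, ev, hk]
          rw [e]
          exact ⟨le_rfl, by gcongr; linarith⟩
    have h2 := vsub_mem_vectorSpan ℝ h1 h0
    rw [vsub_eq_sub, add_sub_cancel_left] at h2
    have h3 := Submodule.smul_mem _ (2 ^ s.1.1 : ℝ) h2
    rw [smul_smul, mul_one_div_cancel hm.ne', one_smul] at h3
    exact h3
  intro x hx
  have hx0 : x s.2 = 0 := hx
  have e : x = ∑ j, x j • ev j := by
    funext k
    simp [ev, Finset.sum_apply, Pi.single_apply]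
  rw [e]
  refine Submodule.sum_mem _ fun j _ => ?_
  by_cases hj : j = s.2
  · rw [hj, hx0, zero_smul]; exact Submodule.zero_mem _
  · exact Submodule.smul_mem _ _ (key j hj)

theorem two_squ (v : V) (s : Idx × Fin 3) : Two (squ v s) := by
  rw [Two, vectorSpan_squ, finrank_ker (proj_ne_zero _)]

/-! ### The intersection of two dyadic cubes -/

theorem side_cases {m m' : ℕ} (h : m ≤ m') {a b : ℤ} {w x : ℝ} (h1 : w + a / 2 ^ m ≤ x)
    (h2 : x ≤ w + (a + 1) / 2 ^ m) (h3 : w + b / 2 ^ m' ≤ x) (h4 : x ≤ w + (b + 1) / 2 ^ m') :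
    ((a:ℝ) / 2 ^ m ≤ b / 2 ^ m' ∧ ((b:ℝ) + 1) / 2 ^ m' ≤ (a + 1) / 2 ^ m) ∨
      (b:ℝ) / 2 ^ m' = (a + 1) / 2 ^ m ∨ ((b:ℝ) + 1) / 2 ^ m' = a / 2 ^ m := by
  rcases lt_or_ge ((b:ℝ) / 2 ^ m') ((a + 1) / 2 ^ m) with h5 | h5
  · rcases lt_or_ge ((a:ℝ) / 2 ^ m) ((b + 1) / 2 ^ m') with h6 | h6
    · left
      refine ⟨dyB h h6, ?_⟩
      have := dyA (a := a + 1) (b := b) h (by push_cast; exact h5)
      push_cast at this
      exact this
    · right; right
      exact le_antisymm h6 (by linarith)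
  · right; left
    exact le_antisymm (by linarith) h5

section part

variable {Ω : Set V} {v : V} {I : Set Idx}

theorem exists_squ_aux (hI : Part Ω v I) {q q' : Idx} (hq : q ∈ I) (hq' : q' ∈ I) (hne : q ≠ q')
    (hle : q.1 ≤ q'.1) (h2 : Two (dyc v q.1 q.2 ∩ dyc v q'.1 q'.2)) :
    ∃ s, MinSq v I s ∧ dyc v q.1 q.2 ∩ dyc v q'.1 q'.2 = squ v s := by
  obtain ⟨x, hx, hx'⟩ := h2.nonempty
  have hc : ∀ k, _ := fun k => side_cases hle (hx k).1 (hx k).2 (hx' k).1 (hx' k).2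
  -- a coordinate in which the intervals are not nested
  have hj : ∃ j, (q'.2 j : ℝ) / 2 ^ q'.1 = (q.2 j + 1) / 2 ^ q.1 ∨
      ((q'.2 j : ℝ) + 1) / 2 ^ q'.1 = q.2 j / 2 ^ q.1 := by
    by_contra hcon
    push Not at hcon
    have h3 : dyc v q'.1 q'.2 ⊆ dyc v q.1 q.2 := dyc_sub fun k => by
      rcases hc k with h | h | h
      · exact h
      · exact absurd h (hcon k).1
      · exact absurd h (hcon k).2
    exact hne (eq_of_sub hI hq' hq h3).symm
  obtain ⟨j, hj⟩ := hj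
  -- the intersection lies in a plane
  have hpl : ∀ j, ((q'.2 j : ℝ) / 2 ^ q'.1 = (q.2 j + 1) / 2 ^ q.1 ∨
      ((q'.2 j : ℝ) + 1) / 2 ^ q'.1 = q.2 j / 2 ^ q.1) →
      ∃ a, ∀ y ∈ dyc v q.1 q.2 ∩ dyc v q'.1 q'.2, y j = a := by
    rintro j (h | h)
    · refine ⟨v j + (q.2 j + 1) / 2 ^ q.1, fun y hy => ?_⟩
      have a1 := (hy.1 j).2
      have a2 := (hy.2 j).1
      rw [h] at a2
      exact le_antisymm a1 a2
    · refine ⟨v j + q.2 j / 2 ^ q.1, fun y hy => ?_⟩
      have a1 := (hy.1 j).1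
      have a2 := (hy.2 j).2
      rw [h] at a2
      exact le_antisymm a2 a1
  have hoth : ∀ k, k ≠ j → (q.2 k : ℝ) / 2 ^ q.1 ≤ q'.2 k / 2 ^ q'.1 ∧
      ((q'.2 k : ℝ) + 1) / 2 ^ q'.1 ≤ (q.2 k + 1) / 2 ^ q.1 := by
    intro k hk
    rcases hc k with h | h
    · exact h
    · exfalso
      obtain ⟨a, ha⟩ := hpl j hj
      obtain ⟨b, hb⟩ := hpl k h
      exact not_two_of_coords hk.symm ha hb h2
  have hlen : (1:ℝ) / 2 ^ q'.1 ≤ 1 / 2 ^ q.1 := by
    rw [one_div_le_one_div (by positivity) (by positivity)]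
    exact pow_le_pow_right₀ (by norm_num) hle
  rcases hj with hj | hj
  · -- the fine cube is above
    set s : Idx × Fin 3 := (q', j) with hs
    have h3 : dyc v s.1.1 (lo s) ⊆ dyc v q.1 q.2 := dyc_sub fun k => by
      by_cases hk : k = j
      · subst hk
        have e : lo s k = q'.2 k - 1 := lo_same s
        rw [e]
        have e2 : (((q'.2 k - 1 : ℤ) : ℝ) + 1) / 2 ^ s.1.1 = q'.2 k / 2 ^ q'.1 := by
          push_cast; rw [sub_add_cancel]
        have e3 : ((q'.2 k - 1 : ℤ) : ℝ) / 2 ^ s.1.1 = q'.2 k / 2 ^ q'.1 - 1 / 2 ^ q'.1 := by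
          push_cast; rw [sub_div]
        rw [e2, e3, hj]
        refine ⟨?_, le_rfl⟩
        rw [add_div]
        linarith
      · have e : lo s k = q'.2 k := lo_other s hk
        rw [e]
        exact hoth k hk
    have h4 : P86.Two v I s q' q := ⟨hq', hq, Subset.rfl, h3⟩
    have hf : FaceOf s q' := ⟨rfl, Or.inl rfl, fun j _ => rfl⟩
    refine ⟨s, minSq_of_two hI h4 ⟨q', hq', hf⟩, ?_⟩
    apply Subset.antisymm
    · rintro y ⟨hy, hy'⟩
      refine ⟨?_, fun k _ => hy' k⟩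
      have a1 := (hy j).2
      have a2 := (hy' j).1
      rw [← hj] at a1
      exact le_antisymm a1 a2
    · intro y hy
      exact ⟨h3 (squ_sub_lo hy), squ_sub_hi hy⟩
  · -- the fine cube is below
    set s : Idx × Fin 3 := ((q'.1, Function.update q'.2 j (q'.2 j + 1)), j) with hs
    have hlo : lo s = q'.2 := by
      funext k
      by_cases hk : k = j
      · subst hk
        have e : lo s k = s.1.2 k - 1 := lo_same s
        rw [e]
        simp [hs]
      · have e : lo s k = s.1.2 k := lo_other s hk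
        rw [e]
        simp [hs, hk]
    have hsj : s.1.2 j = q'.2 j + 1 := by simp [hs]
    have hsk : ∀ k, k ≠ j → s.1.2 k = q'.2 k := fun k hk => by simp [hs, hk]
    have h3 : dyc v s.1.1 s.1.2 ⊆ dyc v q.1 q.2 := dyc_sub fun k => by
      by_cases hk : k = j
      · subst hk
        rw [hsj]
        have e1 : ((q'.2 k + 1 : ℤ) : ℝ) / 2 ^ s.1.1 = (q'.2 k + 1) / 2 ^ q'.1 := by push_cast; rfl
        have e2 : (((q'.2 k + 1 : ℤ) : ℝ) + 1) / 2 ^ s.1.1 =
            (q'.2 k + 1) / 2 ^ q'.1 + 1 / 2 ^ q'.1 := by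
          push_cast; exact add_div _ _ _
        rw [e1, e2, hj]
        refine ⟨le_rfl, ?_⟩
        rw [add_div]
        linarith
      · rw [hsk k hk]
        exact hoth k hk
    have h3' : dyc v s.1.1 (lo s) ⊆ dyc v q'.1 q'.2 := by rw [hlo]
    have h4 : P86.Two v I s q q' := ⟨hq, hq', h3, h3'⟩
    have hf : FaceOf s q' := ⟨rfl, Or.inr hsj, fun k hk => hsk k hk⟩
    refine ⟨s, minSq_of_two hI h4 ⟨q', hq', hf⟩, ?_⟩
    apply Subset.antisymm
    · rintro y ⟨hy, hy'⟩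
      refine ⟨?_, fun k hk => ?_⟩
      · have a1 := (hy j).1
        have a2 := (hy' j).2
        rw [← hj] at a1
        show y j = v j + (s.1.2 j : ℝ) / 2 ^ q'.1
        rw [hsj]
        push_cast
        exact le_antisymm a2 a1
      · rw [hsk k hk]
        exact hy' k
    · intro y hy
      exact ⟨h3 (squ_sub_hi hy), h3' (squ_sub_lo hy)⟩

/-- **[DICT]** the intersection of two cubes of the partition, if it is two-dimensional, is a
minimal square -/
theorem exists_squ (hI : Part Ω v I) {q q' : Idx} (hq : q ∈ I) (hq' : q' ∈ I) (hne : q ≠ q')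
    (h2 : Two (dyc v q.1 q.2 ∩ dyc v q'.1 q'.2)) :
    ∃ s, MinSq v I s ∧ dyc v q.1 q.2 ∩ dyc v q'.1 q'.2 = squ v s := by
  rcases le_total q.1 q'.1 with h | h
  · exact exists_squ_aux hI hq hq' hne h h2
  · rw [inter_comm] at h2 ⊢
    exact exists_squ_aux hI hq' hq hne.symm h h2

/-- the two cubes of a minimal square are different -/
theorem ne_of_two (hI : Part Ω v I) {s : Idx × Fin 3} (hs : MinSq v I s) {qp qm : Idx}
    (h : P86.Two v I s qp qm) : qp ≠ qm := by
  rintro rfl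
  obtain ⟨⟨c, hc, hf⟩, -⟩ := hs
  have hne : lo s ≠ s.1.2 := fun h => by
    have h2 := congrFun h s.2
    rw [lo_same] at h2
    omega
  rcases faceOf_iff.1 hf with h1 | h1
  · have h2 : c = qp := eq_of_sub hI hc h.memp (by rw [h1]; exact h.subp)
    have h3 := h.subm
    rw [← h2, h1] at h3
    exact hne (eq_of_sub_same h3)
  · have h2 : c = qp := eq_of_sub hI hc h.memp (by rw [h1]; exact h.subm)
    have h3 := h.subp
    rw [← h2, h1] at h3
    exact hne (eq_of_sub_same h3).symm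

/-- **[DICT]** a minimal square is the intersection of its two cubes -/
theorem inter_eq (hI : Part Ω v I) {s : Idx × Fin 3} (hs : MinSq v I s) {qp qm : Idx}
    (h : P86.Two v I s qp qm) : dyc v qp.1 qp.2 ∩ dyc v qm.1 qm.2 = squ v s := by
  have hp : squ v s ⊆ dyc v qp.1 qp.2 := squ_sub_hi.trans h.subp
  have hm : squ v s ⊆ dyc v qm.1 qm.2 := squ_sub_lo.trans h.subm
  have hpos : (0:ℝ) < 1 / 2 ^ s.1.1 := by positivity
  apply Subset.antisymm _ (subset_inter hp hm)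
  rintro x ⟨hxp, hxm⟩
  have e0 : sc v s s.2 = v s.2 + s.1.2 s.2 / 2 ^ s.1.1 := by simp [sc]
  have ap := abseq (bd_pos hI hs h.memp hp).1
  have am := abseq (bd_pos hI hs h.memm hm).1
  rw [e0] at ap am
  have bp := sub_ineq h.subp s.2
  have bm := sub_ineq h.subm s.2
  rw [lo_same] at bm
  have e1 : ((s.1.2 s.2 - 1 : ℤ) : ℝ) / 2 ^ s.1.1 =
      s.1.2 s.2 / 2 ^ s.1.1 - 1 / 2 ^ s.1.1 := by
    push_cast; rw [sub_div]
  rw [e1] at bm
  rw [div_add_one (s.1.2 s.2 : ℝ)] at bp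
  have hlev : x s.2 = v s.2 + s.1.2 s.2 / 2 ^ s.1.1 := by
    apply le_antisymm
    · rcases am with am | am
      · exfalso; linarith [bm.1]
      · rw [am]; exact (hxm s.2).2
    · rcases ap with ap | ap
      · rw [ap]; exact (hxp s.2).1
      · exfalso; linarith [bp.2]
  refine ⟨hlev, fun k hk => ?_⟩
  obtain ⟨⟨c, hc, hf⟩, -⟩ := hs
  rcases faceOf_iff.1 hf with h1 | h1
  · have h2 : c = qp := eq_of_sub hI hc h.memp (by rw [h1]; exact h.subp)
    have h3 := hxp k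
    rw [← h2, h1] at h3
    exact h3
  · have h2 : c = qm := eq_of_sub hI hc h.memm (by rw [h1]; exact h.subm)
    have h3 := hxm k
    rw [← h2, h1] at h3
    simp only [lo_other s hk] at h3
    exact h3

/-- a cube of the partition which contains a minimal square is one of its two cubes -/
theorem eq_of_squ_sub (hI : Part Ω v I) {s : Idx × Fin 3} {qp qm : Idx}
    (h : P86.Two v I s qp qm) {r : Idx} (hr : r ∈ I) (hsub : squ v s ⊆ dyc v r.1 r.2) :
    r = qp ∨ r = qm :=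
  rel_mem hI h sc_mem hr (hsub (rel_sub sc_mem))

/-! ### Minimal edges -/

/-- a cube of the partition which contains an inner point of a minimal edge contains the edge -/
theorem edge_sub_of_inner {e : Idx × Fin 3} (he : MinEdge v I e) {q : Idx}
    (hq : q ∈ I) {x : V} (hx : x ∈ edge v e) (h1 : v e.2 + e.1.2 e.2 / 2 ^ e.1.1 < x e.2)
    (h2 : x e.2 < v e.2 + (e.1.2 e.2 + 1) / 2 ^ e.1.1) (hxq : x ∈ dyc v q.1 q.2) :
    edge v e ⊆ dyc v q.1 q.2 := by
  obtain ⟨⟨m, z⟩, k⟩ := e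
  have h1' : v k + (z k : ℝ) / 2 ^ m < x k := h1
  have h2' : x k < v k + ((z k : ℝ) + 1) / 2 ^ m := h2
  rcases le_or_gt q.1 m with hle | hgt
  · intro y hy
    rw [Gr.mem_edge] at hx hy
    intro j
    by_cases hj : j = k
    · subst hj
      have a1 := hxq j
      have b1 : (q.2 j : ℝ) / 2 ^ q.1 ≤ z j / 2 ^ m :=
        dyB hle (by linarith [a1.1])
      have b2 : ((z j : ℝ) + 1) / 2 ^ m ≤ ((q.2 j + 1 : ℤ) : ℝ) / 2 ^ q.1 :=
        dyA hle (by push_cast; linarith [a1.2])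
      push_cast at b2
      have c1 : v j + (z j : ℝ) / 2 ^ m ≤ y j := hy.2.1
      have c2 : y j ≤ v j + ((z j : ℝ) + 1) / 2 ^ m := hy.2.2
      constructor <;> linarith
    · have a1 := hx.1 j hj
      have a2 := hy.1 j hj
      rw [a2, ← a1]
      exact hxq j
  · exfalso
    obtain ⟨Z, hZ⟩ := Gr.exists_ancestor' v hgt.le q.2
    have hEZ := Gr.edgeOf_of_mem hx h1 h2 (hZ hxq)
    obtain ⟨w, hw1, -, hw3⟩ := Gr.exists_sub_edge hEZ hZ hx hxq
    exact he.2 ((q.1, w), k) ⟨q, hq, hw1⟩ hgt hw3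

theorem segment_segP (v : V) (e : Idx × Fin 3) : segment ℝ (segP v e).1 (segP v e).2 = edge v e :=
  rfl

theorem segP_ne (v : V) (e : Idx × Fin 3) : (segP v e).1 ≠ (segP v e).2 := by
  intro h
  have h1 := congrFun h e.2
  have hp : (0:ℝ) < 1 / 2 ^ e.1.1 := by positivity
  simp only [segP, ev, Pi.add_apply, Pi.smul_apply, Pi.single_eq_same, smul_eq_mul, mul_one] at h1
  linarith

/-- inner points of a dyadic edge -/
theorem inner_of_openSegment {e : Idx × Fin 3} {x : V}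
    (hx : x ∈ openSegment ℝ (segP v e).1 (segP v e).2) :
    x ∈ edge v e ∧ v e.2 + e.1.2 e.2 / 2 ^ e.1.1 < x e.2 ∧
      x e.2 < v e.2 + (e.1.2 e.2 + 1) / 2 ^ e.1.1 := by
  refine ⟨openSegment_subset_segment ℝ _ _ hx, ?_⟩
  rw [openSegment_eq_image'] at hx
  obtain ⟨t, ht, rfl⟩ := hx
  have hp : (0:ℝ) < 1 / 2 ^ e.1.1 := by positivity
  have e1 : ((segP v e).1 + t • ((segP v e).2 - (segP v e).1)) e.2 =
      v e.2 + e.1.2 e.2 / 2 ^ e.1.1 + t * (1 / 2 ^ e.1.1) := by
    simp [segP, pt, ev]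
  show v e.2 + e.1.2 e.2 / 2 ^ e.1.1 < ((segP v e).1 + t • ((segP v e).2 - (segP v e).1)) e.2 ∧
    ((segP v e).1 + t • ((segP v e).2 - (segP v e).1)) e.2 < v e.2 + (e.1.2 e.2 + 1) / 2 ^ e.1.1
  rw [e1, add_div]
  constructor
  · have := mul_pos ht.1 hp
    linarith
  · have := mul_lt_mul_of_pos_right ht.2 hp
    linarith

theorem norm_segP (v : V) (e : Idx × Fin 3) : ‖(segP v e).2 - (segP v e).1‖ = 1 / 2 ^ e.1.1 := by
  have h : (segP v e).2 - (segP v e).1 = (1 / 2 ^ e.1.1 : ℝ) • ev e.2 := by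
    simp [segP]
  have h1 : ‖ev e.2‖ = 1 := by simp [ev, Pi.norm_single]
  rw [h, norm_smul, h1, mul_one, Real.norm_of_nonneg (by positivity)]

theorem segP_injective (v : V) : Function.Injective (segP v) := by
  intro e e' h
  have h0 := norm_segP v e
  rw [h, norm_segP] at h0
  have hm : e.1.1 = e'.1.1 := by
    have h1 : (2:ℝ) ^ e'.1.1 = 2 ^ e.1.1 := by
      rw [one_div, one_div] at h0
      exact inv_injective h0
    exact (pow_right_injective₀ (by norm_num) (by norm_num) h1).symm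
  have hz : e.1.2 = e'.1.2 := by
    funext k
    have h1 : v k + (e.1.2 k : ℝ) / 2 ^ e.1.1 = v k + e'.1.2 k / 2 ^ e'.1.1 :=
      congrFun (congrArg Prod.fst h) k
    rw [hm] at h1
    have h2 : (e.1.2 k : ℝ) / 2 ^ e'.1.1 = e'.1.2 k / 2 ^ e'.1.1 := by linarith
    have h3 := (div_left_inj' (show ((2:ℝ) ^ e'.1.1) ≠ 0 by positivity)).1 h2
    exact_mod_cast h3
  have hk : e.2 = e'.2 := by
    by_contra hne
    have h1 : (segP v e).2 - (segP v e).1 = (segP v e').2 - (segP v e').1 := by rw [h]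
    have e1 : ((segP v e).2 - (segP v e).1) e.2 = 1 / 2 ^ e.1.1 := by simp [segP, ev]
    have e2 : ((segP v e').2 - (segP v e').1) e.2 = 0 := by simp [segP, ev, hne]
    have e3 : (0:ℝ) < 1 / 2 ^ e.1.1 := by positivity
    rw [h1, e2] at e1
    exact absurd e1 e3.ne
  exact Prod.ext (Prod.ext hm hz) hk

theorem isCompact_squ (v : V) (s : Idx × Fin 3) : IsCompact (squ v s) := by
  have h : squ v s = dyc v s.1.1 s.1.2 ∩ {x | x s.2 = v s.2 + s.1.2 s.2 / 2 ^ s.1.1} := by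
    ext x
    constructor
    · intro hx
      exact ⟨squ_sub_hi hx, hx.1⟩
    · rintro ⟨hx, hx'⟩
      exact ⟨hx', fun k _ => hx k⟩
  rw [h]
  exact (isCompact_dyc _ _ _).inter_right
    (isClosed_eq (continuous_apply _) continuous_const)

theorem squ_sub_Ω (hI : Part Ω v I) {s : Idx × Fin 3} (hs : MinSq v I s) : squ v s ⊆ Ω := by
  obtain ⟨⟨q, hq, hf⟩, -⟩ := hs
  exact (H194.face_sub hf).trans (hI.sub q hq)

/-- the minimal edges in a minimal square -/
theorem finite_minEdge (hI : Part Ω v I) {s : Idx × Fin 3} (hs : MinSq v I s) :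
    {e | MinEdge v I e ∧ edge v e ⊆ squ v s}.Finite := by
  refine (Gr.finite_edges hI (squ_sub_Ω hI hs) (isCompact_squ v s)).subset ?_
  rintro e ⟨h1, h2⟩
  obtain ⟨y, hy⟩ := Gr.edge_nonempty v e
  exact ⟨h1.1, y, hy, h2 hy⟩

/-- the minimal edges in a minimal square, as segments -/
noncomputable def edges (hI : Part Ω v I) {s : Idx × Fin 3} (hs : MinSq v I s) : Finset (V × V) :=
  (finite_minEdge hI hs).toFinset.image (segP v)

theorem mem_edges (hI : Part Ω v I) {s : Idx × Fin 3} (hs : MinSq v I s) {e : V × V} :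
    e ∈ edges hI hs ↔ ∃ e', (MinEdge v I e' ∧ edge v e' ⊆ squ v s) ∧ segP v e' = e := by
  simp [edges]

theorem sum_edges (hI : Part Ω v I) {s : Idx × Fin 3} (hs : MinSq v I s) (g : V × V → ℝ≥0∞) :
    ∑ e ∈ edges hI hs, g e =
      ∑' e : {e : Idx × Fin 3 // MinEdge v I e ∧ edge v e ⊆ squ v s}, g (segP v e.1) := by
  rw [edges, Finset.sum_image fun x _ y _ h => segP_injective v h]
  have : ∑ x ∈ (finite_minEdge hI hs).toFinset, g (segP v x) =
      ∑' e : ((finite_minEdge hI hs).toFinset : Set (Idx × Fin 3)), g (segP v e.1) :=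
    (Finset.tsum_subtype' _ _).symm
  rw [this, Finite.coe_toFinset]
  rfl

/-- every point of the relative boundary of a minimal square is on a minimal edge in the square -/
theorem exists_minEdge (hΩ : IsOpen Ω) (hI : Part Ω v I) {s : Idx × Fin 3} (hs : MinSq v I s)
    {x : V} (hx : x ∈ squ v s) (hxr : x ∉ rel v s) :
    ∃ e, MinEdge v I e ∧ edge v e ⊆ squ v s ∧ x ∈ edge v e := by
  obtain ⟨q, hq, hf⟩ := hs.1
  -- an edge of the square
  obtain ⟨k, hk, hxk⟩ : ∃ k, k ≠ s.2 ∧ (x k = v k + s.1.2 k / 2 ^ s.1.1 ∨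
      x k = v k + (s.1.2 k + 1) / 2 ^ s.1.1) := by
    by_contra hcon
    push Not at hcon
    exact hxr ⟨hx.1, fun k hk => ⟨lt_of_le_of_ne (hx.2 k hk).1 (hcon k hk).1.symm,
      lt_of_le_of_ne (hx.2 k hk).2 (hcon k hk).2⟩⟩
  obtain ⟨j, hj1, hj2⟩ := fin3_third k s.2 hk
  have hall := fin3_all s.2 k j hk hj1 hj2
  obtain ⟨c, hc, hxc⟩ : ∃ c : ℤ, (c = s.1.2 k ∨ c = s.1.2 k + 1) ∧
      x k = v k + c / 2 ^ s.1.1 := by
    rcases hxk with h | h
    · exact ⟨_, Or.inl rfl, h⟩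
    · exact ⟨_, Or.inr rfl, by push_cast; exact h⟩
  set e : Idx × Fin 3 := ((s.1.1, Function.update s.1.2 k c), j) with he
  have hek : e.1.2 k = c := by simp [he]
  have heo : ∀ i, i ≠ k → e.1.2 i = s.1.2 i := fun i hi => by simp [he, hi]
  have hxe : x ∈ edge v e := by
    rw [Gr.mem_edge]
    refine ⟨fun i hi => ?_, ?_⟩
    · rcases hall i with rfl | rfl | rfl
      · rw [heo _ hk.symm]; exact hx.1
      · rw [hek]; exact hxc
      · exact absurd rfl hi
    · show v j + (e.1.2 j : ℝ) / 2 ^ s.1.1 ≤ x j ∧ x j ≤ v j + ((e.1.2 j : ℝ) + 1) / 2 ^ s.1.1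
      rw [heo j hj2]
      exact hx.2 j hj1
  have hes : edge v e ⊆ squ v s := by
    intro y hy
    rw [Gr.mem_edge] at hy
    refine ⟨?_, fun i hi => ?_⟩
    · have := hy.1 s.2 hj1.symm
      rw [heo _ hk.symm] at this
      exact this
    · rcases hall i with rfl | rfl | rfl
      · exact absurd rfl hi
      · have := hy.1 i hj2.symm
        rw [hek] at this
        rw [this]
        have h1 : ((s.1.2 i : ℝ) + 1) / 2 ^ s.1.1 = s.1.2 i / 2 ^ s.1.1 + 1 / 2 ^ s.1.1 :=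
          add_div _ _ _
        have h2 : (0:ℝ) < 1 / 2 ^ s.1.1 := by positivity
        have h3 : e.1.1 = s.1.1 := rfl
        rw [h3]
        rcases hc with rfl | rfl
        · rw [h1]; constructor <;> linarith
        · push_cast; rw [h1]; constructor <;> linarith
      · have := hy.2
        have h4 : v i + (e.1.2 i : ℝ) / 2 ^ s.1.1 ≤ y i ∧
          y i ≤ v i + ((e.1.2 i : ℝ) + 1) / 2 ^ s.1.1 := this
        rw [heo i hj2] at h4
        exact h4
  have hep : Gr.PEdge I e := by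
    refine ⟨q, hq, hf.1, ?_, fun i hi => ?_⟩
    · show e.1.2 j = q.2 j
      rw [heo j hj2]
      exact hf.2.2 j hj1
    · rcases hall i with rfl | rfl | rfl
      · rw [heo _ hk.symm]; exact hf.2.1
      · rw [hek, ← hf.2.2 i hk]; exact hc
      · exact absurd rfl hi
  obtain ⟨S, -, hS, hS'⟩ := Gr.exists_cover hΩ hI hep
  rw [hS'] at hxe
  obtain ⟨e', he', hxe'⟩ := mem_iUnion₂.1 hxe
  refine ⟨e', hS e' he', Subset.trans ?_ hes, hxe'⟩
  rw [hS']
  exact subset_iUnion₂ (s := fun e' _ => edge v e') e' he'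

theorem affineSpan_squ {s : Idx × Fin 3} {y : V} (hy : y ∈ affineSpan ℝ (squ v s)) :
    y s.2 = v s.2 + s.1.2 s.2 / 2 ^ s.1.1 := by
  have h0 : sc v s ∈ squ v s := rel_sub sc_mem
  have h1 := AffineSubspace.vsub_mem_direction hy (subset_affineSpan ℝ _ h0)
  rw [direction_affineSpan, vectorSpan_squ] at h1
  have h2 : (y -ᵥ sc v s) s.2 = 0 := h1
  rw [vsub_eq_sub, Pi.sub_apply, h0.1] at h2
  linarith

/-- the relative interior of a square -/
theorem intrinsicInterior_squ (v : V) (s : Idx × Fin 3) :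
    intrinsicInterior ℝ (squ v s) = rel v s := by
  apply Subset.antisymm (H194.intrinsic_squ v s)
  intro x hx
  have hxs : x ∈ affineSpan ℝ (squ v s) := subset_affineSpan ℝ _ (rel_sub hx)
  refine ⟨⟨x, hxs⟩, ?_, rfl⟩
  rw [mem_interior]
  refine ⟨{y | ∀ k, k ≠ s.2 → v k + s.1.2 k / 2 ^ s.1.1 < (y : V) k ∧
    (y : V) k < v k + (s.1.2 k + 1) / 2 ^ s.1.1}, ?_, ?_, hx.2⟩
  · intro y hy
    exact ⟨affineSpan_squ y.2, fun k hk => ⟨(hy k hk).1.le, (hy k hk).2.le⟩⟩
  · have : {y : affineSpan ℝ (squ v s) | ∀ k, k ≠ s.2 → v k + s.1.2 k / 2 ^ s.1.1 < (y : V) k ∧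
        (y : V) k < v k + (s.1.2 k + 1) / 2 ^ s.1.1} =
        ⋂ k : Fin 3, {y : affineSpan ℝ (squ v s) | k ≠ s.2 →
          v k + s.1.2 k / 2 ^ s.1.1 < (y : V) k ∧
          (y : V) k < v k + (s.1.2 k + 1) / 2 ^ s.1.1} := by
      ext y; simp
    rw [this]
    refine isOpen_iInter_of_finite fun k => ?_
    by_cases hk : k = s.2
    · have : {y : affineSpan ℝ (squ v s) | k ≠ s.2 → v k + s.1.2 k / 2 ^ s.1.1 < (y : V) k ∧
        (y : V) k < v k + (s.1.2 k + 1) / 2 ^ s.1.1} = univ := by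
        ext y; simp [hk]
      rw [this]
      exact isOpen_univ
    · have h1 : {y : affineSpan ℝ (squ v s) | k ≠ s.2 → v k + s.1.2 k / 2 ^ s.1.1 < (y : V) k ∧
        (y : V) k < v k + (s.1.2 k + 1) / 2 ^ s.1.1} =
          {y : affineSpan ℝ (squ v s) | v k + s.1.2 k / 2 ^ s.1.1 < (y : V) k} ∩
          {y : affineSpan ℝ (squ v s) | (y : V) k < v k + (s.1.2 k + 1) / 2 ^ s.1.1} := by
        ext y; simp [hk]
      rw [h1]
      have hc : Continuous fun y : affineSpan ℝ (squ v s) => (y : V) k :=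
        (continuous_apply k).comp continuous_subtype_val
      exact (isOpen_lt continuous_const hc).inter (isOpen_lt hc continuous_const)

/-- the relative boundary of a square -/
theorem intrinsicFrontier_squ (v : V) (s : Idx × Fin 3) :
    intrinsicFrontier ℝ (squ v s) = squ v s \ rel v s := by
  rw [← intrinsicClosure_sdiff_intrinsicInterior, intrinsicInterior_squ,
    IsClosed.intrinsicClosure ((isCompact_squ v s).isClosed.preimage continuous_subtype_val)]

theorem squ_eq_sqr (v : V) (s : Idx × Fin 3) :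
    squ v s = H73.sqr (sc v s) s.2 (1 / 2 / 2 ^ s.1.1) := by
  ext x
  exact (mem_squ_iff v s x).symm

end part

/-! ### Tilings which contain cubes of the partition -/

section tiling

variable {Ω : Set V} {v : V} {I : Set Idx} {T : Tiling Ω}

/-- the tile is a cube of the partition -/
def Uncut (T : Tiling Ω) (v : V) (I : Set Idx) (i : T.ι) : Prop :=
  ∃ q ∈ I, T.Q i = dyc v q.1 q.2

/-- all tiles which meet the tile are cubes of the partition -/
def Clear (T : Tiling Ω) (v : V) (I : Set Idx) (i : T.ι) : Prop :=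
  ∀ j, (T.Q j ∩ T.Q i).Nonempty → Uncut T v I j

theorem Tiling.nonempty (T : Tiling Ω) (i : T.ι) : (T.Q i).Nonempty :=
  (T.poly i).int.mono interior_subset

theorem Clear.uncut {i : T.ι} (h : Clear T v I i) : Uncut T v I i :=
  h i (by rw [inter_self]; exact T.nonempty i)

/-- different tiles are different sets -/
theorem Tiling.inj {i j : T.ι} (h : T.Q i = T.Q j) : i = j := by
  by_contra hne
  obtain ⟨x, hx⟩ := (T.poly i).int
  exact Set.disjoint_left.1 (T.disj i j hne) hx (h ▸ interior_subset hx)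

/-- **[DICT]** a face between two cubes of the partition is a minimal square -/
theorem face_squ (hI : Part Ω v I) {k : T.κ} (h1 : Uncut T v I k.1.1) (h2 : Uncut T v I k.1.2) :
    ∃ s, MinSq v I s ∧ T.F k = squ v s := by
  obtain ⟨q, hq, hqe⟩ := h1
  obtain ⟨q', hq', hqe'⟩ := h2
  have h3 : Two (dyc v q.1 q.2 ∩ dyc v q'.1 q'.2) := by
    rw [← hqe, ← hqe']
    exact k.2.2
  have hne : q ≠ q' := by
    rintro rfl
    exact T.ne_of_face k (T.inj (hqe.trans hqe'.symm))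
  obtain ⟨s, hs, hs'⟩ := exists_squ hI hq hq' hne h3
  exact ⟨s, hs, by rw [← hs', ← hqe, ← hqe']; rfl⟩

/-- **[DICT]** a minimal square whose two cubes are tiles is a face -/
theorem squ_face (hI : Part Ω v I) {s : Idx × Fin 3} (hs : MinSq v I s) {qp qm : Idx}
    (h : P86.Two v I s qp qm) {i j : T.ι} (hi : T.Q i = dyc v qp.1 qp.2)
    (hj : T.Q j = dyc v qm.1 qm.2) :
    ∃ k : T.κ, T.F k = squ v s ∧ ((k.1.1 = i ∧ k.1.2 = j) ∨ (k.1.1 = j ∧ k.1.2 = i)) := by
  have h1 : T.Q i ∩ T.Q j = squ v s := by rw [hi, hj, inter_eq hI hs h]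
  have hij : i ≠ j := by
    rintro rfl
    have h2 : dyc v qp.1 qp.2 = dyc v qm.1 qm.2 := hi.symm.trans hj
    exact ne_of_two hI hs h (eq_of_sub hI h.memp h.memm h2.le)
  obtain ⟨k, hk, hk'⟩ := T.exists_κ hij (by rw [h1]; exact two_squ v s)
  exact ⟨k, hk.trans h1, hk'⟩

/-- near a clear tile all cubes of the partition are tiles -/
theorem Clear.exists_tile (hΩ : IsOpen Ω) (hI : Part Ω v I) {i : T.ι} (hc : Clear T v I i)
    {q : Idx} (hq : q ∈ I) (hne : (dyc v q.1 q.2 ∩ T.Q i).Nonempty) :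
    ∃ j, T.Q j = dyc v q.1 q.2 := by
  obtain ⟨x, hx, hxi⟩ := hne
  obtain ⟨S, ε, -, hε, hbΩ, hb⟩ := T.near hΩ (T.sub i hxi)
  have h1 : x ∈ closure (dyo v q.1 q.2) := by
    rw [← H194.interior_dyc, (H194.poly_dyc v q.1 q.2).closure_interior]
    exact hx
  obtain ⟨y, hy, hyq⟩ := mem_closure_iff_nhds.1 h1 _ (ball_mem_nhds x hε)
  obtain ⟨j, hj⟩ := T.cover y (hbΩ hy)
  obtain ⟨-, hxj⟩ := hb y hy j hj
  obtain ⟨q', hq', he⟩ := hc j ⟨x, hxj, hxi⟩
  rw [he] at hj
  have h2 := eq_of_mem hI hq hq' hyq hj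
  exact ⟨j, by rw [he, h2]⟩

/-- a face which meets a clear tile is a minimal square -/
theorem Clear.face_squ (hI : Part Ω v I) {i : T.ι} (hc : Clear T v I i) {k : T.κ}
    (h : (T.F k ∩ T.Q i).Nonempty) : ∃ s, MinSq v I s ∧ T.F k = squ v s := by
  obtain ⟨x, hx, hxi⟩ := h
  exact H687.face_squ hI (hc _ ⟨x, hx.1, hxi⟩) (hc _ ⟨x, hx.2, hxi⟩)

/-- a minimal square which meets a clear tile is a face -/
theorem Clear.squ_face (hΩ : IsOpen Ω) (hI : Part Ω v I) {i : T.ι} (hc : Clear T v I i)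
    {s : Idx × Fin 3} (hs : MinSq v I s) (h : (squ v s ∩ T.Q i).Nonempty) :
    ∃ k : T.κ, T.F k = squ v s := by
  obtain ⟨x, hx, hxi⟩ := h
  obtain ⟨qp, qm, h2⟩ := two_of_minSq hΩ hI hs
  obtain ⟨j, hj⟩ := hc.exists_tile hΩ hI h2.memp ⟨x, h2.subp (squ_sub_hi hx), hxi⟩
  obtain ⟨l, hl⟩ := hc.exists_tile hΩ hI h2.memm ⟨x, h2.subm (squ_sub_lo hx), hxi⟩
  obtain ⟨k, hk, -⟩ := H687.squ_face hI hs h2 hj hl
  exact ⟨k, hk⟩

/-- **[ADP]** the minimal edges are adapted to the mesh of the tiling -/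
theorem Clear.adapted (hΩ : IsOpen Ω) (hI : Part Ω v I) {i : T.ι} (hc : Clear T v I i)
    {s : Idx × Fin 3} (hs : MinSq v I s) (hsi : squ v s ⊆ T.Q i) {k : T.κ}
    (hk : T.F k = squ v s) (c r : T.κ → ℝ) (hr : ∀ k, 0 < r k)
    (hf : ∀ k, Fat (c k) (r k) (T.F k)) : H73.Adapted (T.mesh hΩ c r hr hf) k (edges hI hs) where
  ne := by
    intro e he
    obtain ⟨e', -, rfl⟩ := (mem_edges hI hs).1 he
    exact segP_ne v e'
  sub := by
    intro e he
    obtain ⟨e', ⟨-, h2⟩, rfl⟩ := (mem_edges hI hs).1 he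
    rw [segment_segP]
    exact h2.trans hk.ge
  cover := by
    show intrinsicFrontier ℝ (T.F k) ⊆ _
    rw [hk, intrinsicFrontier_squ]
    rintro x ⟨hx, hxr⟩
    obtain ⟨e, h1, h2, h3⟩ := exists_minEdge hΩ hI hs hx hxr
    exact mem_iUnion₂.2 ⟨segP v e, (mem_edges hI hs).2 ⟨e, ⟨h1, h2⟩, rfl⟩, h3⟩
  edge := by
    intro e he l hl
    obtain ⟨e', ⟨h1, h2⟩, rfl⟩ := (mem_edges hI hs).1 he
    obtain ⟨x, hxl, hxe⟩ := hl
    rw [segment_segP]
    obtain ⟨g1, g2, g3⟩ := inner_of_openSegment hxe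
    have key : ∀ a : T.ι, x ∈ T.Q a → edge v e' ⊆ T.Q a := by
      intro a ha
      obtain ⟨q, hq, hqe⟩ := hc a ⟨x, ha, hsi (h2 g1)⟩
      rw [hqe] at ha ⊢
      exact edge_sub_of_inner h1 hq g1 g2 g3 ha
    exact subset_inter (key _ hxl.1) (key _ hxl.2)

end tiling

end Vale.Agent.P073.H687
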