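import Vale.Agent.P073.H687.Dict
import Vale.Agent.P073.H194.Hold
import Vale.Agent.P073.Gauge.Of407a

/-!
# P073, A15: sums over the minimal edges of a minimal square
-/

open Set Metric Topology Filter Module MeasureTheory
open scoped ENNReal

namespace Vale.Agent.P073.H687

open Vale.Agent.P073.St (V)
open Vale.Agent.P073.SQ (ev)
open Vale.Agent.P073.H73 (MinEdge segP)
open Vale.Agent.P073.H194 (eInt_rpow_le cellT)
open Vale.Agent.P073.AB Vale.Agent.P073.AB.P86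
open _root_.P073.Net (dyc dyo)
open _root_.P073.Gauge (gam)
open _root_.P073.Gauge.C110 (mem_edge_iff ev_apply)
open _root_.P073.Gauge.O407 (jInt eInt_eq sub_edge jInt_sub)

variable {Ω : Set V} {v : V} {I : Set Idx}

/-- inner points of an edge in the parameter -/
theorem gam_inner (v : V) (e : Idx × Fin 3) {t : ℝ} (h0 : 0 < t) (h1 : t < 1) :
    v e.2 + e.1.2 e.2 / 2 ^ e.1.1 < gam v e t e.2 ∧
      gam v e t e.2 < v e.2 + (e.1.2 e.2 + 1) / 2 ^ e.1.1 := by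
  have hp : (0:ℝ) < 1 / 2 ^ e.1.1 := by positivity
  have e1 : gam v e t e.2 = v e.2 + e.1.2 e.2 / 2 ^ e.1.1 + t * (1 / 2 ^ e.1.1) := by
    simp [gam, pt, ev_apply]
  rw [e1, add_div]
  constructor
  · have := mul_pos h0 hp
    linarith
  · have := mul_lt_mul_of_pos_right h1 hp
    linarith

/-- integrals over non-overlapping parts of an edge -/
theorem sum_eInt_le {S : Finset (Idx × Fin 3)} {e₀ : Idx × Fin 3}
    (hsub : ∀ e ∈ S, edge v e ⊆ edge v e₀)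
    (hd : ∀ e ∈ S, ∀ e' ∈ S, e ≠ e' → ∀ x ∈ edge v e, x ∈ edge v e' →
      ¬ (v e.2 + e.1.2 e.2 / 2 ^ e.1.1 < x e.2 ∧ x e.2 < v e.2 + (e.1.2 e.2 + 1) / 2 ^ e.1.1))
    (H : V → ℝ≥0∞) : ∑ e ∈ S, eInt v e H ≤ eInt v e₀ H := by
  classical
  have h1 : ∀ e ∈ S, ∃ α : ℝ, 0 ≤ α ∧ α + 2 ^ e₀.1.1 / 2 ^ e.1.1 ≤ 1 ∧
      ∀ t : ℝ, gam v e t = gam v e₀ (α + 2 ^ e₀.1.1 / 2 ^ e.1.1 * t) :=
    fun e he => (sub_edge (hsub e he)).2
  choose! α hα0 hα1 hα using h1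
  set A : Idx × Fin 3 → Set ℝ := fun e => Ioo (α e) (α e + 2 ^ e₀.1.1 / 2 ^ e.1.1) with hA
  have h2 : ∀ e ∈ S, eInt v e H =
      ENNReal.ofReal (1 / 2 ^ e₀.1.1) * ∫⁻ s in A e, H (gam v e₀ s) := by
    intro e he
    rw [eInt_eq, jInt_sub (hα e he), ← mul_assoc, ← ENNReal.ofReal_mul (by positivity)]
    have h3 : ∫⁻ s in Icc (α e) (α e + 2 ^ e₀.1.1 / 2 ^ e.1.1), H (gam v e₀ s) =
        ∫⁻ s in A e, H (gam v e₀ s) := by
      rw [hA, Measure.restrict_congr_set Ioo_ae_eq_Icc]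
    rw [h3]
    congr 2
    field_simp
  have hdisj : Set.PairwiseDisjoint (S : Set (Idx × Fin 3)) A := by
    intro e he e' he' hne
    show Disjoint (A e) (A e')
    rw [Set.disjoint_left]
    intro s hs hs'
    have key : ∀ e ∈ S, s ∈ A e → ∃ t, 0 < t ∧ t < 1 ∧ gam v e₀ s = gam v e t := by
      intro e he hs
      have hb : (0:ℝ) < 2 ^ e₀.1.1 / 2 ^ e.1.1 := by positivity
      refine ⟨(s - α e) / (2 ^ e₀.1.1 / 2 ^ e.1.1), ?_, ?_, ?_⟩
      · exact div_pos (by linarith [hs.1]) hb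
      · rw [div_lt_one hb]
        linarith [hs.2]
      · rw [hα e he, mul_div_cancel₀ _ hb.ne']
        congr 1
        ring
    obtain ⟨t, ht0, ht1, ht⟩ := key e he hs
    obtain ⟨t', ht0', ht1', ht'⟩ := key e' he' hs'
    refine hd e he e' he' hne (gam v e t) (mem_edge_iff.2 ⟨t, ⟨ht0.le, ht1.le⟩, rfl⟩) ?_
      (gam_inner v e ht0 ht1)
    rw [← ht, ht']
    exact mem_edge_iff.2 ⟨t', ⟨ht0'.le, ht1'.le⟩, rfl⟩
  calc ∑ e ∈ S, eInt v e H
      = ENNReal.ofReal (1 / 2 ^ e₀.1.1) * ∑ e ∈ S, ∫⁻ s in A e, H (gam v e₀ s) := by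
        rw [Finset.mul_sum]
        exact Finset.sum_congr rfl h2
    _ = ENNReal.ofReal (1 / 2 ^ e₀.1.1) * ∫⁻ s in ⋃ e ∈ S, A e, H (gam v e₀ s) := by
        rw [lintegral_biUnion_finset hdisj fun e _ => measurableSet_Ioo]
    _ ≤ ENNReal.ofReal (1 / 2 ^ e₀.1.1) * jInt v e₀ H := by
        gcongr
        refine lintegral_mono_set ?_
        refine iUnion₂_subset fun e he => ?_
        exact Ioo_subset_Icc_self.trans (Icc_subset_Icc (hα0 e he) (hα1 e he))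
    _ = eInt v e₀ H := rfl

/-- the side `x k = v k + c / 2 ^ m` of the square `s`, in direction `j` -/
theorem side_spec {s : Idx × Fin 3} {k j : Fin 3} (hk : k ≠ s.2) (hj : j ≠ s.2) (hjk : j ≠ k)
    {c : ℤ} (hc : c = s.1.2 k ∨ c = s.1.2 k + 1) :
    EdgeOfSq ((s.1.1, Function.update s.1.2 k c), j) s ∧
      ∀ x, x ∈ squ v s → x k = v k + c / 2 ^ s.1.1 →
        x ∈ edge v ((s.1.1, Function.update s.1.2 k c), j) := by
  have hall := fin3_all s.2 k j hk hj hjk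
  set e : Idx × Fin 3 := ((s.1.1, Function.update s.1.2 k c), j) with he
  have hek : e.1.2 k = c := by simp [he]
  have heo : ∀ i, i ≠ k → e.1.2 i = s.1.2 i := fun i hi => by simp [he, hi]
  refine ⟨⟨rfl, hj, heo j hjk, heo _ hk.symm, fun i h1 h2 => ?_⟩, fun x hx hxk => ?_⟩
  · rcases hall i with h | h | h
    · exact absurd h h2
    · rw [h, hek]; exact hc
    · exact absurd h h1
  · rw [Gr.mem_edge]
    refine ⟨fun i hi => ?_, ?_⟩
    · rcases hall i with h | h | h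
      · rw [h, heo _ hk.symm]; exact hx.1
      · rw [h, hek]; exact hxk
      · exact absurd h hi
    · show v j + (e.1.2 j : ℝ) / 2 ^ s.1.1 ≤ x j ∧ x j ≤ v j + ((e.1.2 j : ℝ) + 1) / 2 ^ s.1.1
      rw [heo j hjk]
      exact hx.2 j hj

/-- a minimal edge in a minimal square lies in one of its four edges -/
theorem minEdge_sub (hΩ : IsOpen Ω) (hI : Part Ω v I) {s e : Idx × Fin 3} (hs : MinSq v I s)
    (he : MinEdge v I e) (hes : edge v e ⊆ squ v s) :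
    ∃ e₀, EdgeOfSq e₀ s ∧ edge v e ⊆ edge v e₀ := by
  obtain ⟨q, hq, heq⟩ := he.1
  obtain ⟨qp, qm, h2⟩ := two_of_minSq hΩ hI hs
  have hmid := Gr.mid_spec v e
  have hpos : (0:ℝ) < 1 / 2 ^ e.1.1 := by positivity
  -- the direction
  have hdir : e.2 ≠ s.2 := by
    intro hd
    have h3 := (hes (left_mem_segment ℝ _ _)).1
    have h4 := (hes (right_mem_segment ℝ _ _)).1
    rw [← hd] at h3 h4
    simp only [Pi.add_apply, Pi.smul_apply, ev, Pi.single_eq_same, smul_eq_mul, mul_one] at h4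
    linarith
  obtain ⟨k, hks, hke⟩ := fin3_third e.2 s.2 hdir
  have hall := fin3_all s.2 k e.2 hks hdir hke.symm
  have hconst : ∀ x ∈ edge v e, x k = v k + e.1.2 k / 2 ^ e.1.1 := fun x hx =>
    (Gr.mem_edge.1 hx).1 k hke
  have hin : ∀ x ∈ edge v e, v k + s.1.2 k / 2 ^ s.1.1 ≤ x k ∧
      x k ≤ v k + (s.1.2 k + 1) / 2 ^ s.1.1 := fun x hx => (hes hx).2 k hks
  have hcase : ∃ c : ℤ, (c = s.1.2 k ∨ c = s.1.2 k + 1) ∧
      v k + (e.1.2 k : ℝ) / 2 ^ e.1.1 = v k + c / 2 ^ s.1.1 := by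
    by_contra hcon
    push Not at hcon
    have c1 := hcon _ (Or.inl rfl)
    have c2 := hcon _ (Or.inr rfl)
    push_cast at c2
    have hm := hin _ hmid.1
    rw [hconst _ hmid.1] at hm
    have d1 : v k + (s.1.2 k : ℝ) / 2 ^ s.1.1 < v k + e.1.2 k / 2 ^ e.1.1 :=
      lt_of_le_of_ne hm.1 c1.symm
    have d2 : v k + (e.1.2 k : ℝ) / 2 ^ e.1.1 < v k + (s.1.2 k + 1) / 2 ^ s.1.1 :=
      lt_of_le_of_ne hm.2 c2
    -- the midpoint is in the relative interior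
    have hrel : Gr.mid v e ∈ rel v s := by
      refine ⟨(hes hmid.1).1, fun i hi => ?_⟩
      rcases hall i with h | h | h
      · exact absurd h hi
      · rw [h, hconst _ hmid.1]; exact ⟨d1, d2⟩
      · have a1 := ((hes (left_mem_segment ℝ _ _)).2 e.2 hdir).1
        have a2 := ((hes (right_mem_segment ℝ _ _)).2 e.2 hdir).2
        have a3 : (pt v e.1.1 e.1.2 + (1 / 2 ^ e.1.1 : ℝ) • ev e.2) e.2 =
            v e.2 + (e.1.2 e.2 + 1) / 2 ^ e.1.1 := by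
          simp only [pt, ev, Pi.add_apply, Pi.smul_apply, Pi.single_eq_same, smul_eq_mul, mul_one]
          rw [add_div]; ring
        rw [a3] at a2
        rw [h]
        exact ⟨lt_of_le_of_lt a1 hmid.2.1, lt_of_lt_of_le hmid.2.2 a2⟩
    have hmq : Gr.mid v e ∈ dyc v q.1 q.2 := Gr.edge_subset_dyc heq hmid.1
    -- the cube contains a cube next to the square
    obtain ⟨zz, hzz, hsub⟩ : ∃ zz : Fin 3 → ℤ, (∀ j, j ≠ s.2 → zz j = s.1.2 j) ∧
        dyc v s.1.1 zz ⊆ dyc v q.1 q.2 := by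
      rcases rel_mem hI h2 hrel hq hmq with rfl | rfl
      · exact ⟨_, fun j _ => rfl, h2.subp⟩
      · exact ⟨_, fun j hj => lo_other s hj, h2.subm⟩
    have h5 := sub_ineq hsub k
    rw [hzz k hks] at h5
    rcases heq.2.2 k hke with h6 | h6
    · rw [h6, heq.1] at d1
      linarith [h5.1]
    · rw [h6, heq.1] at d2
      push_cast at d2
      linarith [h5.2]
  obtain ⟨c, hc, hc'⟩ := hcase
  obtain ⟨h6, h7⟩ := side_spec (v := v) hks hdir hke.symm hc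
  exact ⟨_, h6, fun x hx => h7 x (hes hx) ((hconst x hx).trans hc')⟩

/-- **Integrals over the minimal edges of a minimal square.** -/
theorem sum_minEdge_le (hΩ : IsOpen Ω) (hI : Part Ω v I) {s : Idx × Fin 3} (hs : MinSq v I s)
    (H : V → ℝ≥0∞) :
    ∑ e ∈ (finite_minEdge hI hs).toFinset, eInt v e H ≤ ∑ e ∈ sqE s, eInt v e H := by
  classical
  set S := (finite_minEdge hI hs).toFinset with hS
  have hmem : ∀ e ∈ S, MinEdge v I e ∧ edge v e ⊆ squ v s := fun e he => by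
    simpa [hS] using he
  have h1 : ∀ e ∈ S, eInt v e H ≤
      ∑ e₀ ∈ sqE s, if edge v e ⊆ edge v e₀ then eInt v e H else 0 := by
    intro e he
    obtain ⟨e₀, h0, h0'⟩ := minEdge_sub hΩ hI hs (hmem e he).1 (hmem e he).2
    calc eInt v e H = if edge v e ⊆ edge v e₀ then eInt v e H else 0 := by rw [if_pos h0']
      _ ≤ _ := Finset.single_le_sum
        (f := fun e₀ => if edge v e ⊆ edge v e₀ then eInt v e H else 0)
        (fun _ _ => bot_le) (mem_sqE.2 h0)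
  calc ∑ e ∈ S, eInt v e H
      ≤ ∑ e ∈ S, ∑ e₀ ∈ sqE s, if edge v e ⊆ edge v e₀ then eInt v e H else 0 :=
        Finset.sum_le_sum h1
    _ = ∑ e₀ ∈ sqE s, ∑ e ∈ S, if edge v e ⊆ edge v e₀ then eInt v e H else 0 :=
        Finset.sum_comm
    _ = ∑ e₀ ∈ sqE s, ∑ e ∈ S.filter (fun e => edge v e ⊆ edge v e₀), eInt v e H := by
        refine Finset.sum_congr rfl fun e₀ _ => ?_
        rw [Finset.sum_filter]
    _ ≤ ∑ e₀ ∈ sqE s, eInt v e₀ H := by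
        refine Finset.sum_le_sum fun e₀ _ => sum_eInt_le (fun e he => ?_) ?_ H
        · exact (Finset.mem_filter.1 he).2
        · intro e he e' he' hne x hx hx'
          exact Gr.not_inner hI (hmem e (Finset.mem_filter.1 he).1).1
            (hmem e' (Finset.mem_filter.1 he').1).1 hne hx hx'

/-- the sum over the minimal edges as an infinite sum -/
theorem tsum_minEdge (hI : Part Ω v I) {s : Idx × Fin 3} (hs : MinSq v I s)
    (g : Idx × Fin 3 → ℝ≥0∞) :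
    ∑' e : {e : Idx × Fin 3 // MinEdge v I e ∧ edge v e ⊆ squ v s}, g e.1 =
      ∑ e ∈ (finite_minEdge hI hs).toFinset, g e := by
  have : ∑ x ∈ (finite_minEdge hI hs).toFinset, g x =
      ∑' e : ((finite_minEdge hI hs).toFinset : Set (Idx × Fin 3)), g e.1 :=
    (Finset.tsum_subtype' _ _).symm
  rw [this, Finite.coe_toFinset]
  rfl

/-- the sum over the four edges as an infinite sum -/
theorem tsum_sqE (s : Idx × Fin 3) (g : Idx × Fin 3 → ℝ≥0∞) :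
    ∑' e : {e : Idx × Fin 3 // EdgeOfSq e s}, g e.1 = ∑ e ∈ sqE s, g e := by
  have h1 : ∑ x ∈ sqE s, g x = ∑' e : (sqE s : Set (Idx × Fin 3)), g e.1 :=
    (Finset.tsum_subtype' _ _).symm
  have h2 : (sqE s : Set (Idx × Fin 3)) = {e | EdgeOfSq e s} := by
    ext e
    exact mem_sqE
  rw [h1, h2]
  rfl

/-- Hoelder on a minimal edge, in the form of the sum in `Pre` -/
theorem term_le {p : ℝ} (hp : 1 ≤ p) (v : V) (e : Idx × Fin 3) (g : V → ℝ≥0∞) {ℓ : ℝ≥0∞}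
    (hℓ : ℓ ≤ eInt v e g) :
    ENNReal.ofReal ((1 / 2 ^ e.1.1) ^ (1 - p)) * ℓ ^ p ≤ eInt v e fun x => g x ^ p := by
  have hr : (0:ℝ) < 1 / 2 ^ e.1.1 := by positivity
  calc ENNReal.ofReal ((1 / 2 ^ e.1.1) ^ (1 - p)) * ℓ ^ p
      ≤ ENNReal.ofReal ((1 / 2 ^ e.1.1) ^ (1 - p)) * (ENNReal.ofReal ((1 / 2 ^ e.1.1) ^ (p - 1)) *
        eInt v e fun x => g x ^ p) := by
        gcongr
        exact (ENNReal.rpow_le_rpow hℓ (by linarith)).trans (eInt_rpow_le hp v e g)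
    _ = eInt v e fun x => g x ^ p := by
        rw [← mul_assoc, ← ENNReal.ofReal_mul (by positivity), ← Real.rpow_add hr,
          show (1 - p + (p - 1) : ℝ) = 0 by ring, Real.rpow_zero, ENNReal.ofReal_one, one_mul]

/-- sums over subtypes -/
theorem tsum_sub_le {α : Type*} {Q Q' : α → Prop} (h : ∀ a, Q a → Q' a) (g : α → ℝ≥0∞) :
    ∑' a : {a // Q a}, g a.1 ≤ ∑' a : {a // Q' a}, g a.1 := by
  have h1 : Function.Injective (fun a : {a // Q a} => (⟨a.1, h a.1 a.2⟩ : {a // Q' a})) := by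
    intro a b hab
    have h1 : (⟨a.1, h a.1 a.2⟩ : {a // Q' a}) = ⟨b.1, h b.1 b.2⟩ := hab
    exact Subtype.ext (Subtype.mk.inj h1)
  exact ENNReal.tsum_comp_le_tsum_of_injective h1 fun a : {a // Q' a} => g a.1

/-- **[MINEDGE-SUM]** one cell: the sum in `Pre` is at most `cellT` -/
theorem cell_sum_le {p : ℝ} (hp : 1 ≤ p) (hΩ : IsOpen Ω) (hI : Part Ω v I) (i : Idx)
    (g : V → ℝ≥0∞) (ℓ : Idx × Fin 3 → ℝ≥0∞)
    (hℓ : ∀ s, MinSq v I s → squ v s ⊆ dyc v i.1 i.2 → ∀ e, MinEdge v I e →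
      edge v e ⊆ squ v s → ℓ e ≤ eInt v e g) :
    ∑' s : {s : Idx × Fin 3 // MinSq v I s ∧ squ v s ⊆ dyc v i.1 i.2},
      ∑' e : {e : Idx × Fin 3 // MinEdge v I e ∧ edge v e ⊆ squ v s.1},
        ENNReal.ofReal (1 / 2 ^ i.1 * (1 / 2 ^ s.1.1.1)) *
          (ENNReal.ofReal ((1 / 2 ^ e.1.1.1) ^ (1 - p)) * ℓ e.1 ^ p) ≤
      cellT v I univ (fun x => g x ^ p) i := by
  have h1 : ∀ s : {s : Idx × Fin 3 // MinSq v I s ∧ squ v s ⊆ dyc v i.1 i.2},
      ∑' e : {e : Idx × Fin 3 // MinEdge v I e ∧ edge v e ⊆ squ v s.1},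
        ENNReal.ofReal (1 / 2 ^ i.1 * (1 / 2 ^ s.1.1.1)) *
          (ENNReal.ofReal ((1 / 2 ^ e.1.1.1) ^ (1 - p)) * ℓ e.1 ^ p) ≤
      ∑' e : {e : Idx × Fin 3 // EdgeOfSq e s.1},
        ENNReal.ofReal (1 / 2 ^ i.1 * (1 / 2 ^ s.1.1.1)) * eInt v e.1 fun x => g x ^ p := by
    intro s
    rw [ENNReal.tsum_mul_left, ENNReal.tsum_mul_left]
    gcongr
    rw [tsum_sqE s.1 fun e => eInt v e fun x => g x ^ p,
      tsum_minEdge hI s.2.1 fun e => ENNReal.ofReal ((1 / 2 ^ e.1.1) ^ (1 - p)) * ℓ e ^ p]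
    refine le_trans (Finset.sum_le_sum fun e he => ?_) (sum_minEdge_le hΩ hI s.2.1 _)
    have he' : MinEdge v I e ∧ edge v e ⊆ squ v s.1 := by simpa using he
    exact term_le hp v e g (hℓ s.1 s.2.1 s.2.2 e he'.1 he'.2)
  refine (ENNReal.tsum_le_tsum h1).trans ?_
  unfold cellT
  -- reindex
  have h2 := tsum_sub_le (Q := fun s : Idx × Fin 3 => MinSq v I s ∧ squ v s ⊆ dyc v i.1 i.2)
    (Q' := fun s : Idx × Fin 3 => MinSq v I s ∧ squ v s ⊆ dyc v i.1 i.2 ∧ squ v s ⊆ univ)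
    (fun s h => ⟨h.1, h.2, subset_univ _⟩) fun s => ∑' e : {e : Idx × Fin 3 // EdgeOfSq e s},
        ENNReal.ofReal (1 / 2 ^ i.1 * (1 / 2 ^ s.1.1)) * eInt v e.1 fun x => g x ^ p
  exact h2

/-- **[PRE-A]** -/
theorem minEdge_sum (hΩ : IsOpen Ω) (hI : Part Ω v I) (i : Idx) (H : V → ℝ≥0∞) :
    ∑' s : {s : Idx × Fin 3 // MinSq v I s ∧ squ v s ⊆ dyc v i.1 i.2},
      ∑' e : {e : Idx × Fin 3 // MinEdge v I e ∧ edge v e ⊆ squ v s.1},
        ENNReal.ofReal (1 / 2 ^ i.1 * (1 / 2 ^ s.1.1.1)) * eInt v e.1 H ≤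
      cellT v I univ H i := by
  have h1 : ∀ s : {s : Idx × Fin 3 // MinSq v I s ∧ squ v s ⊆ dyc v i.1 i.2},
      ∑' e : {e : Idx × Fin 3 // MinEdge v I e ∧ edge v e ⊆ squ v s.1},
        ENNReal.ofReal (1 / 2 ^ i.1 * (1 / 2 ^ s.1.1.1)) * eInt v e.1 H ≤
      ∑' e : {e : Idx × Fin 3 // EdgeOfSq e s.1},
        ENNReal.ofReal (1 / 2 ^ i.1 * (1 / 2 ^ s.1.1.1)) * eInt v e.1 H := by
    intro s
    rw [ENNReal.tsum_mul_left, ENNReal.tsum_mul_left]
    gcongr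
    rw [tsum_sqE s.1 fun e => eInt v e H, tsum_minEdge hI s.2.1 fun e => eInt v e H]
    exact sum_minEdge_le hΩ hI s.2.1 _
  refine (ENNReal.tsum_le_tsum h1).trans ?_
  unfold cellT
  exact tsum_sub_le (Q := fun s : Idx × Fin 3 => MinSq v I s ∧ squ v s ⊆ dyc v i.1 i.2)
    (Q' := fun s : Idx × Fin 3 => MinSq v I s ∧ squ v s ⊆ dyc v i.1 i.2 ∧ squ v s ⊆ univ)
    (fun s h => ⟨h.1, h.2, subset_univ _⟩) fun s => ∑' e : {e : Idx × Fin 3 // EdgeOfSq e s},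
        ENNReal.ofReal (1 / 2 ^ i.1 * (1 / 2 ^ s.1.1)) * eInt v e.1 H

/-- **[PRE-A]** every edge is in finitely many squares and cells -/
theorem finite_pairs (hI : Part Ω v I) {e : Idx × Fin 3} (he : edge v e ⊆ Ω) :
    {a : Idx × (Idx × Fin 3) | a.1 ∈ I ∧ MinSq v I a.2 ∧ squ v a.2 ⊆ dyc v a.1.1 a.1.2 ∧
      edge v e ⊆ squ v a.2}.Finite := by
  have h1 := hI.fin _ he (Gr.isCompact_edge v e)
  refine (h1.biUnion fun i hi => ((finite_minSq hI hi.1).image fun s => (i, s))).subset ?_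
  rintro ⟨i, s⟩ ⟨a1, a2, a3, a4⟩
  obtain ⟨y, hy⟩ := Gr.edge_nonempty v e
  exact mem_biUnion (x := i) ⟨a1, y, a3 (a4 hy), hy⟩ ⟨s, ⟨a2, a3⟩, rfl⟩

end Vale.Agent.P073.H687
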