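import Vale.Agent.P073.H687.Dict
import Vale.Agent.P073.H193.Class

/-!
# P073, `[PRE-F5]`: a minimal edge lies in a minimal square
-/

open Set Metric Topology Filter Module MeasureTheory
open scoped ENNReal

namespace Vale.Agent.P073.H687

open Vale.Agent.P073.St (V)
open Vale.Agent.P073.SQ (ev)
open Vale.Agent.P073.H73 (MinEdge segP)
open Vale.Agent.P073.AB Vale.Agent.P073.AB.P86
open _root_.P073.Net (dyc dyo)

variable {Ω : Set V} {v : V} {I : Set Idx}

/-- every point of a face of a cube of the partition is in a minimal square in this face -/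
theorem face_cover (hΩ : IsOpen Ω) (hI : Part Ω v I) {s : Idx × Fin 3} {r : Idx}
    (hs : FaceOf s r) (hr : r ∈ I) {x : V} (hx : x ∈ squ v s) :
    ∃ s', MinSq v I s' ∧ x ∈ squ v s' ∧ squ v s' ⊆ squ v s := by
  rcases faceOf_iff.1 hs with h | h
  · exact cover_hi hΩ hI hx (h ▸ hr)
  · exact cover_lo hΩ hI hx (h ▸ hr)

theorem face_sub_dyc {s : Idx × Fin 3} {q : Idx} (h : FaceOf s q) : squ v s ⊆ dyc v q.1 q.2 := by
  rcases faceOf_iff.1 h with rfl | rfl
  · exact squ_sub_hi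
  · exact squ_sub_lo

/-- **[PRE-F5]** -/
theorem exists_minSq_of_minEdge (hΩ : IsOpen Ω) (hI : Part Ω v I) {e : Idx × Fin 3}
    (he : MinEdge v I e) {r : Idx} (hr : r ∈ I) (her : EdgeOf e r) :
    ∃ s, MinSq v I s ∧ edge v e ⊆ squ v s ∧ squ v s ⊆ dyc v r.1 r.2 := by
  obtain ⟨l, hl⟩ : ∃ l : Fin 3, l ≠ e.2 := exists_ne _
  set s0 : Idx × Fin 3 := ((r.1, Function.update r.2 l (e.1.2 l)), l) with hs0
  have hf : FaceOf s0 r := by
    refine ⟨rfl, ?_, fun j hj => ?_⟩
    · simpa [hs0] using her.2.2 l hl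
    · have hj' : j ≠ l := hj
      simp [hs0, hj']
  have hes : edge v e ⊆ squ v s0 := by
    intro x hx
    have hxr := Gr.edge_subset_dyc her hx
    rw [Gr.mem_edge] at hx
    refine ⟨?_, fun k hk => ?_⟩
    · have h1 := hx.1 l hl
      rw [her.1] at h1
      simpa [hs0] using h1
    · have hk' : k ≠ l := hk
      have h1 := hxr k
      simpa [hs0, hk'] using h1
  have hm := Gr.mid_spec v e
  obtain ⟨F, hF, hmF, hFs⟩ := face_cover hΩ hI hf hr (hes hm.1)
  obtain ⟨q, hq, hfq⟩ := hF.1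
  have h1 := edge_sub_of_inner he hq hm.1 hm.2.1 hm.2.2 (face_sub_dyc hfq hmF)
  have hn : F.2 = l := H193.normal_of_sub hFs
  refine ⟨F, hF, fun y hy => ?_, hFs.trans (face_sub_dyc hf)⟩
  refine ⟨?_, fun k hk => ?_⟩
  · have h2 := (hFs hmF).1
    have h3 := (hes hy).1
    have h4 := hmF.1
    rw [hn] at h4 ⊢
    have h5 : s0.2 = l := rfl
    rw [h5] at h2 h3
    rw [h3, ← h2, h4]
  · have h2 := h1 hy k
    rw [hfq.1, hfq.2.2 k hk]
    exact h2

end Vale.Agent.P073.H687
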