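import Vale.Agent.P073.H687.PD4a
import Vale.Agent.P073.H333.PD3b

/-!
# P073, A15 [PD4]: the squares of the base partition between kept and divided cubes
-/

open Set Metric Topology Filter Module MeasureTheory
open scoped ENNReal

namespace Vale.Agent.P073.H687

open Vale.Agent.P073.St (V Mat)
open Vale.Agent.P073.SQ (ev)
open Vale.Agent.P073.H73 (MinEdge segP Bix)
open Vale.Agent.P073.H194 (cellT refine sInt bInt faceP off off_true off_false dyc_int)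
open Vale.Agent.P073.H333 (eInt_const_mul eInt_mono_on eInt_add_cst eInt_cst PD PD0 lay gap out
  core base)
open Vale.Agent.P073.AB Vale.Agent.P073.AB.P86
open _root_.P073.Net (dyc dyo)

/-- a minimal square between a kept cube `i` and another cube `r` of a partition, of the same
generation as both -/
theorem faceOf_of_two {Ω : Set V} {v : V} {I : Set Idx} (hΩ : IsOpen Ω) (hI : Part Ω v I)
    {s : Idx × Fin 3} (hs : MinSq v I s) {i r : Idx} (hi : i ∈ I) (hr : r ∈ I) (hne : r ≠ i)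
    (hsi : squ v s ⊆ dyc v i.1 i.2) (hsr : squ v s ⊆ dyc v r.1 r.2) {N : ℕ} (hiN : i.1 = N)
    (hrN : r.1 = N) : FaceOf s i := by
  obtain ⟨qp, qm, h2⟩ := two_of_minSq hΩ hI hs
  have hc := sc_mem (v := v) (s := s)
  have h3 := rel_mem hI h2 hc hi (hsi (rel_sub hc))
  have h4 := rel_mem hI h2 hc hr (hsr (rel_sub hc))
  obtain ⟨⟨q0, hq0, hf⟩, -⟩ := id hs
  have h5 := rel_mem hI h2 hc hq0 (H194.face_sub hf (rel_sub hc))
  have hboth : (i = qp ∧ r = qm) ∨ (i = qm ∧ r = qp) := by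
    rcases h3 with h3 | h3 <;> rcases h4 with h4 | h4
    · exact absurd (h4.trans h3.symm) hne
    · exact Or.inl ⟨h3, h4⟩
    · exact Or.inr ⟨h3, h4⟩
    · exact absurd (h4.trans h3.symm) hne
  have hsN : s.1.1 = N := by
    rw [hf.1]
    rcases h5 with h5 | h5 <;> rcases hboth with ⟨h6, h7⟩ | ⟨h6, h7⟩
    · rw [h5, ← h6, hiN]
    · rw [h5, ← h7, hrN]
    · rw [h5, ← h7, hrN]
    · rw [h5, ← h6, hiN]
  obtain ⟨m, w⟩ := i
  simp only at hiN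
  subst hiN
  rw [faceOf_iff]
  rcases hboth with ⟨h6, -⟩ | ⟨h6, -⟩
  · left
    have h8 := h2.subp
    rw [← h6, hsN] at h8
    have h9 := eq_of_sub_same h8
    exact Prod.ext hsN.symm h9.symm
  · right
    have h8 := h2.subm
    rw [← h6, hsN] at h8
    have h9 := eq_of_sub_same h8
    exact Prod.ext hsN.symm h9.symm

namespace PD4

variable {p ε δ : ℝ} {Φ : ℕ → Finset (Fin 3 → ℤ) → ((Fin 3 → ℤ) → V → V) → ℝ}
  {Ω Λ : Set V} {f : V → V} {F : V → Mat} (D : PD p ε δ Φ Ω Λ f F)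

theorem W_ne_top (a : ℝ) (hp : 0 ≤ p) : ENNReal.ofReal a ^ p ≠ ⊤ :=
  ENNReal.rpow_ne_top_of_nonneg hp ENNReal.ofReal_ne_top

/-- a point of a kept cube in a box `boxR` is on the boundary of the box -/
theorem notMem_int {i : Idx} (hi : i ∈ D.P) {x : V} (hx : x ∈ dyc D.v i.1 i.2)
    {z : Fin 3 → ℤ} : x ∉ interior (boxR D.v D.n D.k₁ z) := by
  intro hxz
  have hxd : x ∈ dyo D.v D.n z := H333.boxR_sub_dyo _ _ _ _ (interior_subset hxz)
  rcases hi with hi | hi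
  · obtain ⟨-, z', hz', h1, h2⟩ := H669.lay_disj hi
    by_cases hzz : z' = z
    · subst hzz
      exact Set.disjoint_left.1 h2 hx (H333.boxR_sub_int _ _ _ _ (interior_subset hxz))
    · exact Set.disjoint_left.1 (H669.dyo_dyc_disj hzz) (h1 hx) hxd
  · obtain ⟨-, z', hz', h1, h2⟩ := H669.gap_disj hi
    by_cases hzz : z' = z
    · subst hzz
      exact Set.disjoint_left.1 h2 hx hxz
    · exact Set.disjoint_left.1 (H669.dyo_dyc_disj hzz)
        (dyo_sub_dyc (H333.boxB_sub_dyo _ _ _ _ (h1 hx))) hxd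

/-- the base squares between kept and divided cubes -/
def BSq (i : Idx) (s : Idx × Fin 3) : Prop :=
  MinSq D.v D.Ib s ∧ squ D.v s ⊆ dyc D.v i.1 i.2 ∧
    ∃ r ∈ D.Ib \ D.P, squ D.v s ⊆ dyc D.v r.1 r.2

/-- the bound for the weights -/
noncomputable def Wb : ℝ≥0∞ := ENNReal.ofReal (1 + 4 * (2 / D.a₁)) ^ p

/-- the squares next to the core -/
theorem core_sInt {i : Idx} (hi : i ∈ D.P) {s : Idx × Fin 3} (hsi : squ D.v s ⊆ dyc D.v i.1 i.2)
    {r : Idx} (hr : r ∈ core D.v D.n D.k₁ D.J) (hsr : squ D.v s ⊆ dyc D.v r.1 r.2) :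
    sInt D.v s (D.Hw p) ≤
      Wb D * ENNReal.ofReal D.M ^ p * ENNReal.ofReal ((1 / 2 ^ s.1.1) ^ 2) := by
  have hp0 : 0 ≤ p := by linarith [D.hp]
  have hrb : r ∈ D.Ib \ D.P := by rw [D.diff_eq]; exact Or.inr hr
  obtain ⟨-, z, hz, hrz⟩ := hr
  rw [← sInt_cst]
  refine H194.sInt_mono fun x hx => ?_
  have hxR := hrz (hsr hx)
  have h1 := D.wg_fs_le hrb (hsr hx) hz (dyo_sub_dyc (H333.boxR_sub_dyo _ _ _ _ hxR))
    (notMem_int D hi (hsi hx))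
  have h2 : D.Gs p x ≤ ENNReal.ofReal D.M ^ p := by
    unfold PD0.Gs
    rw [H194.Gs_in hz hxR]
    refine (indicator_le_self _ _ _).trans ?_
    exact ENNReal.rpow_le_rpow (D.enorm_L_le hz) hp0
  show H471.wgt _ _ _ _ ^ p * _ ≤ _
  exact mul_le_mul' (ENNReal.rpow_le_rpow h1 hp0) h2

/-- the squares next to the outer cubes -/
theorem out_sInt {i : Idx} (hi : i ∈ D.P) {s : Idx × Fin 3} (hs : MinSq D.v D.Ib s)
    (hsi : squ D.v s ⊆ dyc D.v i.1 i.2)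
    {r : Idx} (hr : r ∈ out Ω D.v D.n D.k₁ D.k₀ D.J) (hsr : squ D.v s ⊆ dyc D.v r.1 r.2) :
    ∃ z ∈ D.J, (i.1 = D.n + D.k₁ + D.k₀ ∧ dyc D.v i.1 i.2 ⊆ dyc D.v D.n z ∧
      FaceOf s i ∧ squ D.v s ⊆ frontier (dyc D.v D.n z)) ∧
      sInt D.v s (D.Hw p) ≤ Wb D * sInt D.v s D.G := by
  have hp0 : 0 ≤ p := by linarith [D.hp]
  have hrb : r ∈ D.Ib \ D.P := by rw [D.diff_eq]; exact Or.inl hr
  have hdis : ∀ z ∈ D.J, Disjoint (dyc D.v r.1 r.2) (dyo D.v D.n z) := fun z hz =>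
    D.fine.out_disj hr hz
  have hxs : sc D.v s ∈ squ D.v s := rel_sub sc_mem
  have hiI : i ∈ D.Ib := H669.lay_gap_sub hi
  rcases id hi with hi' | hi'
  · obtain ⟨hgi, z, hz, h1, -⟩ := H669.lay_disj hi'
    have hgr : r.1 = D.n + D.k₁ + D.k₀ := D.fine.gen_of_meet hz hr.1 (h1 (hsi hxs)) (hsr hxs)
    have hne : r ≠ i := by
      rintro rfl
      exact hrb.2 hi
    refine ⟨z, hz, ⟨hgi, h1, faceOf_of_two D.bΩ.1 D.fine.part_base hs hiI hrb.1 hne hsi hsr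
      hgi hgr, ?_⟩, ?_⟩
    · intro x hx
      rw [frontier, (isCompact_dyc D.v D.n z).isClosed.closure_eq]
      refine ⟨h1 (hsi hx), fun hxi => ?_⟩
      rw [H194.interior_dyc] at hxi
      exact Set.disjoint_left.1 (hdis z hz) (hsr hx) hxi
    · unfold Wb
      rw [← sInt_const_mul _ _ (W_ne_top _ hp0)]
      refine H194.sInt_mono fun x hx => ?_
      have h3 := D.wg_fs_le hrb (hsr hx) hz (h1 (hsi hx)) (notMem_int D hi (hsi hx))
      have h4 : D.Gs p x = D.G x := by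
        unfold PD0.Gs
        refine H194.Gs_out fun z' hz' hxz => ?_
        exact Set.disjoint_left.1 (hdis z' hz') (hsr hx) (H333.boxR_sub_dyo _ _ _ _ hxz)
      show H471.wgt _ _ _ _ ^ p * D.Gs p x ≤ _
      rw [h4]
      exact mul_le_mul' (ENNReal.rpow_le_rpow h3 hp0) le_rfl
  · exfalso
    obtain ⟨-, z, hz, h1, -⟩ := H669.gap_disj hi'
    exact Set.disjoint_left.1 (hdis z hz) (hsr hxs) (H333.boxB_sub_dyo _ _ _ _ (h1 (hsi hxs)))

theorem cells_volume_le {a : ℝ} (ha : 0 ≤ a) (D : PD p ε δ Φ Ω Λ f F) :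
    ∑ _z ∈ D.J, ENNReal.ofReal (a * (1 / 2 ^ D.n) ^ 3) ≤ ENNReal.ofReal a * volume Ω := by
  have h1 : ∀ z ∈ D.J, ENNReal.ofReal (a * (1 / 2 ^ D.n) ^ 3) =
      ENNReal.ofReal a * volume (dyo D.v D.n z) := by
    intro z _
    rw [ENNReal.ofReal_mul ha, S308.volume_dyo, ofReal_cube]
  rw [Finset.sum_congr rfl h1, ← Finset.mul_sum]
  gcongr
  rw [← measure_biUnion_finset]
  · exact measure_mono (iUnion₂_subset fun z hz => dyo_sub_dyc.trans (D.fine.sub_Ω hz))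
  · intro a _ b _ hab
    show Disjoint (dyo D.v D.n a) (dyo D.v D.n b)
    exact S308.dyo_disj hab
  · intro z _
    rw [← H194.interior_dyc]
    exact isOpen_interior.measurableSet

/-- the base squares next to the core -/
theorem sum_core : ∑' i : {i // i ∈ D.P}, ∑' s : {s // BSq D i.1 s ∧
      ¬ ∃ r ∈ out Ω D.v D.n D.k₁ D.k₀ D.J, squ D.v s ⊆ dyc D.v r.1 r.2},
      ENNReal.ofReal (1 / 2 ^ i.1.1) * sInt D.v s.1 (D.Hw p) ≤
    Wb D * (ENNReal.ofReal D.M ^ p * (6 * ENNReal.ofReal (12 / 2 ^ D.k₁) * volume Ω)) := by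
  have h1 : ∀ i : {i // i ∈ D.P}, ∑' s : {s // BSq D i.1 s ∧
      ¬ ∃ r ∈ out Ω D.v D.n D.k₁ D.k₀ D.J, squ D.v s ⊆ dyc D.v r.1 r.2},
      ENNReal.ofReal (1 / 2 ^ i.1.1) * sInt D.v s.1 (D.Hw p) ≤
      6 * (Wb D * ENNReal.ofReal D.M ^ p) * ENNReal.ofReal ((1 / 2 ^ i.1.1) ^ 3) := by
    intro i
    have hiI : i.1 ∈ D.Ib := H669.lay_gap_sub i.2
    calc _ ≤ ∑' s : {s // BSq D i.1 s ∧
          ¬ ∃ r ∈ out Ω D.v D.n D.k₁ D.k₀ D.J, squ D.v s ⊆ dyc D.v r.1 r.2},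
          ENNReal.ofReal (1 / 2 ^ i.1.1) * (Wb D * ENNReal.ofReal D.M ^ p *
            ENNReal.ofReal ((1 / 2 ^ s.1.1.1) ^ 2)) := by
          refine ENNReal.tsum_le_tsum fun s => ?_
          obtain ⟨⟨-, hs1, r, hr, hsr⟩, hs2⟩ := s.2
          gcongr
          rw [D.diff_eq] at hr
          rcases hr with hr | hr
          · exact absurd ⟨r, hr, hsr⟩ hs2
          · exact core_sInt D i.2 hs1 hr hsr
      _ ≤ ∑' s : {s // MinSq D.v D.Ib s ∧ squ D.v s ⊆ dyc D.v i.1.1 i.1.2},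
          ENNReal.ofReal (1 / 2 ^ i.1.1) * (Wb D * ENNReal.ofReal D.M ^ p *
            ENNReal.ofReal ((1 / 2 ^ s.1.1.1) ^ 2)) :=
          tsum_sub_le (Q := fun s => BSq D i.1 s ∧
              ¬ ∃ r ∈ out Ω D.v D.n D.k₁ D.k₀ D.J, squ D.v s ⊆ dyc D.v r.1 r.2)
            (Q' := fun s => MinSq D.v D.Ib s ∧ squ D.v s ⊆ dyc D.v i.1.1 i.1.2)
            (fun s h => ⟨h.1.1, h.1.2.1⟩) fun s => ENNReal.ofReal (1 / 2 ^ i.1.1) *
              (Wb D * ENNReal.ofReal D.M ^ p * ENNReal.ofReal ((1 / 2 ^ s.1.1) ^ 2))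
      _ = ENNReal.ofReal (1 / 2 ^ i.1.1) * (Wb D * ENNReal.ofReal D.M ^ p *
          ∑' s : {s // MinSq D.v D.Ib s ∧ squ D.v s ⊆ dyc D.v i.1.1 i.1.2},
            ENNReal.ofReal ((1 / 2 ^ s.1.1.1) ^ 2)) := by
          rw [ENNReal.tsum_mul_left, ENNReal.tsum_mul_left]
      _ ≤ ENNReal.ofReal (1 / 2 ^ i.1.1) * (Wb D * ENNReal.ofReal D.M ^ p *
          ENNReal.ofReal (6 * (1 / 2 ^ i.1.1) ^ 2)) := by
          gcongr
          exact area_le D.fine.part_base hiI D.bΩ.1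
      _ = _ := by
          rw [pow_succ (1 / 2 ^ i.1.1 : ℝ) 2, ENNReal.ofReal_mul (by norm_num),
            ENNReal.ofReal_mul (by positivity)]
          have : ENNReal.ofReal 6 = 6 := by norm_num
          rw [this]
          ring
  calc _ ≤ ∑' i : {i // i ∈ D.P},
        6 * (Wb D * ENNReal.ofReal D.M ^ p) * ENNReal.ofReal ((1 / 2 ^ i.1.1) ^ 3) :=
        ENNReal.tsum_le_tsum h1
    _ = 6 * (Wb D * ENNReal.ofReal D.M ^ p) *
        ∑' i : {i // i ∈ D.P}, ENNReal.ofReal ((1 / 2 ^ i.1.1) ^ 3) := ENNReal.tsum_mul_left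
    _ ≤ 6 * (Wb D * ENNReal.ofReal D.M ^ p) * (ENNReal.ofReal (12 / 2 ^ D.k₁) * volume Ω) := by
        gcongr
        exact (kept_volume D.fine.part_base H669.lay_gap_sub).trans
          (cells_volume_le (by positivity) D)
    _ = _ := by ring

/-- the base squares next to the outer cubes -/
theorem sum_out : ∑' i : {i // i ∈ D.P}, ∑' s : {s // BSq D i.1 s ∧
      ∃ r ∈ out Ω D.v D.n D.k₁ D.k₀ D.J, squ D.v s ⊆ dyc D.v r.1 r.2},
      ENNReal.ofReal (1 / 2 ^ i.1.1) * sInt D.v s.1 (D.Hw p) ≤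
    Wb D * (ENNReal.ofReal (1 / 2 ^ D.k₁) * (6 * (∫⁻ x, D.G x) + 1)) := by
  set N := D.n + D.k₁ + D.k₀ with hN
  have hnN : D.n ≤ N := by omega
  set S : (Fin 3 → ℤ) → Set (Idx × (Idx × Fin 3)) := fun z => {a | a.1.1 = N ∧
    dyc D.v a.1.1 a.1.2 ⊆ dyc D.v D.n z ∧ FaceOf a.2 a.1 ∧
    squ D.v a.2 ⊆ frontier (dyc D.v D.n z)} with hS
  have h1 := tsum_pairs_le (fun i => i ∈ D.P) (fun i s => BSq D i s ∧
      ∃ r ∈ out Ω D.v D.n D.k₁ D.k₀ D.J, squ D.v s ⊆ dyc D.v r.1 r.2)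
    (fun i s => ENNReal.ofReal (1 / 2 ^ i.1) * sInt D.v s (D.Hw p)) D.J S
    (fun a => Wb D * (ENNReal.ofReal (1 / 2 ^ N) * sInt D.v a.2 D.G)) (by
      rintro i s hi ⟨⟨hs, hsi, -⟩, r, hr, hsr⟩
      obtain ⟨z, hz, h2, h3⟩ := out_sInt D hi hs hsi hr hsr
      refine ⟨z, hz, h2, ?_⟩
      show ENNReal.ofReal (1 / 2 ^ i.1) * _ ≤ Wb D * (ENNReal.ofReal (1 / 2 ^ N) * _)
      rw [h2.1, mul_left_comm]
      gcongr)
  refine h1.trans ?_
  calc ∑ z ∈ D.J, ∑' a : S z, Wb D * (ENNReal.ofReal (1 / 2 ^ N) * sInt D.v a.1.2 D.G)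
      ≤ ∑ z ∈ D.J, Wb D * (ENNReal.ofReal (1 / 2 ^ N) * bInt D.v (D.n, z) D.G) := by
        refine Finset.sum_le_sum fun z _ => ?_
        rw [ENNReal.tsum_mul_left]
        gcongr
        exact surf_sub' hnN (fun a ha => ha) (injOn_snd hnN fun a ha => ha)
    _ ≤ ∑ z ∈ D.J, Wb D * (ENNReal.ofReal (1 / 2 ^ D.k₁) *
          (ENNReal.ofReal (1 / 2 ^ D.n) * bInt D.v (D.n, z) D.G)) := by
        refine Finset.sum_le_sum fun z _ => ?_
        rw [← mul_assoc (ENNReal.ofReal (1 / 2 ^ D.k₁)), ← ENNReal.ofReal_mul (by positivity)]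
        gcongr
        rw [one_div_mul_one_div, ← pow_add]
        apply one_div_le_one_div_of_le (by positivity)
        exact pow_le_pow_right₀ (by norm_num) (by omega)
    _ = Wb D * (ENNReal.ofReal (1 / 2 ^ D.k₁) *
          ∑ z ∈ D.J, ENNReal.ofReal (1 / 2 ^ D.n) * bInt D.v (D.n, z) D.G) := by
        rw [Finset.mul_sum, Finset.mul_sum]
    _ ≤ _ := by
        gcongr
        exact D.surf

/-- **the base squares between kept and divided cubes** -/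
theorem sum_base : ∑' i : {i // i ∈ D.P}, ∑' s : {s // BSq D i.1 s},
      ENNReal.ofReal (1 / 2 ^ i.1.1) * sInt D.v s.1 (D.Hw p) ≤
    ENNReal.ofReal (1 + 4 * (2 / D.a₁)) ^ p *
      (ENNReal.ofReal (1 / 2 ^ D.k₁) * (6 * (∫⁻ x, D.G x) + 1) +
        ENNReal.ofReal D.M ^ p * (6 * ENNReal.ofReal (12 / 2 ^ D.k₁) * volume Ω)) := by
  have h1 : ∀ i : {i // i ∈ D.P}, ∑' s : {s // BSq D i.1 s},
      ENNReal.ofReal (1 / 2 ^ i.1.1) * sInt D.v s.1 (D.Hw p) ≤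
      ∑' s : {s // BSq D i.1 s ∧
        ∃ r ∈ out Ω D.v D.n D.k₁ D.k₀ D.J, squ D.v s ⊆ dyc D.v r.1 r.2},
      ENNReal.ofReal (1 / 2 ^ i.1.1) * sInt D.v s.1 (D.Hw p) +
      ∑' s : {s // BSq D i.1 s ∧
        ¬ ∃ r ∈ out Ω D.v D.n D.k₁ D.k₀ D.J, squ D.v s ⊆ dyc D.v r.1 r.2},
      ENNReal.ofReal (1 / 2 ^ i.1.1) * sInt D.v s.1 (D.Hw p) := fun i =>
    tsum_split (BSq D i.1)
      (fun s => ∃ r ∈ out Ω D.v D.n D.k₁ D.k₀ D.J, squ D.v s ⊆ dyc D.v r.1 r.2)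
      (E := fun s => ENNReal.ofReal (1 / 2 ^ i.1.1) * sInt D.v s (D.Hw p))
      (fun _ _ _ => le_rfl) (fun _ _ _ => le_rfl)
  refine (ENNReal.tsum_le_tsum h1).trans ?_
  rw [ENNReal.tsum_add, mul_add]
  exact add_le_add (sum_out D) (sum_core D)

end PD4

end Vale.Agent.P073.H687
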