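import Vale.Agent.P073.H333.Kept
import Vale.Agent.P073.H235.PreParts

/-!
# P073, block A16, `[TW]`: the weight near a grid plane
-/

open Set Metric Topology Filter MeasureTheory
open scoped ENNReal

namespace Vale.Agent.P073.H687

open Vale.Agent.P073.St (V)
open Vale.Agent.P073.H333 (tw)
open Vale.Agent.P073.H73 (ctr)
open Vale.Agent.P073.H235 (SpecTW)
open _root_.P073.Net (dyc dyo IsTile SizeFn)

/-- half integers are far from integers -/
theorem half_le (z t : ℤ) : (1 / 2 : ℝ) ≤ |(z : ℝ) + 1 / 2 - t| := by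
  rcases le_or_gt t z with h | h
  · have h' : (t : ℝ) ≤ z := by exact_mod_cast h
    rw [abs_of_nonneg (by linarith)]
    linarith
  · have h' : (z : ℝ) + 1 ≤ t := by exact_mod_cast h
    rw [abs_of_nonpos (by linarith)]
    linarith

/-- **[TW]**, any direction -/
theorem tw_near {Λ : Set V} {ρ : V → ℝ} {mt : ℕ} {c : ℕ → (Fin 3 → ℤ) → V} {y : V} {t : ℤ}
    (hρ : SizeFn Λ ρ) (hc : ∀ m z, IsTile ρ 0 m z → ‖c m z - ctr 0 m z‖ ≤ 1 / 4 / 2 ^ m)
    (hmt : ∀ m z, IsTile ρ 0 m z → y ∈ dyc 0 m z → m = mt) (j : Fin 3)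
    (hy : |y j - t / 2 ^ mt| ≤ 1 / 8 / 2 ^ mt) : tw ρ c y ≤ 33 := by
  have h1 : tw ρ c y ≤ ENNReal.ofReal (1 + 4 * 8) := by
    refine H333.tw_le hρ (by norm_num) fun m z ht hyz => ?_
    have hm := hmt m z ht hyz
    subst hm
    have hp : (0:ℝ) < 2 ^ m := by positivity
    have h2 : |c m z j - ctr 0 m z j| ≤ 1 / 4 / 2 ^ m :=
      (norm_le_pi_norm (c m z - ctr 0 m z) j).trans (hc m z ht)
    have h3 : ctr 0 m z j - t / 2 ^ m = ((z j : ℝ) + 1 / 2 - t) / 2 ^ m := by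
      have : ctr 0 m z j = (0 : V) j + (z j + 1 / 2) / 2 ^ m := rfl
      rw [this, Pi.zero_apply, zero_add]
      ring
    have h4 : 1 / 2 / 2 ^ m ≤ |ctr 0 m z j - t / 2 ^ m| := by
      rw [h3, abs_div, abs_of_pos hp]
      gcongr
      exact half_le (z j) t
    have h5 : |ctr 0 m z j - t / 2 ^ m| ≤ |c m z j - ctr 0 m z j| + |y j - c m z j| +
        |y j - t / 2 ^ m| := by
      have e : ctr 0 m z j - t / 2 ^ m = -(c m z j - ctr 0 m z j) - (y j - c m z j) +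
        (y j - t / 2 ^ m) := by ring
      rw [e]
      refine (abs_add_le _ _).trans (add_le_add ((abs_sub _ _).trans ?_) le_rfl)
      rw [abs_neg]
    have h6 : |y j - c m z j| ≤ ‖y - c m z‖ := norm_le_pi_norm (y - c m z) j
    have e1 : (1:ℝ) / 4 / 2 ^ m = 2 * (1 / 8 / 2 ^ m) := by ring
    have e2 : (1:ℝ) / 2 / 2 ^ m = 4 * (1 / 8 / 2 ^ m) := by ring
    have e3 : (1:ℝ) / 2 ^ m = 8 * (1 / 8 / 2 ^ m) := by ring
    rw [e1] at h2
    rw [e2] at h4
    rw [e3]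
    linarith
  refine h1.trans (le_of_eq ?_)
  norm_num

/-- **[TW]** -/
theorem specTW : SpecTW := fun _ _ _ _ _ _ hρ hc hmt hy => tw_near hρ hc hmt 2 hy

end Vale.Agent.P073.H687
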