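import Vale.Agent.P073.H687.Chart

/-!
# P073, A15 [T2]: the mesh of a tiling by convex polytopes

`Tiling Ω`: a locally finite tiling of the open set `Ω` by convex polytopes. `Tiling.mesh`: the mesh
whose cells are the tiles and whose faces are the two-dimensional intersections of two tiles.
-/

open Set Metric Topology Filter Module MeasureTheory

namespace Vale.Agent.P073.H687

open Vale.Agent.P073.St (V)
open Vale.Agent.P073.H73 (Fat Mesh usq)

section half

variable {Q : Set V}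

theorem half_convex (h : ∃ (n : ℕ) (ν : Fin n → V →L[ℝ] ℝ) (t : Fin n → ℝ),
    Q = {x | ∀ i, ν i x ≤ t i}) : Convex ℝ Q := by
  obtain ⟨n, ν, t, rfl⟩ := h
  have : {x : V | ∀ i, ν i x ≤ t i} = ⋂ i, {x | ν i x ≤ t i} := by ext x; simp
  rw [this]
  exact convex_iInter fun i => convex_halfSpace_le (ν i).toLinearMap.isLinear (t i)

theorem _root_.Vale.Agent.P073.H73.Poly.convex (h : H73.Poly Q) : Convex ℝ Q := half_convex h.half

theorem _root_.Vale.Agent.P073.H73.Poly.closure_interior (h : H73.Poly Q) :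
    closure (interior Q) = Q := by
  rw [h.convex.closure_interior_eq_closure_of_nonempty_interior h.int, h.cpt.isClosed.closure_eq]

theorem half_inter {Q' : Set V} (h : ∃ (n : ℕ) (ν : Fin n → V →L[ℝ] ℝ) (t : Fin n → ℝ),
    Q = {x | ∀ i, ν i x ≤ t i}) (h' : ∃ (n : ℕ) (ν : Fin n → V →L[ℝ] ℝ) (t : Fin n → ℝ),
    Q' = {x | ∀ i, ν i x ≤ t i}) : ∃ (n : ℕ) (ν : Fin n → V →L[ℝ] ℝ) (t : Fin n → ℝ),
    Q ∩ Q' = {x | ∀ i, ν i x ≤ t i} := by
  obtain ⟨n, ν, t, rfl⟩ := h
  obtain ⟨n', ν', t', rfl⟩ := h'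
  refine ⟨n + n', Fin.append ν ν', Fin.append t t', ?_⟩
  ext x
  constructor
  · rintro ⟨h1, h2⟩ i
    refine Fin.addCases (fun i => ?_) (fun i => ?_) i
    · rw [Fin.append_left, Fin.append_left]; exact h1 i
    · rw [Fin.append_right, Fin.append_right]; exact h2 i
  · intro h
    refine ⟨fun i => ?_, fun i => ?_⟩
    · have := h (Fin.castAdd n' i)
      rwa [Fin.append_left, Fin.append_left] at this
    · have := h (Fin.natAdd n i)
      rwa [Fin.append_right, Fin.append_right] at this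

end half

/-- two-dimensional sets -/
def Two (F : Set V) : Prop := finrank ℝ (vectorSpan ℝ F) = 2

theorem Two.nonempty {F : Set V} (h : Two F) : F.Nonempty := by
  rw [nonempty_iff_ne_empty]
  rintro rfl
  rw [Two, vectorSpan_empty, finrank_bot] at h
  omega

theorem Two.nontrivial {F : Set V} (h : Two F) : F.Nontrivial := by
  rw [← not_subsingleton_iff]
  intro hs
  rcases hs.eq_empty_or_singleton with h1 | ⟨x, h1⟩
  · rw [Two, h1, vectorSpan_empty, finrank_bot] at h; omega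
  · rw [Two, h1, vectorSpan_singleton, finrank_bot] at h; omega

theorem Two.diam_pos {F : Set V} (h : Two F) (hF : IsCompact F) : 0 < diam F := by
  obtain ⟨x, hx, y, hy, hxy⟩ := h.nontrivial
  exact (dist_pos.2 hxy).trans_le (dist_le_diam_of_mem hF.isBounded hx hy)

section plane

variable {F : Set V} {f : V →L[ℝ] ℝ} {u : ℝ}

theorem finrank_ker (hf : f ≠ 0) : finrank ℝ (LinearMap.ker (f : V →ₗ[ℝ] ℝ)) = 2 := by
  have h1 := Module.Dual.finrank_ker_add_one_of_ne_zero (f := (f : V →ₗ[ℝ] ℝ)) (by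
    intro h
    apply hf
    ext x
    exact congrArg (fun g : V →ₗ[ℝ] ℝ => g x) h)
  have h3 : finrank ℝ V = 3 := by simp
  have h2 : finrank ℝ (LinearMap.ker (f : V →ₗ[ℝ] ℝ)) + 1 = 3 := h1.trans h3
  omega

theorem vectorSpan_le_ker (hu : ∀ x ∈ F, f x = u) :
    vectorSpan ℝ F ≤ LinearMap.ker (f : V →ₗ[ℝ] ℝ) := by
  rw [vectorSpan_def, Submodule.span_le]
  rintro _ ⟨x, hx, y, hy, rfl⟩
  show f (x - y) = 0
  rw [map_sub, hu x hx, hu y hy, sub_self]

theorem finrank_le_one (hf : f ≠ 0) (hu : ∀ x ∈ F, f x = u) (h : ¬ Two F) :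
    finrank ℝ (vectorSpan ℝ F) ≤ 1 := by
  have h1 := Submodule.finrank_mono (vectorSpan_le_ker hu)
  rw [finrank_ker hf] at h1
  rw [Two] at h
  omega

theorem Two.mem_affineSpan (h : Two F) (hf : f ≠ 0) (hu : ∀ x ∈ F, f x = u) {z : V}
    (hz : f z = u) : z ∈ affineSpan ℝ F := by
  obtain ⟨x, hx⟩ := h.nonempty
  have h1 : vectorSpan ℝ F = LinearMap.ker (f : V →ₗ[ℝ] ℝ) :=
    Submodule.eq_of_le_of_finrank_eq (vectorSpan_le_ker hu) (by rw [finrank_ker hf]; exact h)
  have h2 : z - x ∈ vectorSpan ℝ F := by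
    rw [h1]
    show f (z - x) = 0
    rw [map_sub, hz, hu x hx, sub_self]
  have h3 := AffineSubspace.vadd_mem_of_mem_direction (s := affineSpan ℝ F)
    (by rw [direction_affineSpan]; exact h2) (subset_affineSpan ℝ F hx)
  rwa [vadd_eq_add, sub_add_cancel] at h3

/-- points of the relative interior -/
theorem Two.exists_ball (h : Two F) (hf : f ≠ 0) (hu : ∀ x ∈ F, f x = u) {x : V}
    (hx : x ∈ intrinsicInterior ℝ F) : ∃ r > 0, ∀ z ∈ ball x r, f z = u → z ∈ F := by
  obtain ⟨y, hy, rfl⟩ := hx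
  obtain ⟨r, hr, hb⟩ := Metric.mem_nhds_iff.1 (mem_interior_iff_mem_nhds.1 hy)
  refine ⟨r, hr, fun z hz hzu => ?_⟩
  have h1 : (⟨z, h.mem_affineSpan hf hu hzu⟩ : affineSpan ℝ F) ∈ ball y r := hz
  exact hb h1

/-- a convex set which contains a disc of the plane and a point below it contains a half ball -/
theorem half_ball {C : Set V} (hC : Convex ℝ C) {p : V} (hp : p ∈ C) (hpu : f p < u) {x : V}
    (hx : f x = u) {r : ℝ} (hr : 0 < r) (hD : ∀ z ∈ ball x r, f z = u → z ∈ C) :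
    ∀ᶠ z in 𝓝 x, f z ≤ u → z ∈ C := by
  set s : V → ℝ := fun z => (u - f z) / (u - f p) with hs
  have hup : 0 < u - f p := by linarith
  have hsc : Continuous s := by
    rw [hs]; fun_prop
  have hsx : s x = 0 := by rw [hs]; simp only; rw [hx, sub_self, zero_div]
  have h1 : ∀ᶠ z in 𝓝 x, s z < 1 :=
    hsc.continuousAt.eventually_lt_const (by rw [hsx]; exact one_pos)
  set d : V → V := fun z => (1 - s z)⁻¹ • (z - s z • p) with hd
  have hdc : ContinuousAt d x := by
    have h2 : ContinuousAt (fun z => (1 - s z)⁻¹) x :=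
      ContinuousAt.inv₀ (by fun_prop) (by rw [hsx]; norm_num)
    exact h2.smul (by fun_prop)
  have hdx : d x = x := by rw [hd]; simp only; rw [hsx]; simp
  have h2 : ∀ᶠ z in 𝓝 x, d z ∈ ball x r := by
    refine hdc.preimage_mem_nhds ?_
    rw [hdx]; exact ball_mem_nhds x hr
  filter_upwards [h1, h2] with z hz1 hz2 hzu
  have hs0 : 0 ≤ s z := div_nonneg (by linarith) hup.le
  have hs1 : 0 < 1 - s z := by linarith
  have hfd : f (d z) = u := by
    have e1 : s z * (u - f p) = u - f z := div_mul_cancel₀ _ hup.ne'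
    have e2 : f (d z) = (1 - s z)⁻¹ * (f z - s z * f p) := by
      rw [hd]; simp only; rw [map_smul, map_sub, map_smul, smul_eq_mul, smul_eq_mul]
    rw [e2, inv_mul_eq_iff_eq_mul₀ hs1.ne']
    linarith
  have hdC := hD _ hz2 hfd
  have e : z = (1 - s z) • d z + s z • p := by
    rw [hd]
    simp only
    rw [smul_smul, mul_inv_cancel₀ hs1.ne', one_smul, sub_add_cancel]
  rw [e]
  exact hC hdC hp hs1.le hs0 (by ring)

end plane

/-- a locally finite tiling of `Ω` by convex polytopes -/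
structure Tiling (Ω : Set V) where
  /-- index set of the tiles -/
  ι : Type
  /-- tiles -/
  Q : ι → Set V
  poly : ∀ i, H73.Poly (Q i)
  sub : ∀ i, Q i ⊆ Ω
  cover : ∀ x ∈ Ω, ∃ i, x ∈ Q i
  disj : ∀ i j, i ≠ j → Disjoint (interior (Q i)) (Q j)
  fin : ∀ K ⊆ Ω, IsCompact K → {i | (Q i ∩ K).Nonempty}.Finite

namespace Tiling

variable {Ω : Set V} (T : Tiling Ω)

/-- separation of two tiles -/
theorem sep {i j : T.ι} (h : i ≠ j) : ∃ (f : V →L[ℝ] ℝ) (u : ℝ), f ≠ 0 ∧
    (∀ x ∈ T.Q i, f x ≤ u) ∧ (∀ x ∈ interior (T.Q i), f x < u) ∧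
    (∀ x ∈ T.Q j, u ≤ f x) ∧ ∀ x ∈ interior (T.Q j), u < f x := by
  obtain ⟨f, u, h1, h2⟩ := geometric_hahn_banach_open_open (T.poly i).convex.interior
    isOpen_interior (T.poly j).convex.interior isOpen_interior
    ((T.disj i j h).mono_right interior_subset)
  refine ⟨f, u, ?_, ?_, h1, ?_, h2⟩
  · rintro rfl
    obtain ⟨a, ha⟩ := (T.poly i).int
    obtain ⟨b, hb⟩ := (T.poly j).int
    exact lt_asymm (h1 a ha) (h2 b hb)
  · intro x hx
    rw [← (T.poly i).closure_interior] at hx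
    exact le_on_closure (fun y hy => (h1 y hy).le) f.continuous.continuousOn
      continuousOn_const hx
  · intro x hx
    rw [← (T.poly j).closure_interior] at hx
    exact le_on_closure (fun y hy => (h2 y hy).le) continuousOn_const
      f.continuous.continuousOn hx

/-- near a relative interior point of a face the two tiles cover everything -/
theorem union_nhds {i j : T.ι} (h : i ≠ j) (h2 : Two (T.Q i ∩ T.Q j)) {x : V}
    (hx : x ∈ intrinsicInterior ℝ (T.Q i ∩ T.Q j)) : ∀ᶠ z in 𝓝 x, z ∈ T.Q i ∨ z ∈ T.Q j := by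
  obtain ⟨f, u, hf, hi, hi', hj, hj'⟩ := T.sep h
  have hu : ∀ z ∈ T.Q i ∩ T.Q j, f z = u := fun z hz => le_antisymm (hi z hz.1) (hj z hz.2)
  obtain ⟨r, hr, hD⟩ := h2.exists_ball hf hu hx
  have hxF : x ∈ T.Q i ∩ T.Q j := intrinsicInterior_subset hx
  have hxu := hu x hxF
  obtain ⟨p, hp⟩ := (T.poly i).int
  obtain ⟨q, hq⟩ := (T.poly j).int
  have h3 := half_ball (T.poly i).convex (interior_subset hp) (hi' p hp) hxu hr
    fun z hz hzu => (hD z hz hzu).1
  have h4 := half_ball (f := -f) (u := -u) (T.poly j).convex (interior_subset hq)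
    (by have := hj' q hq; simpa using this) (by simpa using hxu) hr
    fun z hz hzu => (hD z hz (by simpa using hzu)).2
  filter_upwards [h3, h4] with z hz3 hz4
  rcases le_total (f z) u with h5 | h5
  · exact Or.inl (hz3 h5)
  · exact Or.inr (hz4 (by simpa using h5))

theorem third {i j l : T.ι} (h : i ≠ j) (h2 : Two (T.Q i ∩ T.Q j)) {x : V}
    (hx : x ∈ intrinsicInterior ℝ (T.Q i ∩ T.Q j)) (hl : x ∈ T.Q l) : l = i ∨ l = j := by
  by_contra hcon
  push Not at hcon
  have h3 := T.union_nhds h h2 hx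
  rw [← (T.poly l).closure_interior, mem_closure_iff_nhds] at hl
  obtain ⟨z, hz, hzl⟩ := hl _ h3
  rcases hz with hz | hz
  · exact disjoint_left.1 (T.disj l i hcon.1) hzl hz
  · exact disjoint_left.1 (T.disj l j hcon.2) hzl hz

/-- near a point of `Ω` only the tiles which contain it matter -/
theorem near (hΩ : IsOpen Ω) {x : V} (hx : x ∈ Ω) : ∃ (S : Set T.ι) (ε : ℝ), S.Finite ∧ 0 < ε ∧
    ball x ε ⊆ Ω ∧ ∀ z ∈ ball x ε, ∀ j, z ∈ T.Q j → j ∈ S ∧ x ∈ T.Q j := by
  obtain ⟨ρ, hρ, hb⟩ := Metric.nhds_basis_closedBall.mem_iff.1 (hΩ.mem_nhds hx)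
  have hfin := T.fin _ hb (isCompact_closedBall x ρ)
  set S := {i | (T.Q i ∩ closedBall x ρ).Nonempty} with hS
  have h1 : ∀ᶠ z in 𝓝 x, ∀ j ∈ S, z ∈ T.Q j → x ∈ T.Q j := by
    rw [eventually_all_finite hfin]
    intro j _
    by_cases hxj : x ∈ T.Q j
    · exact Eventually.of_forall fun z _ => hxj
    · filter_upwards [(T.poly j).cpt.isClosed.isOpen_compl.mem_nhds hxj] with z hz hz'
      exact absurd hz' hz
  obtain ⟨ε, hε, hbε⟩ := Metric.mem_nhds_iff.1 (h1.and (closedBall_mem_nhds x hρ))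
  refine ⟨S, ε, hfin, hε, fun z hz => hb (hbε hz).2, fun z hz j hj => ?_⟩
  have hjS : j ∈ S := ⟨z, hj, (hbε hz).2⟩
  exact ⟨hjS, (hbε hz).1 j hjS hj⟩

/-- **the dimension argument**: boundary points lie in two-dimensional faces -/
theorem exists_face (hΩ : IsOpen Ω) {i : T.ι} {x : V} (hx : x ∈ frontier (T.Q i)) :
    ∃ j, j ≠ i ∧ x ∈ T.Q j ∧ Two (T.Q i ∩ T.Q j) := by
  have hxi : x ∈ T.Q i := (T.poly i).cpt.isClosed.frontier_subset hx
  obtain ⟨S, ε, hS, hε, hbΩ, hb⟩ := T.near hΩ (T.sub i hxi)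
  by_contra hcon
  push Not at hcon
  -- an interior point near `x`
  obtain ⟨p, hpb, hpi⟩ : (ball x ε ∩ interior (T.Q i)).Nonempty := by
    have h1 := hxi
    rw [← (T.poly i).closure_interior, mem_closure_iff_nhds] at h1
    exact h1 _ (ball_mem_nhds x hε)
  -- an outer point near `x`, in general position
  have hO : IsOpen (ball x ε ∩ (T.Q i)ᶜ) := isOpen_ball.inter (T.poly i).cpt.isClosed.isOpen_compl
  have hOne : (ball x ε ∩ (T.Q i)ᶜ).Nonempty := by
    have h1 : x ∈ closure (T.Q i)ᶜ := by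
      rw [frontier_eq_closure_inter_closure] at hx
      exact hx.2
    rw [mem_closure_iff_nhds] at h1
    exact h1 _ (ball_mem_nhds x hε)
  set Z : Set V := ⋃ j ∈ {j | j ∈ S ∧ j ≠ i ∧ x ∈ T.Q j},
    (affineSpan ℝ (insert p (T.Q i ∩ T.Q j)) : Set V) with hZ
  have hZ0 : volume Z = 0 := by
    rw [hZ, measure_biUnion_null_iff (hS.subset fun j hj => hj.1).countable]
    rintro j ⟨-, hji, hxj⟩
    refine Measure.addHaar_affineSubspace _ _ fun htop => ?_
    have h1 := AffineSubspace.vectorSpan_eq_top_of_affineSpan_eq_top ℝ V V htop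
    have h2 := finrank_vectorSpan_insert_le_set ℝ (T.Q i ∩ T.Q j) p
    rw [h1, finrank_top] at h2
    obtain ⟨f, u, hf, h3, -, h4, -⟩ := T.sep hji.symm
    have h5 := finrank_le_one hf (fun z (hz : z ∈ T.Q i ∩ T.Q j) =>
      le_antisymm (h3 z hz.1) (h4 z hz.2)) (hcon j hji hxj)
    have h6 : finrank ℝ (Fin 3 → ℝ) = 3 := by simp
    omega
  obtain ⟨z, ⟨hzb, hzi⟩, hzZ⟩ : ((ball x ε ∩ (T.Q i)ᶜ) \ Z).Nonempty := by
    rw [nonempty_iff_ne_empty]
    intro he
    have h1 : ball x ε ∩ (T.Q i)ᶜ ⊆ Z := sdiff_eq_empty.1 he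
    have h2 : volume (ball x ε ∩ (T.Q i)ᶜ) = 0 := measure_mono_null h1 hZ0
    exact (hO.measure_pos volume hOne).ne' h2
  -- the crossing point
  obtain ⟨y, hy, hyf⟩ : (segment ℝ p z ∩ frontier (T.Q i)).Nonempty := by
    rw [nonempty_iff_ne_empty]
    intro he
    rcases _root_.P073.subset_interior_or_compl (convex_segment p z).isPreconnected
      (disjoint_iff_inter_eq_empty.2 he) with h | h
    · exact hzi (interior_subset (h (right_mem_segment ℝ p z)))
    · exact h (left_mem_segment ℝ p z) (subset_closure (interior_subset hpi))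
  have hyb : y ∈ ball x ε := (convex_ball x ε).segment_subset hpb hzb hy
  have hyi : y ∈ T.Q i := (T.poly i).cpt.isClosed.frontier_subset hyf
  -- it lies in another tile
  have hcl : IsClosed (⋃ j ∈ {j | j ∈ S ∧ j ≠ i}, T.Q j) :=
    (hS.subset fun j hj => hj.1).isClosed_biUnion fun j _ => (T.poly j).cpt.isClosed
  have hyc : y ∈ ⋃ j ∈ {j | j ∈ S ∧ j ≠ i}, T.Q j := by
    rw [← hcl.closure_eq, mem_closure_iff_nhds]
    intro U hU
    have h1 : y ∈ closure (T.Q i)ᶜ := by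
      rw [frontier_eq_closure_inter_closure] at hyf
      exact hyf.2
    rw [mem_closure_iff_nhds] at h1
    obtain ⟨w, ⟨hwU, hwb⟩, hwi⟩ := h1 _ (inter_mem hU (isOpen_ball.mem_nhds hyb))
    obtain ⟨j, hj⟩ := T.cover w (hbΩ hwb)
    refine ⟨w, hwU, mem_iUnion₂.2 ⟨j, ⟨(hb w hwb j hj).1, ?_⟩, hj⟩⟩
    rintro rfl
    exact hwi hj
  obtain ⟨j, ⟨hjS, hji⟩, hyj⟩ := mem_iUnion₂.1 hyc
  have hxj := (hb y hyb j hyj).2
  -- the contradiction
  apply hzZ
  refine mem_iUnion₂.2 ⟨j, ⟨hjS, hji, hxj⟩, ?_⟩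
  rw [segment_eq_image_lineMap] at hy
  obtain ⟨s, hs, rfl⟩ := hy
  have hs0 : s ≠ 0 := by
    rintro rfl
    rw [AffineMap.lineMap_apply_zero] at hyf
    exact hyf.2 hpi
  have h1 : p ∈ affineSpan ℝ (insert p (T.Q i ∩ T.Q j)) :=
    subset_affineSpan ℝ _ (mem_insert _ _)
  have h2 : AffineMap.lineMap p z s ∈ affineSpan ℝ (insert p (T.Q i ∩ T.Q j)) :=
    subset_affineSpan ℝ _ (mem_insert_of_mem _ ⟨hyi, hyj⟩)
  have h3 : z = AffineMap.lineMap p (AffineMap.lineMap p z s) s⁻¹ := by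
    rw [AffineMap.lineMap_apply, AffineMap.lineMap_apply]
    simp only [vsub_eq_sub, vadd_eq_add, add_sub_cancel_right]
    rw [smul_smul, inv_mul_cancel₀ hs0, one_smul, sub_add_cancel]
  show z ∈ affineSpan ℝ (insert p (T.Q i ∩ T.Q j))
  rw [h3]
  exact AffineMap.lineMap_mem _ h1 h2

/-- the faces: two-dimensional intersections of two tiles -/
def κ : Type := {p : T.ι × T.ι // WellOrderingRel p.1 p.2 ∧ Two (T.Q p.1 ∩ T.Q p.2)}

/-- the face with index `k` -/
def F (k : T.κ) : Set V := T.Q k.1.1 ∩ T.Q k.1.2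

variable {T} in
theorem ne_of_face (k : T.κ) : k.1.1 ≠ k.1.2 := fun h => by
  have := k.2.1
  rw [h] at this
  exact irrefl _ this

theorem isCompact_F (k : T.κ) : IsCompact (T.F k) :=
  (T.poly _).cpt.inter (T.poly _).cpt

theorem convex_F (k : T.κ) : Convex ℝ (T.F k) :=
  (T.poly _).convex.inter (T.poly _).convex

theorem exists_fat_F (k : T.κ) : ∃ c, 0 < c ∧ Fat c 1 (T.F k) := by
  obtain ⟨f, u, hf, hi, -, hj, -⟩ := T.sep (ne_of_face k)
  have hu : ∀ z ∈ T.F k, f z = u := fun z hz => le_antisymm (hi z hz.1) (hj z hz.2)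
  have h2 : Two (T.F k) := k.2.2
  obtain ⟨y, hy⟩ := h2.nonempty.intrinsicInterior (T.convex_F k)
  obtain ⟨r, hr, hb⟩ := h2.exists_ball hf hu hy
  exact exists_fat (half_inter (T.poly _).half (T.poly _).half) (T.isCompact_F k) hf hu
    (intrinsicInterior_subset hy) hr hb

theorem fat_F (k : T.κ) : Fat (cst (nrm (T.F k))) (diam (T.F k)) (T.F k) :=
  fat_nrm (Two.diam_pos k.2.2 (T.isCompact_F k)) (T.exists_fat_F k)

theorem diam_F_pos (k : T.κ) : 0 < diam (T.F k) := Two.diam_pos k.2.2 (T.isCompact_F k)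

theorem bounded_F (k : T.κ) : Bornology.IsBounded (T.F k) := (T.isCompact_F k).isBounded

/-- every two-dimensional intersection of two tiles is a face -/
theorem exists_κ {i j : T.ι} (h : i ≠ j) (h2 : Two (T.Q i ∩ T.Q j)) :
    ∃ k : T.κ, T.F k = T.Q i ∩ T.Q j ∧ ((k.1.1 = i ∧ k.1.2 = j) ∨ (k.1.1 = j ∧ k.1.2 = i)) := by
  rcases trichotomous_of WellOrderingRel i j with h1 | h1 | h1
  · exact ⟨⟨(i, j), h1, h2⟩, rfl, Or.inl ⟨rfl, rfl⟩⟩
  · exact absurd h1 h
  · exact ⟨⟨(j, i), h1, by rw [inter_comm]; exact h2⟩, inter_comm _ _, Or.inr ⟨rfl, rfl⟩⟩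

/-- a tile which contains a relative interior point of a face is one of its two tiles -/
theorem eq_of_mem_intrinsicInterior (k : T.κ) {x : V} (hx : x ∈ intrinsicInterior ℝ (T.F k))
    {l : T.ι} (hl : x ∈ T.Q l) : l = k.1.1 ∨ l = k.1.2 := T.third (ne_of_face k) k.2.2 hx hl

/-- **[T2]** the mesh of a tiling; shape constants and sizes as input (`fat_F` is the default) -/
noncomputable def mesh (hΩ : IsOpen Ω) (c r : T.κ → ℝ) (hr : ∀ k, 0 < r k)
    (hf : ∀ k, Fat (c k) (r k) (T.F k)) : Mesh Ω where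
  ι := T.ι
  κ := T.κ
  Q := T.Q
  F := T.F
  c := c
  r := r
  poly := T.poly
  sub := T.sub
  cover := T.cover
  disj := T.disj
  fin := T.fin
  rpos := hr
  fat := hf
  two := fun k => ⟨k.1.1, k.1.2, ne_of_face k, Subset.rfl⟩
  bd := by
    intro i x hx
    obtain ⟨j, hji, hxj, h2⟩ := T.exists_face hΩ hx
    have hxi : x ∈ T.Q i := (T.poly i).cpt.isClosed.frontier_subset hx
    rcases trichotomous_of WellOrderingRel i j with h | h | h
    · exact ⟨⟨(i, j), h, h2⟩, ⟨hxi, hxj⟩, inter_subset_left⟩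
    · exact absurd h.symm hji
    · exact ⟨⟨(j, i), h, by rw [inter_comm]; exact h2⟩, ⟨hxj, hxi⟩, inter_subset_right⟩
  fdisj := by
    intro k l hkl
    rw [disjoint_left]
    rintro x hx ⟨h1, h2⟩
    apply hkl
    have e1 := T.third (ne_of_face k) k.2.2 hx h1
    have e2 := T.third (ne_of_face k) k.2.2 hx h2
    have hne := ne_of_face l
    have ho := l.2.1
    have ho' := k.2.1
    apply Subtype.ext
    rcases e1 with e1 | e1 <;> rcases e2 with e2 | e2
    · exact absurd (e1.trans e2.symm) hne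
    · exact Prod.ext e1.symm e2.symm
    · rw [e1, e2] at ho
      exact absurd ho (asymm ho')
    · exact absurd (e1.trans e2.symm) hne
  ffin := by
    intro K hK hKc
    have h1 := T.fin K hK hKc
    have h2 := (h1.prod h1).preimage (f := (Subtype.val : T.κ → T.ι × T.ι))
      Subtype.val_injective.injOn
    refine h2.subset ?_
    rintro k ⟨x, ⟨hx1, hx2⟩, hxK⟩
    exact ⟨⟨x, hx1, hxK⟩, ⟨x, hx2, hxK⟩⟩

end Tiling

end Vale.Agent.P073.H687
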