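import Vale.Agent.P073.H687.Dict
import Vale.Agent.P073.H989.Tile5b

/-!
# P073, A15: the fields `far` and `face` of the cut mesh
-/

open Set Metric Topology Filter Module MeasureTheory
open scoped ENNReal

namespace Vale.Agent.P073.H687

open Vale.Agent.P073.St (V)
open Vale.Agent.P073.H73 (Fat Mesh usq MinEdge segP)
open Vale.Agent.P073.AB Vale.Agent.P073.AB.P86
open Vale.Agent.P073.H989 (TD)
open _root_.P073.Net (dyc dyo)

variable {Ω : Set V} (T : TD Ω)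

/-- far from the protected cells the tiles are clear -/
theorem TD.clear {nr : ℕ}
    (hgen : ∀ q ∈ T.I, ∀ D, (dyc T.v q.1 q.2 ∩ T.R D).Nonempty → q.1 = nr) {i : Idx}
    (hi : T.Far i)
    (hfar : ∀ D, ∀ x ∈ dyc T.v i.1 i.2, ∀ y ∈ T.R D, 1 / 2 ^ nr < ‖x - y‖) :
    Clear T.tiling T.v T.I (Sum.inl ⟨i, hi⟩ : T.ι) := by
  rintro j ⟨x, hxj, hxi⟩
  have hxi' : x ∈ dyc T.v i.1 i.2 := hxi
  rcases j with q | a | D
  · exact ⟨q.1, q.2.1, rfl⟩
  · exfalso
    have hxa : x ∈ dyc T.v a.1.1.1 a.1.1.2 := (show x ∈ T.piece _ _ _ from hxj).1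
    obtain ⟨y, hy, hyR⟩ := a.2.meet
    have h1 := hfar _ x hxi' y hyR
    have h2 := _root_.P073.Net.NC.dist_le hxa hy
    rw [hgen _ a.2.mem _ a.2.meet] at h2
    linarith
  · exfalso
    have h1 := hfar D x hxi' x hxj
    rw [sub_self, norm_zero] at h1
    have hp : (0:ℝ) < 1 / 2 ^ nr := by positivity
    linarith

/-- **field `far`** -/
theorem TD.far (hΩ : IsOpen Ω) {nr : ℕ}
    (hgen : ∀ q ∈ T.I, ∀ D, (dyc T.v q.1 q.2 ∩ T.R D).Nonempty → q.1 = nr) {i : Idx}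
    (hi : i ∈ T.I)
    (hfar : ∀ D, ∀ x ∈ dyc T.v i.1 i.2, ∀ y ∈ T.R D, 1 / 2 ^ nr < ‖x - y‖)
    {s : Idx × Fin 3} (hs : MinSq T.v T.I s) (hsi : squ T.v s ⊆ dyc T.v i.1 i.2)
    (c r : T.tiling.κ → ℝ) (hr : ∀ k, 0 < r k) (hf : ∀ k, Fat (c k) (r k) (T.tiling.F k)) :
    ∃ k : T.tiling.κ, T.tiling.F k = squ T.v s ∧ ∃ E : Finset (Idx × Fin 3),
      (∀ e, e ∈ E ↔ MinEdge T.v T.I e ∧ edge T.v e ⊆ squ T.v s) ∧
      H73.Adapted (T.tiling.mesh hΩ c r hr hf) k (E.image (segP T.v)) := by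
  have hF : T.Far i := by
    refine ⟨hi, fun D => ?_⟩
    rw [disjoint_left]
    intro x hx hxD
    have h1 := hfar D x hx x hxD
    rw [sub_self, norm_zero] at h1
    have hp : (0:ℝ) < 1 / 2 ^ nr := by positivity
    linarith
  have hc := TD.clear T hgen hF hfar
  obtain ⟨k, hk⟩ := hc.squ_face hΩ T.part hs ⟨_, rel_sub sc_mem, hsi (rel_sub sc_mem)⟩
  refine ⟨k, hk, (finite_minEdge T.part hs).toFinset, fun e => by simp, ?_⟩
  exact hc.adapted hΩ T.part hs hsi hk c r hr hf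

/-- a cube which meets a protected cell and is not contained in it meets its boundary -/
theorem frontier_meet {K R : Set V} (hK : Convex ℝ K) (h : (K ∩ R).Nonempty) (h' : ¬ K ⊆ R) :
    (K ∩ frontier R).Nonempty := by
  obtain ⟨y, hy, hyR⟩ := not_subset.1 h'
  by_contra hcon
  rw [not_nonempty_iff_eq_empty] at hcon
  have hd : ∀ x ∈ K, x ∉ frontier R := fun x hx hf => by
    have : x ∈ K ∩ frontier R := ⟨hx, hf⟩
    rw [hcon] at this
    exact this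
  obtain ⟨x, hx, hxR⟩ := h
  have h2 : (K ∩ (interior R ∩ (closure R)ᶜ)).Nonempty := by
    refine hK.isPreconnected _ _ isOpen_interior isClosed_closure.isOpen_compl ?_
      ⟨x, hx, ?_⟩ ⟨y, hy, ?_⟩
    · intro z hz
      by_cases hzi : z ∈ interior R
      · exact Or.inl hzi
      · refine Or.inr fun hzc => hd z hz ⟨hzc, hzi⟩
    · by_contra hxi
      exact hd x hx ⟨subset_closure hxR, hxi⟩
    · intro hyc
      exact hd y hy ⟨hyc, fun h => hyR (interior_subset h)⟩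
  obtain ⟨z, -, hz1, hz2⟩ := h2
  exact hz2 (subset_closure (interior_subset hz1))

theorem convex_dyc (v : V) (m : ℕ) (z : Fin 3 → ℤ) : Convex ℝ (dyc v m z) :=
  (H194.poly_dyc v m z).convex

/-- **field `face`** -/
theorem TD.face (k : T.tiling.κ) : ∃ q ∈ T.I, T.tiling.F k ⊆ dyc T.v q.1 q.2 ∧
    ((∃ s, MinSq T.v T.I s ∧ T.tiling.F k = squ T.v s ∧ ∀ D, ¬ squ T.v s ⊆ T.R D) ∨
      ∃ D, (dyc T.v q.1 q.2 ∩ frontier (T.R D)).Nonempty) := by
  -- a piece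
  have key : ∀ a : {a : Idx × T.Δ × (Fin 3 → ℤ) // T.Cut a},
      T.tiling.F k ⊆ T.tiling.Q (Sum.inr (Sum.inl a) : T.ι) →
      ∃ q ∈ T.I, T.tiling.F k ⊆ dyc T.v q.1 q.2 ∧
    ((∃ s, MinSq T.v T.I s ∧ T.tiling.F k = squ T.v s ∧ ∀ D, ¬ squ T.v s ⊆ T.R D) ∨
      ∃ D, (dyc T.v q.1 q.2 ∩ frontier (T.R D)).Nonempty) := by
    intro a ha
    refine ⟨a.1.1, a.2.mem, ha.trans fun x hx => (show x ∈ T.piece _ _ _ from hx).1, Or.inr
      ⟨a.1.2.1, frontier_meet (convex_dyc _ _ _) a.2.meet a.2.nsub⟩⟩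
  obtain ⟨x, hx⟩ := k.2.2.nonempty
  have h1 : T.tiling.F k ⊆ T.tiling.Q k.1.1 := inter_subset_left
  have h2 : T.tiling.F k ⊆ T.tiling.Q k.1.2 := inter_subset_right
  have hne := T.tiling.ne_of_face k
  rcases e1 : k.1.1 with q | a | D
  · rcases e2 : k.1.2 with q' | a' | D'
    · have u1 : Uncut T.tiling T.v T.I k.1.1 := ⟨q.1, q.2.1, by rw [e1]; rfl⟩
      have u2 : Uncut T.tiling T.v T.I k.1.2 := ⟨q'.1, q'.2.1, by rw [e2]; rfl⟩
      obtain ⟨s, hs, hs'⟩ := face_squ T.part u1 u2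
      rw [e1] at h1
      refine ⟨q.1, q.2.1, h1, Or.inl ⟨s, hs, hs', fun D hD => ?_⟩⟩
      rw [hs'] at h1
      have h3 : sc T.v s ∈ squ T.v s := rel_sub sc_mem
      exact disjoint_left.1 (q.2.2 D) (h1 h3) (hD h3)
    · rw [e2] at h2
      exact key a' h2
    · exfalso
      rw [e1] at h1
      rw [e2] at h2
      exact disjoint_left.1 (q.2.2 D') (h1 hx) (h2 hx)
  · rw [e1] at h1
    exact key a h1
  · rcases e2 : k.1.2 with q' | a' | D'
    · exfalso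
      rw [e1] at h1
      rw [e2] at h2
      exact disjoint_left.1 (q'.2.2 D) (h2 hx) (h1 hx)
    · rw [e2] at h2
      exact key a' h2
    · exfalso
      rw [e1] at h1
      rw [e2] at h2
      have hxD : x ∈ T.R D := h1 hx
      have hxD' : x ∈ T.R D' := h2 hx
      obtain ⟨q, hq, hxq⟩ := T.part.cover x (T.sub D hxD)
      have h3 := T.sep q hq D D' ⟨x, hxq, hxD⟩ ⟨x, hxq, hxD'⟩
      apply hne
      rw [e1, e2, h3]

end Vale.Agent.P073.H687
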