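import Vale.Agent.P073.H83.GenB
import Vale.Agent.P073.H83.Wt
import Vale.Agent.P073.H83.Big
import Vale.Agent.P073.H194.Local

/-!
# P073, `[PRE-F2]`: surface integrals over the boundaries of the cubes of a family
-/

open Set Metric Topology Filter MeasureTheory
open scoped ENNReal
open Vale.Agent.P073.AB (Idx Part pt edge eInt squ FaceOf EdgeOf EdgeOfSq MinSq)
open P073.Net (dyc dyo)
open Vale.Agent.P073.St (V)
open Vale.Agent.P073.H194 Vale.Agent.P073.H83

namespace Vale.Agent.P073.H687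

/-! ### Covering by cubes of generation zero -/

/-- finitely many cubes of one generation meet a bounded set -/
theorem finite_meet_dyc (v : V) (n : ℕ) {K : Set V} (hK : Bornology.IsBounded K) :
    {z : Fin 3 → ℤ | (dyc v n z ∩ K).Nonempty}.Finite := by
  obtain ⟨r, hr⟩ := hK.subset_closedBall v
  have hp : (0:ℝ) < 2 ^ n := by positivity
  set B : ℤ := ⌈2 ^ n * r⌉ + 2 with hB
  have hBr : (2:ℝ) ^ n * r + 2 ≤ B := by
    have := Int.le_ceil ((2:ℝ) ^ n * r)
    rw [hB]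
    push_cast
    linarith
  refine (Set.Finite.pi' fun _ : Fin 3 => Set.finite_Icc (-B) B).subset ?_
  rintro z ⟨y, hy, hyK⟩ k
  have h7 := hr hyK
  rw [mem_closedBall, dist_eq_norm] at h7
  have h6 : |(y - v) k| ≤ r := (norm_le_pi_norm (y - v) k).trans h7
  rw [abs_le, Pi.sub_apply] at h6
  have h8 := hy k
  have h9 : (z k : ℝ) / 2 ^ n ≤ r := by linarith
  have h10 : -r ≤ ((z k : ℝ) + 1) / 2 ^ n := by linarith
  rw [div_le_iff₀ hp] at h9
  rw [le_div_iff₀ hp] at h10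
  have h11 : (z k : ℝ) ≤ B := by linarith
  have h12 : (-B : ℝ) ≤ z k := by linarith
  rw [mem_Icc]
  constructor
  · exact_mod_cast h12
  · exact_mod_cast h11

/-- the ancestor of generation zero -/
def anc0 (n : ℕ) (z : Fin 3 → ℤ) : Fin 3 → ℤ := fun i => z i / 2 ^ n

theorem mem_subs_anc0 (n : ℕ) (z : Fin 3 → ℤ) : z ∈ subs (0, anc0 n z) n := by
  rw [mem_subs]
  intro i
  have hp : (0:ℤ) < 2 ^ n := by positivity
  have h1 := Int.mul_ediv_add_emod (z i) (2 ^ n)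
  have h2 := Int.emod_nonneg (z i) hp.ne'
  have h3 := Int.emod_lt_of_pos (z i) hp
  simp only [Nat.sub_zero, anc0]
  constructor
  · linarith
  · rw [mul_add]; linarith

theorem hc_disjoint {n : ℕ} {z z' : Fin 3 → ℤ} (h : z ≠ z') : Disjoint (hc (n, z)) (hc (n, z')) := by
  rw [Set.disjoint_left]
  intro y hy hy'
  rw [mem_hc] at hy hy'
  refine h (funext fun i => ?_)
  exact (floor_of_mem (hy i).1 (hy i).2).symm.trans (floor_of_mem (hy' i).1 (hy' i).2)

theorem sum_lintegral_dyc_le (v : V) (n : ℕ) (T : Finset (Fin 3 → ℤ)) (H : V → ℝ≥0∞) :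
    ∑ w ∈ T, ∫⁻ x in dyc v n w, H x ≤ ∫⁻ x, H x := by
  have h1 : ∀ w ∈ T, ∫⁻ x in dyc v n w, H x = ∫⁻ y in hc (n, w), H (v + y) := fun w _ =>
    setLIntegral_dyc v (n, w) H
  rw [Finset.sum_congr rfl h1, ← lintegral_biUnion_finset (fun a _ b _ hab => hc_disjoint hab)
    (fun w _ => measurableSet_hc (n, w)), ← lintegral_add_left_eq_self H v]
  exact setLIntegral_le_lintegral _ _

/-- **(F2a)** -/
theorem surf_le {v : V} {nn : ℕ → ℕ} {H : V → ℝ≥0∞} (hG : GenB v nn H) {K : Set V}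
    (hK : Bornology.IsBounded K) {δ : ℝ≥0∞} (hδ : δ ≠ 0) :
    ∀ᶠ l in atTop, ∀ J : Finset (Fin 3 → ℤ), (∀ z ∈ J, (dyc v (nn l) z ∩ K).Nonempty) →
      ∑ z ∈ J, ENNReal.ofReal (1 / 2 ^ nn l) * bInt v (nn l, z) H ≤ 6 * (∫⁻ x, H x) + δ := by
  classical
  set T := (finite_meet_dyc v 0 hK).toFinset with hT
  have hδ' : δ / (T.card + 1 : ℕ) ≠ 0 :=
    (ENNReal.div_pos hδ (ENNReal.natCast_ne_top _)).ne'
  have h1 : ∀ᶠ l in atTop, ∀ w ∈ T, ∑ u ∈ subs (0, w) (nn l),
      ENNReal.ofReal (1 / 2 ^ nn l) * bInt v (nn l, u) H ≤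
      6 * (∫⁻ x in dyc v 0 w, H x) + δ / (T.card + 1 : ℕ) :=
    (eventually_all_finset T).2 fun w _ => hG.faces (0, w) _ hδ'
  filter_upwards [h1] with l hl J hJ
  have h2 : ∀ z ∈ J, anc0 (nn l) z ∈ T := by
    intro z hz
    rw [hT, Set.Finite.mem_toFinset]
    exact (hJ z hz).mono (inter_subset_inter_left K
      (dyc_sub_of_subs (Nat.zero_le _) (mem_subs_anc0 (nn l) z)))
  rw [← Finset.sum_fiberwise_of_maps_to h2]
  calc ∑ w ∈ T, ∑ z ∈ J with anc0 (nn l) z = w, ENNReal.ofReal (1 / 2 ^ nn l) *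
        bInt v (nn l, z) H
      ≤ ∑ w ∈ T, ∑ u ∈ subs (0, w) (nn l), ENNReal.ofReal (1 / 2 ^ nn l) *
        bInt v (nn l, u) H := by
        refine Finset.sum_le_sum fun w _ => Finset.sum_le_sum_of_subset fun z hz => ?_
        rw [Finset.mem_filter] at hz
        rw [← hz.2]
        exact mem_subs_anc0 _ _
    _ ≤ ∑ w ∈ T, (6 * (∫⁻ x in dyc v 0 w, H x) + δ / (T.card + 1 : ℕ)) :=
        Finset.sum_le_sum hl
    _ = 6 * (∑ w ∈ T, ∫⁻ x in dyc v 0 w, H x) + T.card * (δ / (T.card + 1 : ℕ)) := by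
        rw [Finset.sum_add_distrib, ← Finset.mul_sum, Finset.sum_const, nsmul_eq_mul]
    _ ≤ 6 * (∫⁻ x, H x) + δ := by
        refine add_le_add (mul_le_mul_right (sum_lintegral_dyc_le v 0 T H) _) ?_
        calc (T.card : ℝ≥0∞) * (δ / (T.card + 1 : ℕ))
            ≤ (T.card + 1 : ℕ) * (δ / (T.card + 1 : ℕ)) := by
              refine mul_le_mul_left ?_ _
              exact_mod_cast Nat.le_succ _
          _ = δ := ENNReal.mul_div_cancel (by positivity) (ENNReal.natCast_ne_top _)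

/-! ### The squares in the boundary of a cube -/

/-- a small square in the boundary of a cube lies in one of its faces -/
theorem squ_face_of_frontier {v : V} {n N : ℕ} {z : Fin 3 → ℤ} {q : Idx} {s : Idx × Fin 3}
    (hN : n ≤ N) (hq : q.1 = N) (hqz : dyc v q.1 q.2 ⊆ dyc v n z) (hs : FaceOf s q)
    (hfr : squ v s ⊆ frontier (dyc v n z)) :
    ∃ (j : Fin 3) (σ : Bool), ∃ w ∈ eLow (faceP (n, z) j σ) N, s = ((N, w), j) := by
  have hint := dyc_int (i := q) (q := (n, z)) hqz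
  obtain ⟨hs1, hs2, hs3⟩ := hs
  have hs1' : s.1.1 = N := hs1.trans hq
  have hpN : (0:ℝ) < 2 ^ N := by positivity
  -- the centre of the square
  set c : V := fun i => if i = s.2 then v i + s.1.2 i / 2 ^ N else
    v i + (s.1.2 i + 1 / 2) / 2 ^ N with hc
  have hcs : c ∈ squ v s := by
    refine ⟨by rw [hc, hs1']; simp, fun k hk => ?_⟩
    rw [hc, hs1']
    simp only [if_neg hk]
    constructor
    · gcongr; linarith
    · gcongr; linarith
  have hcf := hfr hcs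
  have hsN := two_pow_split hN
  simp only at hint
  rw [hq] at hint
  have e1 : ∀ i, (z i : ℝ) / 2 ^ n = ((2 ^ (N - n) * z i : ℤ) : ℝ) / 2 ^ N := by
    intro i
    rw [hsN]; push_cast; field_simp
  have e2 : ∀ i, ((z i : ℝ) + 1) / 2 ^ n = ((2 ^ (N - n) * (z i + 1) : ℤ) : ℝ) / 2 ^ N := by
    intro i
    rw [hsN]; push_cast; field_simp
  have hj : ∃ σ : Bool, s.1.2 s.2 = 2 ^ (N - n) * (z s.2 + off σ) := by
    by_contra hcon
    push Not at hcon
    have hf := hcon false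
    have ht := hcon true
    rw [off_false, add_zero] at hf
    rw [off_true] at ht
    have h0 := hint s.2
    have hlo : 2 ^ (N - n) * z s.2 < s.1.2 s.2 := by
      rcases hs2 with h | h
      · exact lt_of_le_of_ne (h ▸ h0.1) (Ne.symm hf)
      · exact lt_of_le_of_ne (by rw [h]; linarith [h0.1]) (Ne.symm hf)
    have hhi : s.1.2 s.2 < 2 ^ (N - n) * (z s.2 + 1) := by
      rcases hs2 with h | h
      · exact lt_of_le_of_ne (by rw [h]; linarith [h0.2]) ht
      · exact lt_of_le_of_ne (h ▸ h0.2) ht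
    have hin : c ∈ dyo v n z := by
      intro i
      by_cases hi : i = s.2
      · have hci : c i = v i + s.1.2 i / 2 ^ N := by rw [hc]; simp [hi]
        rw [hci, e1 i, e2 i, hi]
        constructor
        · gcongr
        · gcongr
      · have hci : c i = v i + (s.1.2 i + 1 / 2) / 2 ^ N := by rw [hc]; simp [hi]
        rw [hci, e1 i, e2 i, hs3 i hi]
        obtain ⟨h5, h6⟩ := hint i
        have h5' : ((2 ^ (N - n) * z i : ℤ) : ℝ) ≤ q.2 i := by exact_mod_cast h5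
        have h6' : (q.2 i : ℝ) + 1 ≤ ((2 ^ (N - n) * (z i + 1) : ℤ) : ℝ) := by exact_mod_cast h6
        constructor
        · gcongr; linarith
        · gcongr; linarith
    have h7 : c ∈ interior (dyc v n z) := by
      refine mem_interior.2 ⟨dyo v n z, fun x hx i => ⟨(hx i).1.le, (hx i).2.le⟩, ?_, hin⟩
      have : dyo v n z = Set.pi univ fun i => Ioo (v i + z i / 2 ^ n) (v i + (z i + 1) / 2 ^ n) := by
        ext x
        simp [dyo]
      rw [this]
      exact isOpen_set_pi finite_univ fun i _ => isOpen_Ioo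
    exact hcf.2 h7
  obtain ⟨σ, hσ⟩ := hj
  refine ⟨s.2, σ, s.1.2, ?_, Prod.ext (Prod.ext hs1' rfl) rfl⟩
  rw [mem_eLow]
  refine ⟨by simpa [faceP] using hσ, fun j hj => ?_⟩
  have hj' : j ≠ s.2 := hj
  simp only [faceP, Function.update_of_ne hj']
  rw [hs3 j hj']
  exact ⟨(hint j).1, by linarith [(hint j).2]⟩

/-- **(F2b)** sum over the small squares in the boundary of a cube -/
theorem surf_sub {v : V} {n N : ℕ} {z : Fin 3 → ℤ} {H : V → ℝ≥0∞} (hN : n ≤ N)
    {S : Set (Idx × (Idx × Fin 3))} (hS : ∀ a ∈ S, a.1.1 = N ∧ dyc v a.1.1 a.1.2 ⊆ dyc v n z ∧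
      FaceOf a.2 a.1 ∧ squ v a.2 ⊆ frontier (dyc v n z)) (hinj : Set.InjOn Prod.snd S) :
    ∑' a : S, sInt v a.1.2 H ≤ bInt v (n, z) H := by
  classical
  set T : Finset ((_ : Fin 3 × Bool) × (Fin 3 → ℤ)) :=
    (Finset.univ : Finset (Fin 3 × Bool)).sigma fun b => eLow (faceP (n, z) b.1 b.2) N with hT
  set φ : ((_ : Fin 3 × Bool) × (Fin 3 → ℤ)) → Idx × Fin 3 := fun a => ((N, a.2), a.1.1) with hφ
  have h1 : ∑' a : S, sInt v a.1.2 H = ∑' b : (Prod.snd '' S), sInt v b.1 H :=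
    (tsum_image (fun b => sInt v b H) hinj).symm
  have h2 : ∀ b ∈ Prod.snd '' S, ∃ a ∈ T, φ a = b := by
    rintro _ ⟨a, ha, rfl⟩
    obtain ⟨ha1, ha2, ha3, ha4⟩ := hS a ha
    obtain ⟨j, σ, w, hw, hs⟩ := squ_face_of_frontier hN ha1 ha2 ha3 ha4
    refine ⟨⟨(j, σ), w⟩, ?_, ?_⟩
    · rw [hT, Finset.mem_sigma]
      exact ⟨Finset.mem_univ _, hw⟩
    · rw [hφ]; exact hs.symm
  rw [h1]
  refine (tsum_subtype_le_sum T φ (fun b => sInt v b H) h2).trans (le_of_eq ?_)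
  rw [hT, Finset.sum_sigma, Fintype.sum_prod_type, H194.bInt_eq]
  refine Finset.sum_congr rfl fun j _ => Finset.sum_congr rfl fun σ _ => ?_
  exact (sInt_split v (faceP (n, z) j σ) hN H).symm

theorem surf_sub' {v : V} {n N : ℕ} {z : Fin 3 → ℤ} {H : V → ℝ≥0∞} (hN : n ≤ N)
    {S : Set (Idx × (Idx × Fin 3))} (hS : ∀ a ∈ S, a.1.1 = N ∧ dyc v a.1.1 a.1.2 ⊆ dyc v n z ∧
      FaceOf a.2 a.1 ∧ squ v a.2 ⊆ frontier (dyc v n z)) (hinj : Set.InjOn Prod.snd S) :
    ∑' a : S, ENNReal.ofReal (1 / 2 ^ N) * sInt v a.1.2 H ≤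
      ENNReal.ofReal (1 / 2 ^ N) * bInt v (n, z) H := by
  rw [ENNReal.tsum_mul_left]
  exact mul_le_mul_right (surf_sub hN hS hinj) _

end Vale.Agent.P073.H687
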