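import Vale.Agent.P073.H687.KeptSum
import Vale.Agent.P073.H687.Surf
import Vale.Agent.P073.H333.PD3

/-!
# P073, A15 [PD4]: sums over the cells, general lemmas
-/

open Set Metric Topology Filter Module MeasureTheory
open scoped ENNReal

namespace Vale.Agent.P073.H687

open Vale.Agent.P073.St (V)
open Vale.Agent.P073.SQ (ev)
open Vale.Agent.P073.H73 (MinEdge segP)
open Vale.Agent.P073.H194 (cellT refine sInt bInt faceP off off_true off_false dyc_int)
open Vale.Agent.P073.H333 (eInt_const_mul eInt_mono_on eInt_add_cst eInt_cst)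
open Vale.Agent.P073.AB Vale.Agent.P073.AB.P86
open _root_.P073.Net (dyc dyo)

/-! ### Two sums -/

open Classical in
theorem tsum_ite_eq' {α : Type*} (Q : α → Prop) (H : α → ℝ≥0∞) :
    ∑' i : {i // Q i}, H i = ∑' i, if Q i then H i else 0 := by
  have := tsum_subtype {i | Q i} H
  refine this.trans (tsum_congr fun i => ?_)
  simp [Set.indicator]

open Classical in
/-- splitting of a sum -/
theorem tsum_split {α : Type*} (Q R : α → Prop) {E H₁ H₂ : α → ℝ≥0∞}
    (h₁ : ∀ i, Q i → R i → E i ≤ H₁ i) (h₂ : ∀ i, Q i → ¬ R i → E i ≤ H₂ i) :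
    ∑' i : {i // Q i}, E i ≤ ∑' i : {i // Q i ∧ R i}, H₁ i + ∑' i : {i // Q i ∧ ¬ R i}, H₂ i := by
  rw [tsum_ite_eq', tsum_ite_eq', tsum_ite_eq', ← ENNReal.tsum_add]
  refine ENNReal.tsum_le_tsum fun i => ?_
  by_cases hQ : Q i
  · by_cases hR : R i
    · simpa [hQ, hR] using h₁ i hQ hR
    · simpa [hQ, hR] using h₂ i hQ hR
  · simp [hQ]

open Classical in
/-- a double sum which is covered by finitely many sums over pairs -/
theorem tsum_pairs_le {α β γ : Type*} (P : α → Prop) (Q : α → β → Prop) (f : α → β → ℝ≥0∞)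
    (J : Finset γ) (S : γ → Set (α × β)) (g : α × β → ℝ≥0∞)
    (h : ∀ i s, P i → Q i s → ∃ z ∈ J, (i, s) ∈ S z ∧ f i s ≤ g (i, s)) :
    ∑' i : {i // P i}, ∑' s : {s // Q i.1 s}, f i.1 s.1 ≤ ∑ z ∈ J, ∑' a : S z, g a.1 := by
  calc ∑' i : {i // P i}, ∑' s : {s // Q i.1 s}, f i.1 s.1
      = ∑' i, if P i then ∑' s : {s // Q i s}, f i s.1 else 0 :=
        tsum_ite_eq' P fun i => ∑' s : {s // Q i s}, f i s.1
    _ = ∑' i, ∑' s, if P i ∧ Q i s then f i s else 0 := by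
        refine tsum_congr fun i => ?_
        by_cases hi : P i
        · rw [if_pos hi, tsum_ite_eq' (Q i) (f i)]
          refine tsum_congr fun s => ?_
          simp [hi]
        · simp [hi]
    _ = ∑' a : α × β, if P a.1 ∧ Q a.1 a.2 then f a.1 a.2 else 0 :=
        (ENNReal.tsum_prod (f := fun i s => if P i ∧ Q i s then f i s else 0)).symm
    _ ≤ ∑' a : α × β, ∑ z ∈ J, (S z).indicator g a := by
        refine ENNReal.tsum_le_tsum fun a => ?_
        split_ifs with ha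
        · obtain ⟨z, hz, hza, hfg⟩ := h a.1 a.2 ha.1 ha.2
          calc f a.1 a.2 ≤ g a := hfg
            _ = (S z).indicator g a := (indicator_of_mem hza g).symm
            _ ≤ _ := Finset.single_le_sum (f := fun z => (S z).indicator g a)
              (fun _ _ => bot_le) hz
        · exact bot_le
    _ = ∑ z ∈ J, ∑' a : α × β, (S z).indicator g a :=
        Summable.tsum_finsetSum fun _ _ => ENNReal.summable
    _ = ∑ z ∈ J, ∑' a : S z, g a.1 := by
        refine Finset.sum_congr rfl fun z _ => ?_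
        exact (tsum_subtype (S z) g).symm

/-! ### Cells -/

variable {Ω : Set V} {v : V} {I : Set Idx}

theorem cellT_mono {A : Set V} {H H' : V → ℝ≥0∞} {i : Idx} (h : ∀ x, H x ≤ H' x) :
    cellT v I A H i ≤ cellT v I A H' i := by
  unfold cellT
  refine ENNReal.tsum_le_tsum fun F => ENNReal.tsum_le_tsum fun e => ?_
  gcongr
  exact eInt_mono_on fun x _ => h x

theorem cellT_lin {A : Set V} {H : V → ℝ≥0∞} {a b : ℝ≥0∞} (ha : a ≠ ⊤) (i : Idx) :
    cellT v I A (fun x => a * H x + b) i = a * cellT v I A H i + cellT v I A (fun _ => b) i := by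
  unfold cellT
  rw [← ENNReal.tsum_mul_left, ← ENNReal.tsum_add]
  refine tsum_congr fun F => ?_
  rw [← ENNReal.tsum_mul_left, ← ENNReal.tsum_add]
  refine tsum_congr fun e => ?_
  rw [eInt_add_cst v e.1 (fun x => a * H x) b, eInt_const_mul _ _ ha, eInt_cst]
  ring

theorem cellT_cst (hΩ : IsOpen Ω) (hI : Part Ω v I) {i : Idx} (hi : i ∈ I) (A : Set V)
    (b : ℝ≥0∞) :
    cellT v I A (fun _ => b) i ≤ 24 * b * ENNReal.ofReal ((1 / 2 ^ i.1) ^ 3) := by
  have hr : (0:ℝ) ≤ 1 / 2 ^ i.1 := by positivity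
  have h1 : ∀ F : Idx × Fin 3, ∑' e : {e : Idx × Fin 3 // EdgeOfSq e F},
      ENNReal.ofReal (1 / 2 ^ i.1 * (1 / 2 ^ F.1.1)) * eInt v e.1 (fun _ => b) ≤
      4 * b * ENNReal.ofReal (1 / 2 ^ i.1) * ENNReal.ofReal ((1 / 2 ^ F.1.1) ^ 2) := by
    intro F
    rw [ENNReal.tsum_mul_left, tsum_sqE F fun e => eInt v e fun _ => b]
    calc ENNReal.ofReal (1 / 2 ^ i.1 * (1 / 2 ^ F.1.1)) * ∑ e ∈ sqE F, eInt v e (fun _ => b)
        = ENNReal.ofReal (1 / 2 ^ i.1 * (1 / 2 ^ F.1.1)) *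
            ∑ _e ∈ sqE F, ENNReal.ofReal (1 / 2 ^ F.1.1) * b := by
          congr 1
          refine Finset.sum_congr rfl fun e he => ?_
          rw [eInt_cst, (mem_sqE.1 he).1]
      _ = ENNReal.ofReal (1 / 2 ^ i.1 * (1 / 2 ^ F.1.1)) *
            ((sqE F).card * (ENNReal.ofReal (1 / 2 ^ F.1.1) * b)) := by
          rw [Finset.sum_const, nsmul_eq_mul]
      _ ≤ ENNReal.ofReal (1 / 2 ^ i.1 * (1 / 2 ^ F.1.1)) *
            (4 * (ENNReal.ofReal (1 / 2 ^ F.1.1) * b)) := by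
          gcongr
          exact card_sqE_le' F
      _ = _ := by
          rw [ENNReal.ofReal_mul hr, pow_two, ENNReal.ofReal_mul (by positivity)]
          ring
  unfold cellT
  calc _ ≤ ∑' F : {F : Idx × Fin 3 // MinSq v I F ∧ squ v F ⊆ dyc v i.1 i.2 ∧ squ v F ⊆ A},
        4 * b * ENNReal.ofReal (1 / 2 ^ i.1) * ENNReal.ofReal ((1 / 2 ^ F.1.1.1) ^ 2) :=
        ENNReal.tsum_le_tsum fun F => h1 F.1
    _ ≤ ∑' F : {F : Idx × Fin 3 // MinSq v I F ∧ squ v F ⊆ dyc v i.1 i.2},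
        4 * b * ENNReal.ofReal (1 / 2 ^ i.1) * ENNReal.ofReal ((1 / 2 ^ F.1.1.1) ^ 2) :=
        tsum_sub_le
          (Q := fun F : Idx × Fin 3 => MinSq v I F ∧ squ v F ⊆ dyc v i.1 i.2 ∧ squ v F ⊆ A)
          (Q' := fun F : Idx × Fin 3 => MinSq v I F ∧ squ v F ⊆ dyc v i.1 i.2)
          (fun F h => ⟨h.1, h.2.1⟩) fun F =>
            4 * b * ENNReal.ofReal (1 / 2 ^ i.1) * ENNReal.ofReal ((1 / 2 ^ F.1.1) ^ 2)
    _ = 4 * b * ENNReal.ofReal (1 / 2 ^ i.1) *
        ∑' F : {F : Idx × Fin 3 // MinSq v I F ∧ squ v F ⊆ dyc v i.1 i.2},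
          ENNReal.ofReal ((1 / 2 ^ F.1.1.1) ^ 2) := ENNReal.tsum_mul_left
    _ ≤ 4 * b * ENNReal.ofReal (1 / 2 ^ i.1) * ENNReal.ofReal (6 * (1 / 2 ^ i.1) ^ 2) := by
        gcongr
        exact area_le hI hi hΩ
    _ = 24 * b * ENNReal.ofReal ((1 / 2 ^ i.1) ^ 3) := by
        rw [pow_succ (1 / 2 ^ i.1 : ℝ) 2, ENNReal.ofReal_mul (by norm_num),
          ENNReal.ofReal_mul (by positivity)]
        have : ENNReal.ofReal 6 = 6 := by norm_num
        rw [this]
        ring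

/-- the volume of the cells -/
theorem sum_volume_le (hI : Part Ω v I) {Q : Idx → Prop} (hQ : ∀ i, Q i → i ∈ I) :
    ∑' i : {i // Q i}, ENNReal.ofReal ((1 / 2 ^ i.1.1) ^ 3) ≤ volume Ω := by
  have hm : ∀ i : Idx, MeasurableSet (dyo v i.1 i.2) := fun i => by
    rw [← H194.interior_dyc]
    exact isOpen_interior.measurableSet
  have h1 : ∀ i : {i // Q i}, ENNReal.ofReal ((1 / 2 ^ i.1.1) ^ 3) =
      volume (dyo v i.1.1 i.1.2) := by
    intro i
    rw [S308.volume_dyo, ofReal_cube]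
  simp_rw [h1]
  have hd : Pairwise fun a b : {i // Q i} => Disjoint (dyo v a.1.1 a.1.2) (dyo v b.1.1 b.1.2) := by
    intro a b hab
    exact (hI.disj a.1 (hQ _ a.2) b.1 (hQ _ b.2) fun h => hab (Subtype.ext h)).mono_right
      dyo_sub_dyc
  refine (tsum_meas_le_meas_iUnion_of_disjoint
    (As := fun i : {i // Q i} => dyo v i.1.1 i.1.2) volume (fun i => hm i.1) hd).trans ?_
  exact measure_mono (iUnion_subset fun i => dyo_sub_dyc.trans (hI.sub _ (hQ _ i.2)))

/-- the linear bound for the sum over the cells -/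
theorem sum_cellT_lin (hΩ : IsOpen Ω) (hI : Part Ω v I) {Q : Idx → Prop} (hQ : ∀ i, Q i → i ∈ I)
    (A : Set V) {H H' : V → ℝ≥0∞} {a b : ℝ≥0∞} (ha : a ≠ ⊤) (h : ∀ x, H' x ≤ a * H x + b) :
    ∑' i : {i // Q i}, cellT v I A H' i.1 ≤
      a * ∑' i : {i // Q i}, cellT v I A H i.1 + 24 * b * volume Ω := by
  calc ∑' i : {i // Q i}, cellT v I A H' i.1
      ≤ ∑' i : {i // Q i}, (a * cellT v I A H i.1 +
          24 * b * ENNReal.ofReal ((1 / 2 ^ i.1.1) ^ 3)) := by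
        refine ENNReal.tsum_le_tsum fun i => (cellT_mono h).trans ?_
        rw [cellT_lin ha]
        gcongr
        exact cellT_cst hΩ hI (hQ _ i.2) A b
    _ = a * ∑' i : {i // Q i}, cellT v I A H i.1 +
          24 * b * ∑' i : {i // Q i}, ENNReal.ofReal ((1 / 2 ^ i.1.1) ^ 3) := by
        rw [ENNReal.tsum_add, ENNReal.tsum_mul_left, ENNReal.tsum_mul_left]
    _ ≤ _ := by
        gcongr
        exact sum_volume_le hI hQ

/-! ### Squares -/

theorem sInt_cst (v : V) (s : Idx × Fin 3) (a : ℝ≥0∞) :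
    sInt v s (fun _ => a) = a * ENNReal.ofReal ((1 / 2 ^ s.1.1) ^ 2) := by
  unfold sInt
  rw [setLIntegral_const, volume_dyc, mul_left_comm]
  congr 1
  rw [show (2:ℝ≥0∞) ^ s.1.1 = ENNReal.ofReal (2 ^ s.1.1) by
    rw [ENNReal.ofReal_pow (by norm_num)]; simp, ← ENNReal.ofReal_mul (by positivity)]
  congr 1
  field_simp

theorem sInt_const_mul (v : V) (s : Idx × Fin 3) {a : ℝ≥0∞} (ha : a ≠ ⊤) (H : V → ℝ≥0∞) :
    sInt v s (fun x => a * H x) = a * sInt v s H := by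
  unfold sInt
  rw [lintegral_const_mul' _ _ ha]
  ring

/-- the surface: the pairs (cube, face) are determined by the face -/
theorem injOn_snd {n N : ℕ} {z : Fin 3 → ℤ} {S : Set (Idx × (Idx × Fin 3))} (hN : n ≤ N)
    (hS : ∀ a ∈ S, a.1.1 = N ∧ dyc v a.1.1 a.1.2 ⊆ dyc v n z ∧
      FaceOf a.2 a.1 ∧ squ v a.2 ⊆ frontier (dyc v n z)) : Set.InjOn Prod.snd S := by
  have key : ∀ a ∈ S, ∃ σ : Bool, a.2.1.2 a.2.2 = 2 ^ (N - n) * (z a.2.2 + off σ) ∧
      a.1.2 a.2.2 + off σ = a.2.1.2 a.2.2 := by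
    intro a ha
    obtain ⟨h1, h2, h3, h4⟩ := hS a ha
    obtain ⟨j, σ, w, hw, hs⟩ := squ_face_of_frontier hN h1 h2 h3 h4
    rw [H83.mem_eLow] at hw
    have hj : a.2.2 = j := by rw [hs]
    have hw2 : a.2.1.2 = w := by rw [hs]
    have h5 : a.2.1.2 a.2.2 = 2 ^ (N - n) * (z a.2.2 + off σ) := by
      rw [hw2, hj]
      have h := hw.1
      simpa [faceP] using h
    refine ⟨σ, h5, ?_⟩
    have h6 := dyc_int (i := a.1) (q := (n, z)) h2 a.2.2
    simp only at h6
    rw [h1] at h6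
    have hp : (0:ℤ) < 2 ^ (N - n) := by positivity
    cases σ
    · rw [off_false] at h5 ⊢
      rcases h3.2.1 with h7 | h7
      · rw [h7]; ring
      · exfalso
        rw [h7, add_zero] at h5
        linarith [h6.1]
    · rw [off_true] at h5 ⊢
      rcases h3.2.1 with h7 | h7
      · exfalso
        rw [h7] at h5
        linarith [h6.2]
      · rw [h7]
  intro a ha b hb hab
  have hab' : a.2 = b.2 := hab
  obtain ⟨σ, h1, h2⟩ := key a ha
  obtain ⟨τ, h3, h4⟩ := key b hb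
  obtain ⟨a1, -, a3, -⟩ := hS a ha
  obtain ⟨b1, -, b3, -⟩ := hS b hb
  rw [← hab'] at h3 h4 b3
  have hp : (0:ℤ) < 2 ^ (N - n) := by positivity
  have hστ : off σ = off τ := by
    have h5 : (2:ℤ) ^ (N - n) * (z a.2.2 + off σ) = 2 ^ (N - n) * (z a.2.2 + off τ) := by
      rw [← h1, ← h3]
    have h6 := mul_left_cancel₀ hp.ne' h5
    linarith
  refine Prod.ext (Prod.ext (a1.trans b1.symm) ?_) hab'
  funext k
  by_cases hk : k = a.2.2
  · rw [hk]
    rw [hστ] at h2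
    linarith
  · rw [← a3.2.2 k hk, ← b3.2.2 k hk]

end Vale.Agent.P073.H687
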