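import Vale.Agent.P073.H687.Dict

/-!
# P073, A15 [PRE-C] (Q4): the area of the minimal squares of a cube
-/

open Set Metric Topology Filter Module MeasureTheory
open scoped ENNReal

namespace Vale.Agent.P073.H687

open Vale.Agent.P073.St (V)
open Vale.Agent.P073.SQ (ev)
open Vale.Agent.P073.AB Vale.Agent.P073.AB.P86
open _root_.P073.Net (dyc dyo)

variable {Ω : Set V} {v : V} {I : Set Idx}

/-- lower corner of the prism over `s` in the cube `i` -/
noncomputable def prA (v : V) (i : Idx) (s : Idx × Fin 3) (l : Fin 3) : ℝ :=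
  if l = s.2 then v l + i.2 l / 2 ^ i.1 else v l + s.1.2 l / 2 ^ s.1.1

/-- upper corner of the prism over `s` in the cube `i` -/
noncomputable def prB (v : V) (i : Idx) (s : Idx × Fin 3) (l : Fin 3) : ℝ :=
  if l = s.2 then v l + (i.2 l + 1) / 2 ^ i.1 else v l + (s.1.2 l + 1) / 2 ^ s.1.1

/-- the open prism over `s` in the cube `i` -/
def prism (v : V) (i : Idx) (s : Idx × Fin 3) : Set V :=
  Set.pi univ fun l => Ioo (prA v i s l) (prB v i s l)

theorem volume_prism (v : V) (i : Idx) (s : Idx × Fin 3) :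
    volume (prism v i s) = ENNReal.ofReal (1 / 2 ^ i.1 * (1 / 2 ^ s.1.1) ^ 2) := by
  have h : ∀ l, prB v i s l - prA v i s l = if l = s.2 then 1 / 2 ^ i.1 else 1 / 2 ^ s.1.1 := by
    intro l
    unfold prA prB
    split_ifs with hl
    · rw [add_div]; ring
    · rw [add_div]; ring
  rw [prism, Real.volume_pi_Ioo]
  simp_rw [h]
  rw [← ENNReal.ofReal_prod_of_nonneg]
  · congr 1
    rw [Fin.prod_univ_three]
    have : ∀ k : Fin 3, k = 0 ∨ k = 1 ∨ k = 2 := by decide
    rcases this s.2 with hk | hk | hk <;> rw [hk] <;> simp <;> ring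
  · intro l _
    split_ifs <;> positivity

theorem measurableSet_prism (v : V) (i : Idx) (s : Idx × Fin 3) :
    MeasurableSet (prism v i s) :=
  MeasurableSet.univ_pi fun _ => measurableSet_Ioo

theorem volume_dyc (v : V) (m : ℕ) (z : Fin 3 → ℤ) :
    volume (dyc v m z) = ENNReal.ofReal ((1 / 2 ^ m) ^ 3) := by
  have h1 : dyc v m z = Set.pi univ fun k => Icc (v k + z k / 2 ^ m) (v k + (z k + 1) / 2 ^ m) := by
    ext x
    simp only [Set.mem_pi, mem_univ, true_implies]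
    rfl
  have h : ∀ l, v l + ((z l : ℝ) + 1) / 2 ^ m - (v l + z l / 2 ^ m) = 1 / 2 ^ m := by
    intro l
    rw [add_div]; ring
  rw [h1, pi_univ_Icc, Real.volume_Icc_pi]
  simp_rw [h]
  rw [Finset.prod_const, Finset.card_univ, Fintype.card_fin, ENNReal.ofReal_pow (by positivity)]

/-- **(Q4)** -/
theorem area_le (hI : Part Ω v I) {i : Idx} (hi : i ∈ I) (hΩ : IsOpen Ω) :
    ∑' s : {s : Idx × Fin 3 // MinSq v I s ∧ squ v s ⊆ dyc v i.1 i.2},
      ENNReal.ofReal ((1 / 2 ^ s.1.1.1) ^ 2) ≤ ENNReal.ofReal (6 * (1 / 2 ^ i.1) ^ 2) := by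
  classical
  have hp : (0:ℝ) < 1 / 2 ^ i.1 := by positivity
  -- the side
  let cls : {s : Idx × Fin 3 // MinSq v I s ∧ squ v s ⊆ dyc v i.1 i.2} → Fin 3 × Bool :=
    fun s => (s.1.2, decide (v s.1.2 + (s.1.1.2 s.1.2 : ℝ) / 2 ^ s.1.1.1 =
      v s.1.2 + i.2 s.1.2 / 2 ^ i.1))
  have hside : ∀ s : {s : Idx × Fin 3 // MinSq v I s ∧ squ v s ⊆ dyc v i.1 i.2},
      v s.1.2 + (s.1.1.2 s.1.2 : ℝ) / 2 ^ s.1.1.1 = v s.1.2 + i.2 s.1.2 / 2 ^ i.1 ∨
      v s.1.2 + (s.1.1.2 s.1.2 : ℝ) / 2 ^ s.1.1.1 = v s.1.2 + (i.2 s.1.2 + 1) / 2 ^ i.1 := by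
    intro s
    have h1 := abseq (bd_pos hI s.2.1 hi s.2.2).1
    have e0 : sc v s.1 s.1.2 = v s.1.2 + s.1.1.2 s.1.2 / 2 ^ s.1.1.1 := by simp [sc]
    rw [e0] at h1
    exact h1
  have hfib : ∀ c : Fin 3 × Bool, ∑' s : cls ⁻¹' {c},
      ENNReal.ofReal ((1 / 2 ^ s.1.1.1.1) ^ 2) ≤ ENNReal.ofReal ((1 / 2 ^ i.1) ^ 2) := by
    intro c
    have hdisj : Pairwise fun a b : cls ⁻¹' {c} =>
        Disjoint (prism v i a.1.1) (prism v i b.1.1) := by
      intro a b hab
      rw [Set.disjoint_left]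
      intro x hxa hxb
      apply hab
      have hca : cls a.1 = c := a.2
      have hcb : cls b.1 = c := b.2
      have hk : a.1.1.2 = b.1.1.2 := by
        have h1 := congrArg Prod.fst (hca.trans hcb.symm)
        exact h1
      have hd : decide (v a.1.1.2 + (a.1.1.1.2 a.1.1.2 : ℝ) / 2 ^ a.1.1.1.1 =
          v a.1.1.2 + i.2 a.1.1.2 / 2 ^ i.1) = decide (v b.1.1.2 +
          (b.1.1.1.2 b.1.1.2 : ℝ) / 2 ^ b.1.1.1.1 = v b.1.1.2 + i.2 b.1.1.2 / 2 ^ i.1) := by
        have h1 := congrArg Prod.snd (hca.trans hcb.symm)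
        exact h1
      rw [decide_eq_decide] at hd
      have hpl : v a.1.1.2 + (a.1.1.1.2 a.1.1.2 : ℝ) / 2 ^ a.1.1.1.1 =
          v b.1.1.2 + (b.1.1.1.2 b.1.1.2 : ℝ) / 2 ^ b.1.1.1.1 := by
        rcases hside a.1 with h1 | h1
        · have h2 := hd.1 h1
          rw [h1, h2, hk]
        · rcases hside b.1 with h2 | h2
          · have h3 := hd.2 h2
            rw [h3, h2, hk]
          · rw [h1, h2, hk]
      -- the projection
      have hx' : Function.update x a.1.1.2 (v a.1.1.2 + (a.1.1.1.2 a.1.1.2 : ℝ) / 2 ^ a.1.1.1.1) ∈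
          rel v a.1.1 := by
        refine ⟨by simp, fun l hl => ?_⟩
        rw [Function.update_of_ne hl]
        have h1 := hxa l (mem_univ l)
        simp only [prA, prB, if_neg hl] at h1
        exact h1
      have hx'' : Function.update x a.1.1.2 (v a.1.1.2 + (a.1.1.1.2 a.1.1.2 : ℝ) / 2 ^ a.1.1.1.1) ∈
          rel v b.1.1 := by
        refine ⟨?_, fun l hl => ?_⟩
        · rw [← hk, Function.update_self, hpl, hk]
        · rw [Function.update_of_ne (by rw [hk]; exact hl)]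
          have h1 := hxb l (mem_univ l)
          simp only [prA, prB, if_neg hl] at h1
          exact h1
      have := sq_disj hΩ hI a.1.2.1 b.1.2.1 hx' (rel_sub hx'')
      exact Subtype.ext (Subtype.ext this)
    have hsub : (⋃ s : cls ⁻¹' {c}, prism v i s.1.1) ⊆ dyc v i.1 i.2 := by
      refine iUnion_subset fun s => ?_
      intro x hx l
      have h1 := hx l (mem_univ l)
      by_cases hl : l = s.1.1.2
      · simp only [prA, prB, if_pos hl] at h1
        exact ⟨h1.1.le, h1.2.le⟩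
      · simp only [prA, prB, if_neg hl] at h1
        -- the corners of the square are in the cube
        have hm : (0:ℝ) < 2 ^ s.1.1.1.1 := by positivity
        have g1 : pt v s.1.1.1.1 s.1.1.1.2 ∈ squ v s.1.1 :=
          ⟨rfl, fun k _ => ⟨le_rfl, by show v k + _ / _ ≤ _; gcongr; linarith⟩⟩
        have g2 : (fun k => if k = s.1.1.2 then v k + s.1.1.1.2 k / 2 ^ s.1.1.1.1 else
            v k + (s.1.1.1.2 k + 1) / 2 ^ s.1.1.1.1 : V) ∈ squ v s.1.1 := by
          refine ⟨by simp, fun j hj => ?_⟩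
          simp only [if_neg hj]
          exact ⟨by gcongr; linarith, le_rfl⟩
        have g3 := (s.1.2.2 g1 l).1
        have g4 := (s.1.2.2 g2 l).2
        simp only [if_neg hl] at g4
        exact ⟨g3.trans h1.1.le, h1.2.le.trans g4⟩
    have h1 : ∑' s : cls ⁻¹' {c}, volume (prism v i s.1.1) ≤ volume (dyc v i.1 i.2) := by
      refine le_trans ?_ (measure_mono hsub)
      exact tsum_meas_le_meas_iUnion_of_disjoint (As := fun s : cls ⁻¹' {c} => prism v i s.1.1)
        volume (fun s => measurableSet_prism v i s.1.1) hdisj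
    rw [volume_dyc] at h1
    have h2 : ∀ s : cls ⁻¹' {c}, volume (prism v i s.1.1) =
        ENNReal.ofReal (1 / 2 ^ i.1) * ENNReal.ofReal ((1 / 2 ^ s.1.1.1.1) ^ 2) := by
      intro s
      rw [volume_prism, ENNReal.ofReal_mul hp.le]
    have h3 : ENNReal.ofReal ((1 / 2 ^ i.1) ^ 3 : ℝ) =
        ENNReal.ofReal (1 / 2 ^ i.1) * ENNReal.ofReal ((1 / 2 ^ i.1) ^ 2) := by
      rw [← ENNReal.ofReal_mul hp.le]
      congr 1
      ring
    simp_rw [h2] at h1
    rw [ENNReal.tsum_mul_left, h3] at h1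
    exact (ENNReal.mul_le_mul_iff_right (ENNReal.ofReal_pos.2 hp).ne' ENNReal.ofReal_ne_top).1 h1
  calc ∑' s : {s : Idx × Fin 3 // MinSq v I s ∧ squ v s ⊆ dyc v i.1 i.2},
      ENNReal.ofReal ((1 / 2 ^ s.1.1.1) ^ 2)
      = ∑' c : Fin 3 × Bool, ∑' s : cls ⁻¹' {c}, ENNReal.ofReal ((1 / 2 ^ s.1.1.1.1) ^ 2) :=
        (ENNReal.tsum_fiberwise _ cls).symm
    _ ≤ ∑' _c : Fin 3 × Bool, ENNReal.ofReal ((1 / 2 ^ i.1) ^ 2) := ENNReal.tsum_le_tsum hfib
    _ = ENNReal.ofReal (6 * (1 / 2 ^ i.1) ^ 2) := by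
        rw [tsum_fintype, Finset.sum_const, Finset.card_univ, ENNReal.ofReal_mul (by norm_num)]
        simp

end Vale.Agent.P073.H687
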