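import Vale.Agent.P073.H333.PreDefs
import Vale.Agent.P073.H687.MinSum
import Vale.Agent.P073.H687.Area

/-!
# P073, A15 [PRE-F3]: the sum over the kept cells, squares on kept cells
-/

open Set Metric Topology Filter Module MeasureTheory
open scoped ENNReal

namespace Vale.Agent.P073.H687

open Vale.Agent.P073.St (V)
open Vale.Agent.P073.SQ (ev)
open Vale.Agent.P073.H73 (MinEdge segP)
open Vale.Agent.P073.H194 (cellT refine)
open Vale.Agent.P073.H333 (lay gap core out base edge_eq_sub)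
open Vale.Agent.P073.AB Vale.Agent.P073.AB.P86
open Vale.Agent.P073.AB.S308 (edge_sub_squ boxR_sub_int boxR_sub_boxB boxB_sub_dyc disj_int_boxB
  dyc_sub_of_mem_dyo boxR_eq volume_diff)
open _root_.P073.Net (dyc dyo)
open _root_.P073.Gauge.O407 (eInt_le_sum)

variable {Ω : Set V} {v : V} {I : Set Idx}

/-- one cell, squares in the set `A` -/
theorem cell_sum_le_set {p : ℝ} (hp : 1 ≤ p) (hΩ : IsOpen Ω) (hI : Part Ω v I) (i : Idx)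
    (A : Set V) (g : V → ℝ≥0∞) (ℓ : Idx × Fin 3 → ℝ≥0∞)
    (hℓ : ∀ s, MinSq v I s → squ v s ⊆ dyc v i.1 i.2 → squ v s ⊆ A → ∀ e, MinEdge v I e →
      edge v e ⊆ squ v s → ℓ e ≤ eInt v e g) :
    ∑' s : {s : Idx × Fin 3 // MinSq v I s ∧ squ v s ⊆ dyc v i.1 i.2 ∧ squ v s ⊆ A},
      ∑' e : {e : Idx × Fin 3 // MinEdge v I e ∧ edge v e ⊆ squ v s.1},
        ENNReal.ofReal (1 / 2 ^ i.1 * (1 / 2 ^ s.1.1.1)) *
          (ENNReal.ofReal ((1 / 2 ^ e.1.1.1) ^ (1 - p)) * ℓ e.1 ^ p) ≤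
      cellT v I A (fun x => g x ^ p) i := by
  unfold cellT
  refine ENNReal.tsum_le_tsum fun s => ?_
  rw [ENNReal.tsum_mul_left, ENNReal.tsum_mul_left]
  gcongr
  rw [tsum_sqE s.1 fun e => eInt v e fun x => g x ^ p,
    tsum_minEdge hI s.2.1 fun e => ENNReal.ofReal ((1 / 2 ^ e.1.1) ^ (1 - p)) * ℓ e ^ p]
  refine le_trans (Finset.sum_le_sum fun e he => ?_) (sum_minEdge_le hΩ hI s.2.1 _)
  have he' : MinEdge v I e ∧ edge v e ⊆ squ v s.1 := by simpa using he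
  exact term_le hp v e g (hℓ s.1 s.2.1 s.2.2.1 s.2.2.2 e he'.1 he'.2)

theorem eInt_le_sub {K : ℝ≥0∞} {H : V → ℝ≥0∞} {e : Idx × Fin 3} {m d : ℕ} (he : e.1.1 = m)
    (h : ∀ e' : Idx × Fin 3, e'.1.1 = m + d → edge v e' ⊆ edge v e →
      eInt v e' H ≤ K * ENNReal.ofReal (1 / 2 ^ (m + d))) :
    eInt v e H ≤ K * ENNReal.ofReal (1 / 2 ^ m) := by
  subst he
  have hsub := edge_eq_sub v e d
  refine (eInt_le_sum hsub H).trans ?_
  calc ∑ j ∈ Finset.range (2 ^ d), eInt v (subEdge e d j) H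
      ≤ ∑ _j ∈ Finset.range (2 ^ d), K * ENNReal.ofReal (1 / 2 ^ (e.1.1 + d)) := by
        refine Finset.sum_le_sum fun j hj => h _ rfl ?_
        rw [hsub]
        exact subset_iUnion₂ (s := fun j (_ : j ∈ Finset.range (2 ^ d)) =>
          edge v (subEdge e d j)) j hj
    _ = K * ENNReal.ofReal (1 / 2 ^ e.1.1) := by
        rw [Finset.sum_const, Finset.card_range, nsmul_eq_mul, mul_left_comm,
          ← ENNReal.ofReal_natCast, ← ENNReal.ofReal_mul (by positivity)]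
        congr 2
        push_cast
        rw [pow_add]
        field_simp

variable {n k₁ k₀ : ℕ} {J : Finset (Fin 3 → ℤ)}

/-- integrals over the coarse edges -/
theorem own_le {K : ℝ≥0∞} {H : V → ℝ≥0∞}
    (hown : ∀ z ∈ J, ∀ e : Idx × Fin 3, e.1.1 = n + k₁ + k₀ → edge v e ⊆ dyc v n z →
      eInt v e H ≤ K * ENNReal.ofReal (1 / 2 ^ (n + k₁ + k₀)))
    {z : Fin 3 → ℤ} (hz : z ∈ J) {e : Idx × Fin 3} (he : e.1.1 = n + k₁ + k₀ ∨ e.1.1 = n + k₁)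
    (hez : edge v e ⊆ dyc v n z) : eInt v e H ≤ K * ENNReal.ofReal (1 / 2 ^ e.1.1) := by
  rcases he with he | he
  · rw [he]
    exact hown z hz e he hez
  · rw [he]
    exact eInt_le_sub (d := k₀) he fun e' he' hsub => hown z hz e' he' (hsub.trans hez)

theorem card_sqE_le' (s : Idx × Fin 3) : ((sqE s).card : ℝ≥0∞) ≤ 4 := by
  exact_mod_cast card_sqE_le s

/-- one square -/
theorem square_sum_le {p : ℝ} (hp : 1 ≤ p) (hΩ : IsOpen Ω) (hI : Part Ω v I)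
    {gk : V → ℝ≥0∞} {K : ℝ≥0∞}
    (hown : ∀ z ∈ J, ∀ e : Idx × Fin 3, e.1.1 = n + k₁ + k₀ → edge v e ⊆ dyc v n z →
      eInt v e (fun x => gk x ^ p) ≤ K * ENNReal.ofReal (1 / 2 ^ (n + k₁ + k₀)))
    {ℓ : Idx × Fin 3 → ℝ≥0∞}
    (hℓ : ∀ e, MinEdge v I e → (∃ z ∈ J, edge v e ⊆ dyc v n z ∧
      Disjoint (edge v e) (interior (boxR v n k₁ z))) → ℓ e ≤ eInt v e gk)
    {s : Idx × Fin 3} (hs : MinSq v I s) (hsg : s.1.1 = n + k₁ + k₀ ∨ s.1.1 = n + k₁)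
    {z : Fin 3 → ℤ} (hz : z ∈ J) (hsz : squ v s ⊆ dyc v n z)
    (hsd : Disjoint (squ v s) (interior (boxR v n k₁ z))) :
    ∑' e : {e : Idx × Fin 3 // MinEdge v I e ∧ edge v e ⊆ squ v s},
      ENNReal.ofReal ((1 / 2 ^ e.1.1.1) ^ (1 - p)) * ℓ e.1 ^ p ≤
      4 * K * ENNReal.ofReal (1 / 2 ^ s.1.1) := by
  rw [tsum_minEdge hI hs fun e => ENNReal.ofReal ((1 / 2 ^ e.1.1) ^ (1 - p)) * ℓ e ^ p]
  calc ∑ e ∈ (finite_minEdge hI hs).toFinset, ENNReal.ofReal ((1 / 2 ^ e.1.1) ^ (1 - p)) * ℓ e ^ p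
      ≤ ∑ e ∈ (finite_minEdge hI hs).toFinset, eInt v e fun x => gk x ^ p := by
        refine Finset.sum_le_sum fun e he => ?_
        have he' : MinEdge v I e ∧ edge v e ⊆ squ v s := by simpa using he
        exact term_le hp v e gk (hℓ e he'.1 ⟨z, hz, he'.2.trans hsz, hsd.mono_left he'.2⟩)
    _ ≤ ∑ e ∈ sqE s, eInt v e fun x => gk x ^ p := sum_minEdge_le hΩ hI hs _
    _ ≤ ∑ _e ∈ sqE s, K * ENNReal.ofReal (1 / 2 ^ s.1.1) := by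
        refine Finset.sum_le_sum fun e he => ?_
        have h1 := mem_sqE.1 he
        have h2 := own_le hown hz (e := e) (by rw [h1.1]; exact hsg)
          ((edge_sub_squ h1).trans hsz)
        rwa [h1.1] at h2
    _ = (sqE s).card * (K * ENNReal.ofReal (1 / 2 ^ s.1.1)) := by
        rw [Finset.sum_const, nsmul_eq_mul]
    _ ≤ 4 * (K * ENNReal.ofReal (1 / 2 ^ s.1.1)) := by
        gcongr
        exact card_sqE_le' s
    _ = 4 * K * ENNReal.ofReal (1 / 2 ^ s.1.1) := by rw [mul_assoc]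

theorem ofReal_cube (m : ℕ) : ENNReal.ofReal ((1 / 2 ^ m : ℝ) ^ 3) = ENNReal.ofReal (1 / 8 ^ m) := by
  congr 1
  rw [div_pow, one_pow, ← pow_mul, mul_comm m 3, pow_mul]
  norm_num

theorem volume_diff_le (v : V) (n k₁ : ℕ) (z : Fin 3 → ℤ) :
    volume (dyc v n z \ boxR v n k₁ z) ≤ ENNReal.ofReal (12 / 2 ^ k₁ * (1 / 2 ^ n) ^ 3) := by
  have h8 : (1 / 2 ^ n : ℝ) ^ 3 = 1 / 8 ^ n := by
    rw [div_pow, one_pow, ← pow_mul, mul_comm n 3, pow_mul]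
    norm_num
  rcases le_total 3 k₁ with hk | hk
  · refine (volume_diff hk).trans (le_of_eq ?_)
    rw [h8]
    congr 1
    ring
  · refine (measure_mono sdiff_subset).trans ?_
    rw [volume_dyc]
    apply ENNReal.ofReal_le_ofReal
    have h1 : (2:ℝ) ^ k₁ ≤ 8 := by
      calc (2:ℝ) ^ k₁ ≤ 2 ^ 3 := pow_le_pow_right₀ (by norm_num) hk
        _ = 8 := by norm_num
    have h2 : (1:ℝ) ≤ 12 / 2 ^ k₁ := by
      rw [le_div_iff₀ (by positivity)]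
      linarith
    have h3 : (0:ℝ) ≤ (1 / 2 ^ n) ^ 3 := by positivity
    nlinarith

/-- the kept cells are in the layers -/
theorem dyo_sub_layer {i : Idx} (hi : i ∈ lay v n k₁ k₀ J ∪ gap v n k₁ J) :
    ∃ z ∈ J, dyo v i.1 i.2 ⊆ dyc v n z \ boxR v n k₁ z := by
  rcases hi with ⟨hg, z, hz, h1, h2⟩ | ⟨hg, z, hz, h1, h2⟩
  · refine ⟨z, hz, fun x hx => ⟨h1 (dyo_sub_dyc hx), fun hxR => ?_⟩⟩
    exact Set.disjoint_left.1 (disj_int_boxB (by rw [hg]; omega) h2) (dyo_sub_dyc hx)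
      (boxR_sub_int z hxR)
  · refine ⟨z, hz, fun x hx => ⟨boxB_sub_dyc z (h1 (dyo_sub_dyc hx)), fun hxR => h2 ?_⟩⟩
    rw [boxR_eq] at hxR ⊢
    exact dyc_sub_of_mem_dyo (by rw [hg]) hx hxR

/-- the volume of the kept cells -/
theorem kept_volume (hI : Part Ω v I) (hIP : lay v n k₁ k₀ J ∪ gap v n k₁ J ⊆ I) :
    ∑' i : {i : Idx // i ∈ lay v n k₁ k₀ J ∪ gap v n k₁ J},
      ENNReal.ofReal ((1 / 2 ^ i.1.1) ^ 3) ≤
      ∑ _z ∈ J, ENNReal.ofReal (12 / 2 ^ k₁ * (1 / 2 ^ n) ^ 3) := by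
  have hm : ∀ i : Idx, MeasurableSet (dyo v i.1 i.2) := fun i => by
    rw [← H194.interior_dyc]
    exact isOpen_interior.measurableSet
  have h1 : ∀ i : {i : Idx // i ∈ lay v n k₁ k₀ J ∪ gap v n k₁ J},
      ENNReal.ofReal ((1 / 2 ^ i.1.1) ^ 3) = volume (dyo v i.1.1 i.1.2) := by
    intro i
    rw [S308.volume_dyo, ofReal_cube]
  simp_rw [h1]
  have hd : Pairwise fun a b : {i : Idx // i ∈ lay v n k₁ k₀ J ∪ gap v n k₁ J} =>
      Disjoint (dyo v a.1.1 a.1.2) (dyo v b.1.1 b.1.2) := by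
    intro a b hab
    exact (hI.disj a.1 (hIP a.2) b.1 (hIP b.2) fun h => hab (Subtype.ext h)).mono_right
      dyo_sub_dyc
  calc ∑' i : {i : Idx // i ∈ lay v n k₁ k₀ J ∪ gap v n k₁ J}, volume (dyo v i.1.1 i.1.2)
      ≤ volume (⋃ i : {i : Idx // i ∈ lay v n k₁ k₀ J ∪ gap v n k₁ J}, dyo v i.1.1 i.1.2) :=
        tsum_meas_le_meas_iUnion_of_disjoint
          (As := fun i : {i : Idx // i ∈ lay v n k₁ k₀ J ∪ gap v n k₁ J} => dyo v i.1.1 i.1.2)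
          volume (fun i => hm i.1) hd
    _ ≤ volume (⋃ z ∈ J, dyc v n z \ boxR v n k₁ z) := by
        refine measure_mono (iUnion_subset fun i => ?_)
        obtain ⟨z, hz, hsub⟩ := dyo_sub_layer i.2
        exact hsub.trans (subset_iUnion₂ (s := fun z (_ : z ∈ J) =>
          dyc v n z \ boxR v n k₁ z) z hz)
    _ ≤ ∑ z ∈ J, volume (dyc v n z \ boxR v n k₁ z) := measure_biUnion_finset_le _ _
    _ ≤ ∑ _z ∈ J, ENNReal.ofReal (12 / 2 ^ k₁ * (1 / 2 ^ n) ^ 3) :=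
        Finset.sum_le_sum fun z _ => volume_diff_le v n k₁ z

/-- **[PRE-F3]**, general partition -/
theorem kept_kept_sum' {p : ℝ} (hp : 1 ≤ p) (hΩ : IsOpen Ω) (hI : Part Ω v I)
    (hIP : lay v n k₁ k₀ J ∪ gap v n k₁ J ⊆ I) {S : Idx × Fin 3 → Prop}
    (Q1 : ∀ s, MinSq v I s → S s → (s.1.1 = n + k₁ + k₀ ∨ s.1.1 = n + k₁) ∧
      ∃ z ∈ J, squ v s ⊆ dyc v n z ∧ Disjoint (squ v s) (interior (boxR v n k₁ z)))
    {gk : V → ℝ≥0∞} {K : ℝ≥0∞}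
    (hown : ∀ z ∈ J, ∀ e : Idx × Fin 3, e.1.1 = n + k₁ + k₀ → edge v e ⊆ dyc v n z →
      eInt v e (fun x => gk x ^ p) ≤ K * ENNReal.ofReal (1 / 2 ^ (n + k₁ + k₀)))
    {ℓ : Idx × Fin 3 → ℝ≥0∞}
    (hℓ : ∀ e, MinEdge v I e → (∃ z ∈ J, edge v e ⊆ dyc v n z ∧
      Disjoint (edge v e) (interior (boxR v n k₁ z))) → ℓ e ≤ eInt v e gk) :
    ∑' i : {i : Idx // i ∈ lay v n k₁ k₀ J ∪ gap v n k₁ J},
      ∑' s : {s : Idx × Fin 3 // MinSq v I s ∧ squ v s ⊆ dyc v i.1.1 i.1.2 ∧ S s},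
        ∑' e : {e : Idx × Fin 3 // MinEdge v I e ∧ edge v e ⊆ squ v s.1},
          ENNReal.ofReal (1 / 2 ^ i.1.1 * (1 / 2 ^ s.1.1.1)) *
            (ENNReal.ofReal ((1 / 2 ^ e.1.1.1) ^ (1 - p)) * ℓ e.1 ^ p) ≤
      24 * K * ∑ _z ∈ J, ENNReal.ofReal (12 / 2 ^ k₁ * (1 / 2 ^ n) ^ 3) := by
  have hcell : ∀ i : {i : Idx // i ∈ lay v n k₁ k₀ J ∪ gap v n k₁ J},
      ∑' s : {s : Idx × Fin 3 // MinSq v I s ∧ squ v s ⊆ dyc v i.1.1 i.1.2 ∧ S s},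
        ∑' e : {e : Idx × Fin 3 // MinEdge v I e ∧ edge v e ⊆ squ v s.1},
          ENNReal.ofReal (1 / 2 ^ i.1.1 * (1 / 2 ^ s.1.1.1)) *
            (ENNReal.ofReal ((1 / 2 ^ e.1.1.1) ^ (1 - p)) * ℓ e.1 ^ p) ≤
      24 * K * ENNReal.ofReal ((1 / 2 ^ i.1.1) ^ 3) := by
    intro i
    have hr : (0:ℝ) ≤ 1 / 2 ^ i.1.1 := by positivity
    calc _ ≤ ∑' s : {s : Idx × Fin 3 // MinSq v I s ∧ squ v s ⊆ dyc v i.1.1 i.1.2 ∧ S s},
          4 * K * ENNReal.ofReal (1 / 2 ^ i.1.1) * ENNReal.ofReal ((1 / 2 ^ s.1.1.1) ^ 2) := by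
          refine ENNReal.tsum_le_tsum fun s => ?_
          obtain ⟨hg, z, hz, h1, h2⟩ := Q1 s.1 s.2.1 s.2.2.2
          rw [ENNReal.tsum_mul_left]
          calc _ ≤ ENNReal.ofReal (1 / 2 ^ i.1.1 * (1 / 2 ^ s.1.1.1)) *
                (4 * K * ENNReal.ofReal (1 / 2 ^ s.1.1.1)) := by
                gcongr
                exact square_sum_le hp hΩ hI hown hℓ s.2.1 hg hz h1 h2
            _ = _ := by
                rw [ENNReal.ofReal_mul hr, pow_two, ENNReal.ofReal_mul (by positivity)]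
                ring
      _ = 4 * K * ENNReal.ofReal (1 / 2 ^ i.1.1) *
          ∑' s : {s : Idx × Fin 3 // MinSq v I s ∧ squ v s ⊆ dyc v i.1.1 i.1.2 ∧ S s},
            ENNReal.ofReal ((1 / 2 ^ s.1.1.1) ^ 2) := ENNReal.tsum_mul_left
      _ ≤ 4 * K * ENNReal.ofReal (1 / 2 ^ i.1.1) *
          ∑' s : {s : Idx × Fin 3 // MinSq v I s ∧ squ v s ⊆ dyc v i.1.1 i.1.2},
            ENNReal.ofReal ((1 / 2 ^ s.1.1.1) ^ 2) := by
          gcongr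
          exact tsum_sub_le
            (Q := fun s : Idx × Fin 3 => MinSq v I s ∧ squ v s ⊆ dyc v i.1.1 i.1.2 ∧ S s)
            (Q' := fun s : Idx × Fin 3 => MinSq v I s ∧ squ v s ⊆ dyc v i.1.1 i.1.2)
            (fun s h => ⟨h.1, h.2.1⟩) fun s => ENNReal.ofReal ((1 / 2 ^ s.1.1) ^ 2)
      _ ≤ 4 * K * ENNReal.ofReal (1 / 2 ^ i.1.1) * ENNReal.ofReal (6 * (1 / 2 ^ i.1.1) ^ 2) := by
          gcongr
          exact area_le hI (hIP i.2) hΩ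
      _ = 24 * K * ENNReal.ofReal ((1 / 2 ^ i.1.1) ^ 3) := by
          rw [pow_succ (1 / 2 ^ i.1.1 : ℝ) 2, ENNReal.ofReal_mul (by norm_num),
            ENNReal.ofReal_mul (by positivity)]
          have : ENNReal.ofReal 6 = 6 := by norm_num
          rw [this]
          ring
  calc _ ≤ ∑' i : {i : Idx // i ∈ lay v n k₁ k₀ J ∪ gap v n k₁ J},
        24 * K * ENNReal.ofReal ((1 / 2 ^ i.1.1) ^ 3) := ENNReal.tsum_le_tsum hcell
    _ = 24 * K * ∑' i : {i : Idx // i ∈ lay v n k₁ k₀ J ∪ gap v n k₁ J},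
        ENNReal.ofReal ((1 / 2 ^ i.1.1) ^ 3) := ENNReal.tsum_mul_left
    _ ≤ 24 * K * ∑ _z ∈ J, ENNReal.ofReal (12 / 2 ^ k₁ * (1 / 2 ^ n) ^ 3) := by
        gcongr
        exact kept_volume hI hIP

/-- **[PRE-F3]** -/
theorem kept_kept_sum {B : Set Idx} {nf : Idx → ℕ} {p : ℝ} (hΩ : IsOpen Ω) (hp : 1 ≤ p)
    (hI : Part Ω v (refine v (base Ω v n k₁ k₀ J) (lay v n k₁ k₀ J ∪ gap v n k₁ J) B nf))
    (Q1 : ∀ s, MinSq v (refine v (base Ω v n k₁ k₀ J) (lay v n k₁ k₀ J ∪ gap v n k₁ J) B nf) s →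
      (∃ r ∈ out Ω v n k₁ k₀ J ∪ core v n k₁ J, squ v s ⊆ dyc v r.1 r.2) ∨
      (s.1.1 = n + k₁ + k₀ ∧ ∃ z ∈ J, squ v s ⊆ dyc v n z ∧
        Disjoint (squ v s) (interior (boxB v n k₁ z))) ∨
      (s.1.1 = n + k₁ ∧ ∃ z ∈ J, squ v s ⊆ boxB v n k₁ z ∧
        Disjoint (squ v s) (interior (boxR v n k₁ z))))
    {gk : V → ℝ≥0∞} {K : ℝ≥0∞}
    (hown : ∀ z ∈ J, ∀ e : Idx × Fin 3, e.1.1 = n + k₁ + k₀ → edge v e ⊆ dyc v n z →
      eInt v e (fun x => gk x ^ p) ≤ K * ENNReal.ofReal (1 / 2 ^ (n + k₁ + k₀)))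
    {ℓ : Idx × Fin 3 → ℝ≥0∞}
    (hℓ : ∀ e,
      MinEdge v (refine v (base Ω v n k₁ k₀ J) (lay v n k₁ k₀ J ∪ gap v n k₁ J) B nf) e →
      (∃ z ∈ J, edge v e ⊆ dyc v n z ∧ Disjoint (edge v e) (interior (boxR v n k₁ z))) →
      ℓ e ≤ eInt v e gk) :
    ∑' i : {i : Idx // i ∈ lay v n k₁ k₀ J ∪ gap v n k₁ J},
      ∑' s : {s : Idx × Fin 3 //
          MinSq v (refine v (base Ω v n k₁ k₀ J) (lay v n k₁ k₀ J ∪ gap v n k₁ J) B nf) s ∧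
          squ v s ⊆ dyc v i.1.1 i.1.2 ∧
          ∀ r ∈ out Ω v n k₁ k₀ J ∪ core v n k₁ J, ¬ squ v s ⊆ dyc v r.1 r.2},
        ∑' e : {e : Idx × Fin 3 //
            MinEdge v (refine v (base Ω v n k₁ k₀ J) (lay v n k₁ k₀ J ∪ gap v n k₁ J) B nf) e ∧
            edge v e ⊆ squ v s.1},
          ENNReal.ofReal (1 / 2 ^ i.1.1 * (1 / 2 ^ s.1.1.1)) *
            (ENNReal.ofReal ((1 / 2 ^ e.1.1.1) ^ (1 - p)) * ℓ e.1 ^ p) ≤
      24 * K * ∑ _z ∈ J, ENNReal.ofReal (12 / 2 ^ k₁ * (1 / 2 ^ n) ^ 3) := by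
  refine kept_kept_sum' (S := fun s => ∀ r ∈ out Ω v n k₁ k₀ J ∪ core v n k₁ J,
    ¬ squ v s ⊆ dyc v r.1 r.2) hp hΩ hI (fun i hi => Or.inl (Or.inl hi)) (fun s hs hS => ?_)
    hown hℓ
  rcases Q1 s hs with ⟨r, hr, h⟩ | ⟨hg, z, hz, h1, h2⟩ | ⟨hg, z, hz, h1, h2⟩
  · exact absurd h (hS r hr)
  · exact ⟨Or.inl hg, z, hz, h1, h2.mono_right (interior_mono (boxR_sub_boxB z))⟩
  · exact ⟨Or.inr hg, z, hz, h1.trans (boxB_sub_dyc z), h2⟩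

end Vale.Agent.P073.H687
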