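import Vale.Agent.P073.H687.Seg
import Vale.Agent.P073.H253.R1Parts
import Vale.Agent.P073.H236.TZero2

/-!
# P073, rank one, `[BEAM-T]`: the collapse near the image of the line
-/

open Set Metric Topology Filter MeasureTheory
open scoped ENNReal

namespace Vale.Agent.P073.H687.BeamT

open Vale.Agent.P073.St (V)
open Vale.Agent.P073.SQ (ev)
open Vale.Agent.P073.H253 (iv ivm BeamsAt SpecSeg SpecBeamCol)
open _root_.P073 (ConHomeo)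
open _root_.P073.H236 (cor exists_squeeze isCompact_cor)

/-- box around the beam `z`; `t`: the last two coordinates of the centre -/
noncomputable def bcen (v₀ : ℝ) (n : ℕ) (A : ℤ → V) (t : Fin 3 → ℝ) (z : ℤ) : Fin 3 → ℝ := fun j =>
  if j = 0 then v₀ + (z + 1 / 2) / 2 ^ n + A z 0 else t j

noncomputable def bhalf (s q : ℝ) : Fin 3 → ℝ := fun j => if j = 0 then s else q

theorem mem_box {v₀ : ℝ} {n : ℕ} {A : ℤ → V} {t : Fin 3 → ℝ} {z : ℤ} {s q : ℝ} {y : V} :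
    y ∈ cor (bcen v₀ n A t z) (bhalf s q) ↔
      |y 0 - (v₀ + (z + 1 / 2) / 2 ^ n + A z 0)| ≤ s ∧ ∀ j, j ≠ 0 → |y j - t j| ≤ q := by
  constructor
  · intro h
    refine ⟨by simpa [bcen, bhalf] using h 0, fun j hj => ?_⟩
    simpa [bcen, bhalf, hj] using h j
  · rintro ⟨h1, h2⟩ j
    by_cases hj : j = 0
    · subst hj; simpa [bcen, bhalf] using h1
    · simpa [bcen, bhalf, hj] using h2 j hj

/-- the support of the collapse -/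
def Kc (v₀ : ℝ) (n : ℕ) (A : ℤ → V) (κ ϑ : ℝ) (J : Finset ℤ) : Set V :=
  ⋃ z ∈ J, cor (bcen v₀ n A (A z) z) (bhalf ((1 / 2 - ϑ) / 2 ^ n) (26 * κ / 2 ^ n))

theorem isCompact_Kc (v₀ : ℝ) (n : ℕ) (A : ℤ → V) (κ ϑ : ℝ) (J : Finset ℤ) :
    IsCompact (Kc v₀ n A κ ϑ J) := J.isCompact_biUnion fun _ _ => isCompact_cor _ _

variable {γ : ℝ → V} {ψ : ℝ → ℝ} {κ ϑ : ℝ} {Λ : Set V} {v₀ : ℝ} {n : ℕ} {J : Finset ℤ} {A : ℤ → V}

theorem mem_ivm_of {z : ℤ} {y : V}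
    (h : |y 0 - (v₀ + (z + 1 / 2) / 2 ^ n + A z 0)| ≤ (1 / 2 - ϑ) / 2 ^ n) :
    y 0 - A z 0 ∈ ivm v₀ ϑ n z := by
  rw [abs_le] at h
  have e1 : ((z : ℝ) + ϑ) / 2 ^ n = (z + 1 / 2) / 2 ^ n - (1 / 2 - ϑ) / 2 ^ n := by ring
  have e2 : ((z : ℝ) + 1 - ϑ) / 2 ^ n = (z + 1 / 2) / 2 ^ n + (1 / 2 - ϑ) / 2 ^ n := by ring
  unfold ivm
  rw [e1, e2]
  constructor <;> linarith [h.1, h.2]

theorem ivm_sub {z : ℤ} (hϑ : 0 ≤ ϑ) : ivm v₀ ϑ n z ⊆ iv v₀ n z := by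
  intro t ht
  refine ⟨le_trans ?_ ht.1, ht.2.trans ?_⟩
  · gcongr; linarith
  · gcongr; linarith

theorem Kc_sub (H : BeamsAt γ ψ κ ϑ Λ v₀ n J A) (hκ : 0 < κ) (hκϑ : κ ≤ ϑ / 32)
    (hϑ : ϑ ≤ 1 / 4) : Kc v₀ n A κ ϑ J ⊆ Λ := by
  refine iUnion₂_subset fun z hz y hy => ?_
  obtain ⟨h1, h2⟩ := mem_box.1 hy
  have hn : (0:ℝ) < 2 ^ n := by positivity
  refine H.inside z hz (y 0 - A z 0) (ivm_sub (by linarith) (mem_ivm_of h1)) ?_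
  rw [mem_closedBall, dist_eq_norm, pi_norm_le_iff_of_nonneg (by positivity)]
  intro j
  rw [Real.norm_eq_abs]
  by_cases hj : j = 0
  · subst hj
    have : (y - ((y 0 - A z 0) • (ev 0 : V) + A z)) 0 = 0 := by
      simp [ev]
    rw [this, abs_zero]
    positivity
  · have : (y - ((y 0 - A z 0) • (ev 0 : V) + A z)) j = y j - A z j := by
      simp [ev, hj]
    rw [this]
    refine (h2 j hj).trans ?_
    gcongr
    linarith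

/-- **the collapse** -/
theorem exists_T (hΛ : IsOpen Λ) (H : BeamsAt γ ψ κ ϑ Λ v₀ n J A) (hκ : 0 < κ)
    (hκϑ : κ ≤ ϑ / 32) (hϑ : ϑ ≤ 1 / 4) {mt : ℕ} (hmt : 1 / 2 ^ mt ≤ κ / 2 ^ n) {δ : ℝ}
    (hδ : 0 < δ) :
    ∃ T : ConHomeo Λ Λ, (∀ y, y ∉ Kc v₀ n A κ ϑ J → T.toFun y = y) ∧
      (∀ y y', ‖T.toFun y - T.toFun y'‖ ≤ 2 * ‖y - y'‖) ∧
      (∀ y, ‖T.toFun y - y‖ ≤ 5 * κ / 2 ^ n) ∧ (∀ y, T.toFun y 0 = y 0) ∧
      ∀ z ∈ J, ∃ t : Fin 3 → ℤ, ∀ y : V,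
        |y 0 - (v₀ + (z + 1 / 2) / 2 ^ n + A z 0)| ≤ (1 / 2 - 2 * ϑ + 4 * κ) / 2 ^ n →
        (∀ j, j ≠ 0 → |y j - A z j| ≤ 4 * κ / 2 ^ n) →
        ∀ j, j ≠ 0 → |T.toFun y j - t j / 2 ^ mt| ≤ δ / 2 ^ mt := by
  classical
  have hn : (0:ℝ) < 2 ^ n := by positivity
  have hm : (0:ℝ) < 2 ^ mt := by positivity
  set t : ℤ → Fin 3 → ℤ := fun z j => ⌊A z j * 2 ^ mt⌋ with ht
  have htz : ∀ z j, |(t z j : ℝ) / 2 ^ mt - A z j| ≤ κ / 2 ^ n := by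
    intro z j
    refine le_trans ?_ hmt
    have h1 := Int.floor_le (A z j * 2 ^ mt)
    have h2 := Int.lt_floor_add_one (A z j * 2 ^ mt)
    have h3 : (t z j : ℝ) / 2 ^ mt ≤ A z j := by rw [div_le_iff₀ hm]; exact h1
    have h4 : A z j < (t z j : ℝ) / 2 ^ mt + 1 / 2 ^ mt := by
      rw [← add_div, lt_div_iff₀ hm]; exact h2
    rw [abs_le]
    constructor <;> linarith
  set ρ : ℝ := 5 * κ / 2 ^ n with hρ
  have hρ0 : 0 < ρ := by positivity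
  obtain ⟨lam, hl0, hl1, hlam⟩ : ∃ lam : ℝ, 0 < lam ∧ lam ≤ 1 ∧ lam * ρ ≤ δ / 2 ^ mt := by
    refine ⟨min 1 (δ / 2 ^ mt / ρ), lt_min one_pos (by positivity), min_le_left _ _, ?_⟩
    calc min 1 (δ / 2 ^ mt / ρ) * ρ ≤ δ / 2 ^ mt / ρ * ρ := by
          gcongr; exact min_le_right _ _
      _ = δ / 2 ^ mt := by field_simp
  set c : ℤ → Fin 3 → ℝ := fun z => bcen v₀ n A (fun j => t z j / 2 ^ mt) z with hc
  set a : Fin 3 → ℝ := bhalf ((1 / 2 - 2 * ϑ + 4 * κ) / 2 ^ n) (5 * κ / 2 ^ n) with ha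
  have haR : (fun i => a i + 4 * ρ) = bhalf ((1 / 2 - 2 * ϑ + 24 * κ) / 2 ^ n)
      (25 * κ / 2 ^ n) := by
    funext i
    by_cases hi : i = 0
    · simp only [ha, hρ, bhalf, if_pos hi]; ring
    · simp only [ha, hρ, bhalf, if_neg hi]; ring
  have hsubK : ∀ z, cor (c z) (fun i => a i + 4 * ρ) ⊆
      cor (bcen v₀ n A (A z) z) (bhalf ((1 / 2 - ϑ) / 2 ^ n) (26 * κ / 2 ^ n)) := by
    intro z y hy
    rw [haR, hc] at hy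
    obtain ⟨h1, h2⟩ := mem_box.1 hy
    refine mem_box.2 ⟨h1.trans ?_, fun j hj => ?_⟩
    · gcongr; linarith
    · have h3 : y j - A z j = (y j - t z j / 2 ^ mt) + (t z j / 2 ^ mt - A z j) := by ring
      rw [h3]
      refine (abs_add_le _ _).trans ?_
      have e : 26 * κ / 2 ^ n = 25 * κ / 2 ^ n + κ / 2 ^ n := by ring
      rw [e]
      exact add_le_add (h2 j hj) (htz z j)
  have hbig : ∀ z ∈ J, cor (c z) (fun i => a i + 4 * ρ) ⊆ Λ := fun z hz =>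
    (hsubK z).trans (Subset.trans (subset_iUnion₂ (s := fun z (_ : z ∈ J) =>
      cor (bcen v₀ n A (A z) z) (bhalf ((1 / 2 - ϑ) / 2 ^ n) (26 * κ / 2 ^ n))) z hz)
      (Kc_sub H hκ hκϑ hϑ))
  have hlt : ∀ z ∈ J, ∀ z' ∈ J, z < z' → Disjoint (cor (c z) fun i => a i + 4 * ρ)
      (cor (c z') fun i => a i + 4 * ρ) := by
    intro z hz z' hz' hzz
    rw [Set.disjoint_left]
    intro y hy hy'
    have h1 := mem_ivm_of (mem_box.1 (hsubK z hy)).1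
    have h2 := mem_ivm_of (mem_box.1 (hsubK z' hy')).1
    have h3 := H.sep z hz z' hz' hzz _ h1 _ h2
    have h4 : 0 < ϑ / 2 ^ n := by
      have : 0 < ϑ := by linarith
      positivity
    linarith
  have hdis : ∀ z ∈ J, ∀ z' ∈ J, z ≠ z' → Disjoint (cor (c z) fun i => a i + 4 * ρ)
      (cor (c z') fun i => a i + 4 * ρ) := by
    intro z hz z' hz' hne
    rcases lt_or_gt_of_ne hne with h | h
    · exact hlt z hz z' hz' h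
    · exact (hlt z' hz' z hz h).symm
  obtain ⟨T, hT1, hT2, hT3, hT4, hT5⟩ := exists_squeeze (ι := {z // z ∈ J}) hΛ
    ({1, 2} : Finset (Fin 3)) hl0 hl1 (R := 4) le_rfl (fun z => c z.1) (fun _ => a) (fun _ => ρ)
    (fun _ => hρ0) (fun _ j hj => by
      have hj0 : j ≠ 0 := by
        rintro rfl
        simp at hj
      simp only [ha, bhalf, if_neg hj0, hρ])
    (fun z => hbig z.1 z.2) (fun z z' hzz => hdis z.1 z.2 z'.1 z'.2 fun h => hzz (Subtype.ext h))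
    (fun z _ => ⟨univ, univ_mem, Set.toFinite _⟩)
  refine ⟨T, ?_, ?_, ?_, ?_, ?_⟩
  · intro y hy
    refine hT3 y fun z hz => hy (mem_iUnion₂.2 ⟨z.1, z.2, hsubK z.1 hz⟩)
  · intro y y'
    rw [pi_norm_le_iff_of_nonneg (by positivity)]
    intro i
    have h1 := hT5 y y' i
    have h2 : |y i - y' i| ≤ ‖y - y'‖ := norm_le_pi_norm (y - y') i
    rw [Pi.sub_apply, Real.norm_eq_abs]
    linarith
  · intro y
    rw [pi_norm_le_iff_of_nonneg (by positivity)]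
    intro i
    by_cases h : ∃ z : {z // z ∈ J}, y ∈ cor (c z.1) fun i => a i + 4 * ρ
    · obtain ⟨z, hz⟩ := h
      exact (hT4 z y hz i).2
    · push Not at h
      rw [hT3 y h, sub_self, Pi.zero_apply, norm_zero]
      positivity
  · intro y
    exact hT2 y 0 (by simp)
  · intro z hz
    refine ⟨t z, fun y h0 hy j hj => ?_⟩
    have hyc : y ∈ cor (c z) a := by
      refine mem_box.2 ⟨h0, fun i hi => ?_⟩
      have h3 : y i - t z i / 2 ^ mt = (y i - A z i) - (t z i / 2 ^ mt - A z i) := by ring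
      rw [h3]
      refine (abs_sub _ _).trans ?_
      have e : 5 * κ / 2 ^ n = 4 * κ / 2 ^ n + κ / 2 ^ n := by ring
      rw [e]
      exact add_le_add (hy i hi) (htz z i)
    have hj12 : j ∈ ({1, 2} : Finset (Fin 3)) := by
      fin_cases j
      · exact absurd rfl hj
      · simp
      · simp
    rw [hT1 ⟨z, hz⟩ y hyc j hj12]
    have h3 := hyc j
    have e1 : c z j = t z j / 2 ^ mt := by simp only [hc, bcen, if_neg hj]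
    have e2 : a j = ρ := by simp only [ha, bhalf, if_neg hj, hρ]
    rw [e1, e2] at h3
    show |c z j + lam * (y j - c z j) - t z j / 2 ^ mt| ≤ _
    rw [e1, add_sub_cancel_left, abs_mul, abs_of_pos hl0]
    exact (mul_le_mul_of_nonneg_left h3 hl0.le).trans hlam

/-! ### The good intervals -/

/-- the good intervals of generation `n + d` -/
noncomputable def gint (J : Finset ℤ) (d : ℕ) (e : ℤ) : Finset ℤ :=
  J.biUnion fun z => Finset.Ico (z * 2 ^ d + e) ((z + 1) * 2 ^ d - e)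

theorem mem_gint {J : Finset ℤ} {d : ℕ} {e k : ℤ} :
    k ∈ gint J d e ↔ ∃ z ∈ J, z * 2 ^ d + e ≤ k ∧ k < (z + 1) * 2 ^ d - e := by
  simp only [gint, Finset.mem_biUnion, Finset.mem_Ico]

theorem card_gint {J : Finset ℤ} {d : ℕ} {e : ℤ} (he : 0 ≤ e) :
    ((J.card : ℤ) : ℝ) * (2 ^ d - 2 * e) ≤ (gint J d e).card := by
  unfold gint
  rw [Finset.card_biUnion]
  · have h1 : ∀ z : ℤ, ((2:ℤ) ^ d - 2 * e) ≤ ((Finset.Ico (z * 2 ^ d + e)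
        ((z + 1) * 2 ^ d - e)).card : ℤ) := by
      intro z
      rw [Int.card_Ico]
      have h2 : (z + 1) * 2 ^ d - e - (z * 2 ^ d + e) = 2 ^ d - 2 * e := by ring
      rw [h2]
      exact Int.self_le_toNat _
    have h3 : (J.card : ℤ) * ((2:ℤ) ^ d - 2 * e) ≤
        ∑ z ∈ J, ((Finset.Ico (z * 2 ^ d + e) ((z + 1) * 2 ^ d - e)).card : ℤ) := by
      calc (J.card : ℤ) * ((2:ℤ) ^ d - 2 * e) = ∑ _z ∈ J, ((2:ℤ) ^ d - 2 * e) := by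
            rw [Finset.sum_const, nsmul_eq_mul]
        _ ≤ _ := Finset.sum_le_sum fun z _ => h1 z
    exact_mod_cast h3
  · intro z _ z' _ hne
    rw [Function.onFun, Finset.disjoint_left]
    intro k hk hk'
    rw [Finset.mem_Ico] at hk hk'
    have hp : (0:ℤ) < 2 ^ d := by positivity
    have h5 : z < z' + 1 := by
      by_contra hcon
      push Not at hcon
      have := mul_le_mul_of_nonneg_right hcon hp.le
      linarith [hk.1, hk'.2]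
    have h6 : z' < z + 1 := by
      by_contra hcon
      push Not at hcon
      have := mul_le_mul_of_nonneg_right hcon hp.le
      linarith [hk'.1, hk.2]
    exact hne (by omega)

theorem iv_sub_ivm {d : ℕ} {e : ℤ} {k z : ℤ} (he : 2 * ϑ * 2 ^ d ≤ e)
    (h1 : z * 2 ^ d + e ≤ k) (h2 : k < (z + 1) * 2 ^ d - e) :
    iv v₀ (n + d) k ⊆ ivm v₀ (2 * ϑ) n z := by
  have hp : (0:ℝ) < 2 ^ d := by positivity
  have hn : (0:ℝ) < 2 ^ n := by positivity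
  have h1' : (z : ℝ) * 2 ^ d + e ≤ k := by exact_mod_cast h1
  have h2' : (k : ℝ) + 1 ≤ (z + 1) * 2 ^ d - e := by exact_mod_cast h2
  have e1 : ((z : ℝ) + 2 * ϑ) / 2 ^ n = ((z + 2 * ϑ) * 2 ^ d) / 2 ^ (n + d) := by
    rw [pow_add]; field_simp
  have e2 : ((z : ℝ) + 1 - 2 * ϑ) / 2 ^ n = ((z + 1 - 2 * ϑ) * 2 ^ d) / 2 ^ (n + d) := by
    rw [pow_add]; field_simp
  intro t ht
  refine ⟨le_trans ?_ ht.1, ht.2.trans ?_⟩
  · rw [e1]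
    gcongr
    linarith
  · rw [e2]
    gcongr
    linarith

/-- the points near the good intervals -/
theorem near_good (H : BeamsAt γ ψ κ ϑ Λ v₀ n J A) (hκ : 0 < κ) (hϑ0 : 0 ≤ ϑ) {z : ℤ}
    (hz : z ∈ J) {u : ℝ} (hu : u ∈ ivm v₀ (2 * ϑ) n z) {y : V} (hy : ‖y - γ u‖ ≤ κ / 2 ^ n) :
    |y 0 - (v₀ + (z + 1 / 2) / 2 ^ n + A z 0)| ≤ (1 / 2 - 2 * ϑ + 4 * κ) / 2 ^ n ∧
      ∀ j, j ≠ 0 → |y j - A z j| ≤ 4 * κ / 2 ^ n := by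
  have hn : (0:ℝ) < 2 ^ n := by positivity
  have h1 := H.near z hz u (ivm_sub (by linarith) hu)
  have h2 : ‖y - (u • (ev 0 : V) + A z)‖ ≤ 2 * κ / 2 ^ n := by
    have e : y - (u • (ev 0 : V) + A z) = (y - γ u) + (γ u - (u • (ev 0 : V) + A z)) := by abel
    rw [e]
    refine (norm_add_le _ _).trans ?_
    have e2 : 2 * κ / 2 ^ n = κ / 2 ^ n + κ / 2 ^ n := by ring
    rw [e2]
    exact add_le_add hy h1
  have h3 : 0 < κ / 2 ^ n := by positivity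
  have e4 : 4 * κ / 2 ^ n = 2 * κ / 2 ^ n + κ / 2 ^ n + κ / 2 ^ n := by ring
  have e5 : 2 * κ / 2 ^ n = κ / 2 ^ n + κ / 2 ^ n := by ring
  constructor
  · have h4 := (norm_le_pi_norm _ (0 : Fin 3)).trans h2
    have e0 : (y - (u • (ev 0 : V) + A z)) 0 = y 0 - (u + A z 0) := by simp [ev]
    rw [e0, Real.norm_eq_abs, abs_le] at h4
    obtain ⟨h5, h6⟩ := hu
    have e1 : ((z : ℝ) + 2 * ϑ) / 2 ^ n = (z + 1 / 2) / 2 ^ n - (1 / 2 - 2 * ϑ) / 2 ^ n := by ring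
    have e2 : ((z : ℝ) + 1 - 2 * ϑ) / 2 ^ n = (z + 1 / 2) / 2 ^ n + (1 / 2 - 2 * ϑ) / 2 ^ n := by
      ring
    have e3 : (1 / 2 - 2 * ϑ + 4 * κ) / 2 ^ n = (1 / 2 - 2 * ϑ) / 2 ^ n + 4 * κ / 2 ^ n := by ring
    rw [e1] at h5
    rw [e2] at h6
    rw [abs_le, e3]
    constructor <;> linarith [h4.1, h4.2]
  · intro j hj
    have h4 := (norm_le_pi_norm _ j).trans h2
    have e0 : (y - (u • (ev 0 : V) + A z)) j = y j - A z j := by simp [ev, hj]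
    rw [e0, Real.norm_eq_abs] at h4
    linarith

/-- the number of the beams -/
theorem card_beams {m₀ : ℕ} {z₀ z₁ : ℤ} (hz : z₀ < z₁) (hn : m₀ ≤ n)
    (hsub : ∀ z ∈ J, iv v₀ n z ⊆ Icc (v₀ + z₀ / 2 ^ m₀) (v₀ + z₁ / 2 ^ m₀)) :
    (J.card : ℝ) / 2 ^ n ≤ (z₁ - z₀) / 2 ^ m₀ := by
  obtain ⟨d, rfl⟩ := Nat.exists_eq_add_of_le hn
  have hp : (0:ℝ) < 2 ^ (m₀ + d) := by positivity
  have hm : (0:ℝ) < 2 ^ m₀ := by positivity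
  have hd : (0:ℝ) < 2 ^ d := by positivity
  have e1 : ∀ a : ℤ, (a : ℝ) / 2 ^ m₀ = ((a * 2 ^ d : ℤ) : ℝ) / 2 ^ (m₀ + d) := by
    intro a
    rw [pow_add]; push_cast; field_simp
  have h1 : J ⊆ Finset.Ico (z₀ * 2 ^ d) (z₁ * 2 ^ d) := by
    intro z hzJ
    have hi : (0:ℝ) ≤ 1 / 2 ^ (m₀ + d) := by positivity
    have e2 : ((z : ℝ) + 1) / 2 ^ (m₀ + d) = z / 2 ^ (m₀ + d) + 1 / 2 ^ (m₀ + d) := by ring
    have a1 := (hsub z hzJ (show v₀ + z / 2 ^ (m₀ + d) ∈ iv v₀ (m₀ + d) z from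
      ⟨le_rfl, by rw [e2]; linarith⟩)).1
    have a2 := (hsub z hzJ (show v₀ + (z + 1) / 2 ^ (m₀ + d) ∈ iv v₀ (m₀ + d) z from
      ⟨by rw [e2]; linarith, le_rfl⟩)).2
    rw [e1] at a1 a2
    have b1 : ((z₀ * 2 ^ d : ℤ) : ℝ) ≤ z := by
      have : ((z₀ * 2 ^ d : ℤ) : ℝ) / 2 ^ (m₀ + d) ≤ z / 2 ^ (m₀ + d) := by linarith
      exact (div_le_div_iff_of_pos_right hp).1 this
    have b2 : (z : ℝ) + 1 ≤ ((z₁ * 2 ^ d : ℤ) : ℝ) := by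
      have : ((z : ℝ) + 1) / 2 ^ (m₀ + d) ≤ ((z₁ * 2 ^ d : ℤ) : ℝ) / 2 ^ (m₀ + d) := by linarith
      exact (div_le_div_iff_of_pos_right hp).1 this
    rw [Finset.mem_Ico]
    constructor
    · exact_mod_cast b1
    · have : z + 1 ≤ z₁ * 2 ^ d := by exact_mod_cast b2
      omega
  have h2 := Finset.card_le_card h1
  rw [Int.card_Ico] at h2
  have h3 : (J.card : ℤ) ≤ z₁ * 2 ^ d - z₀ * 2 ^ d := by
    have hnn : 0 ≤ z₁ * 2 ^ d - z₀ * 2 ^ d := by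
      have : (0:ℤ) < 2 ^ d := by positivity
      nlinarith
    have := Int.toNat_of_nonneg hnn
    omega
  have h4 : (J.card : ℝ) ≤ z₁ * 2 ^ d - z₀ * 2 ^ d := by exact_mod_cast h3
  rw [sub_div, e1, e1, ← sub_div]
  gcongr
  push_cast
  exact h4

theorem volume_ivm_le (hϑ0 : 0 ≤ ϑ) (z : ℤ) :
    volume (ivm v₀ ϑ n z) ≤ ENNReal.ofReal (1 / 2 ^ n) := by
  unfold ivm
  rw [Real.volume_Icc]
  apply ENNReal.ofReal_le_ofReal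
  have : v₀ + ((z : ℝ) + 1 - ϑ) / 2 ^ n - (v₀ + (z + ϑ) / 2 ^ n) = (1 - 2 * ϑ) / 2 ^ n := by ring
  rw [this]
  gcongr
  linarith

/-- the lost length -/
theorem lost_le {m₀ : ℕ} {z₀ z₁ : ℤ} {c : ℝ} (hc : 0 ≤ c) (hϑ0 : 0 ≤ ϑ)
    (hvol : volume (Icc (v₀ + z₀ / 2 ^ m₀) (v₀ + z₁ / 2 ^ m₀) \ ⋃ z ∈ J, ivm v₀ ϑ n z) ≤
      ENNReal.ofReal c) : (z₁ - z₀ : ℝ) / 2 ^ m₀ ≤ c + (J.card : ℝ) / 2 ^ n := by
  have h1 : volume (Icc (v₀ + (z₀ : ℝ) / 2 ^ m₀) (v₀ + z₁ / 2 ^ m₀)) ≤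
      ENNReal.ofReal c + ENNReal.ofReal ((J.card : ℝ) / 2 ^ n) := by
    calc volume (Icc (v₀ + (z₀ : ℝ) / 2 ^ m₀) (v₀ + z₁ / 2 ^ m₀))
        ≤ volume ((Icc (v₀ + (z₀ : ℝ) / 2 ^ m₀) (v₀ + z₁ / 2 ^ m₀) \ ⋃ z ∈ J, ivm v₀ ϑ n z) ∪
            ⋃ z ∈ J, ivm v₀ ϑ n z) := by
          refine measure_mono fun x hx => ?_
          by_cases h : x ∈ ⋃ z ∈ J, ivm v₀ ϑ n z
          · exact Or.inr h
          · exact Or.inl ⟨hx, h⟩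
      _ ≤ _ := (measure_union_le _ _).trans (add_le_add hvol ?_)
    calc volume (⋃ z ∈ J, ivm v₀ ϑ n z) ≤ ∑ z ∈ J, volume (ivm v₀ ϑ n z) :=
          measure_biUnion_finset_le _ _
      _ ≤ ∑ _z ∈ J, ENNReal.ofReal (1 / 2 ^ n) := Finset.sum_le_sum fun z _ =>
          volume_ivm_le hϑ0 z
      _ = ENNReal.ofReal ((J.card : ℝ) / 2 ^ n) := by
          rw [Finset.sum_const, nsmul_eq_mul, ← ENNReal.ofReal_natCast,
            ← ENNReal.ofReal_mul (Nat.cast_nonneg _)]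
          congr 1
          ring
  rw [Real.volume_Icc, ← ENNReal.ofReal_add hc (by positivity),
    ENNReal.ofReal_le_ofReal_iff (by positivity)] at h1
  have : v₀ + (z₁ : ℝ) / 2 ^ m₀ - (v₀ + z₀ / 2 ^ m₀) = (z₁ - z₀) / 2 ^ m₀ := by ring
  rwa [this] at h1

/-- **[BEAM-T]**, the compact set and the radius before the generation of the target grid -/
theorem beamCol : ∀ ε : ℝ, 0 < ε → ∃ κ > 0, ∀ (v₀ : ℝ) (m₀ : ℕ) (z₀ z₁ : ℤ) (Λ : Set V)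
    (γ : ℝ → V) (ψ : ℝ → ℝ), z₀ < z₁ → (z₁ - z₀ : ℝ) / 2 ^ m₀ ≤ 1 → IsOpen Λ →
    ContinuousOn γ (Icc (v₀ + z₀ / 2 ^ m₀) (v₀ + z₁ / 2 ^ m₀)) →
    MapsTo γ (Icc (v₀ + z₀ / 2 ^ m₀) (v₀ + z₁ / 2 ^ m₀)) Λ →
    IntegrableOn ψ (Icc (v₀ + z₀ / 2 ^ m₀) (v₀ + z₁ / 2 ^ m₀)) → (∀ t, 0 ≤ ψ t) →
    (∀ s t, v₀ + z₀ / 2 ^ m₀ ≤ s → s ≤ t → t ≤ v₀ + z₁ / 2 ^ m₀ →
      ‖(γ t - t • ev 0) - (γ s - s • ev 0)‖ ≤ ∫ x in s..t, ψ x) →
    ∫ x in Icc (v₀ + z₀ / 2 ^ m₀) (v₀ + z₁ / 2 ^ m₀), ψ x ≤ κ →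
    ∃ n₀ : ℕ, ∀ n₃ ≥ n₀, ∃ (G : Finset ℤ) (mt₀ : ℕ) (K : Set V) (r : ℝ), 0 < r ∧ K ⊆ Λ ∧
      IsCompact K ∧
      -- the good intervals of generation `n₃`
      (∀ k ∈ G, iv v₀ n₃ k ⊆ Icc (v₀ + z₀ / 2 ^ m₀) (v₀ + z₁ / 2 ^ m₀)) ∧
      (z₁ - z₀ : ℝ) / 2 ^ m₀ - (G.card : ℝ) / 2 ^ n₃ ≤ ε ∧
      -- the collapse
      ∀ mt ≥ mt₀, ∀ δ > 0, ∃ T : ConHomeo Λ Λ, (∀ y, y ∉ K → T.toFun y = y) ∧
        (∀ y y', ‖T.toFun y - T.toFun y'‖ ≤ 2 * ‖y - y'‖) ∧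
        (∀ y, ‖T.toFun y - y‖ ≤ ε) ∧ (∀ y, T.toFun y 0 = y 0) ∧
        ∀ k ∈ G, ∃ t : Fin 3 → ℤ, ∀ u ∈ iv v₀ n₃ k, ∀ y, ‖y - γ u‖ ≤ r → ∀ j, j ≠ 0 →
          |T.toFun y j - t j / 2 ^ mt| ≤ δ / 2 ^ mt := by
  intro ε hε
  set ϑ : ℝ := min (1 / 4) (ε / 14) with hϑ
  have hϑ0 : 0 < ϑ := lt_min (by norm_num) (by positivity)
  have hϑ1 : ϑ ≤ 1 / 4 := min_le_left _ _
  have hϑε : 14 * ϑ ≤ ε := by
    have : ϑ ≤ ε / 14 := min_le_right _ _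
    linarith
  set κ : ℝ := ϑ / 32 with hκ
  have hκ0 : 0 < κ := by positivity
  refine ⟨κ * ε / 2000, by positivity, ?_⟩
  intro v₀ m₀ z₀ z₁ Λ γ ψ hz hlen hΛ hγc hγm hψ h0 hγ hsm
  have hzR : (z₀ : ℝ) < z₁ := by exact_mod_cast hz
  have hev := Seg.specSeg κ ϑ hκ0 (by rw [hκ]; linarith) hϑ1 v₀ m₀ z₀ z₁ Λ γ ψ hz hΛ hγc hγm hψ
    h0 hγ
  obtain ⟨n, ⟨J, A, H, hJ, hvol⟩, hn⟩ := (hev.and (eventually_ge_atTop m₀)).exists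
  have h2n : (0:ℝ) < 2 ^ n := by positivity
  -- the thresholds
  obtain ⟨d₀, hd₀⟩ : ∃ d₀ : ℕ, ∀ d ≥ d₀, 2 / ϑ ≤ 2 ^ d := by
    obtain ⟨d₀, hd⟩ := pow_unbounded_of_one_lt (2 / ϑ) (show (1:ℝ) < 2 by norm_num)
    exact ⟨d₀, fun d hd' => hd.le.trans (pow_le_pow_right₀ (by norm_num) hd')⟩
  obtain ⟨mt₀, hmt₀⟩ : ∃ mt₀ : ℕ, ∀ mt ≥ mt₀, (1:ℝ) / 2 ^ mt ≤ κ / 2 ^ n := by
    obtain ⟨k, hk⟩ := pow_unbounded_of_one_lt (2 ^ n / κ) (show (1:ℝ) < 2 by norm_num)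
    refine ⟨k, fun mt hmt => ?_⟩
    rw [div_le_div_iff₀ (by positivity) h2n, one_mul]
    have h1 : (2:ℝ) ^ n / κ ≤ 2 ^ mt := hk.le.trans (pow_le_pow_right₀ (by norm_num) hmt)
    rw [div_le_iff₀ hκ0] at h1
    linarith
  refine ⟨n + d₀, fun n₃ hn₃ => ?_⟩
  obtain ⟨d, rfl⟩ := Nat.exists_eq_add_of_le ((Nat.le_add_right n d₀).trans hn₃)
  have hd : 2 / ϑ ≤ (2:ℝ) ^ d := hd₀ d (by omega)
  have h2d : (0:ℝ) < 2 ^ d := by positivity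
  set e : ℤ := ⌈2 * ϑ * 2 ^ d⌉ with he
  have he1 : 2 * ϑ * 2 ^ d ≤ e := Int.le_ceil _
  have he2 : (e : ℝ) < 2 * ϑ * 2 ^ d + 1 := Int.ceil_lt_add_one _
  have he0 : 0 ≤ e := by
    have : (0:ℝ) ≤ e := le_trans (by positivity) he1
    exact_mod_cast this
  refine ⟨gint J d e, mt₀, Kc v₀ n A κ ϑ J, κ / 2 ^ n, by positivity,
    Kc_sub H hκ0 le_rfl hϑ1, isCompact_Kc _ _ _ _ _ _, ?_, ?_, ?_⟩
  · intro k hk
    obtain ⟨z, hzJ, h1, h2⟩ := mem_gint.1 hk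
    exact ((iv_sub_ivm he1 h1 h2).trans (ivm_sub (by linarith))).trans (hJ z hzJ)
  · have h1 := card_beams hz hn hJ
    have h2 := card_gint (J := J) (d := d) he0
    have hJ0 : (0:ℝ) ≤ J.card := Nat.cast_nonneg _
    have h3 : (J.card : ℝ) * (2 ^ d * (1 - 5 * ϑ)) ≤ (gint J d e).card := by
      refine le_trans ?_ h2
      rw [Int.cast_natCast]
      apply mul_le_mul_of_nonneg_left _ hJ0
      rw [div_le_iff₀ hϑ0] at hd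
      linarith
    have h4 : (J.card : ℝ) / 2 ^ n - 5 * ϑ ≤ ((gint J d e).card : ℝ) / 2 ^ (n + d) := by
      have e1 : (J.card : ℝ) / 2 ^ n * (1 - 5 * ϑ) =
          ((J.card : ℝ) * (2 ^ d * (1 - 5 * ϑ))) / 2 ^ (n + d) := by
        rw [pow_add]; field_simp
      have h5 : (J.card : ℝ) / 2 ^ n * (1 - 5 * ϑ) ≤ ((gint J d e).card : ℝ) / 2 ^ (n + d) := by
        rw [e1]
        gcongr
      have h6 : (J.card : ℝ) / 2 ^ n * (5 * ϑ) ≤ 1 * (5 * ϑ) := by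
        apply mul_le_mul_of_nonneg_right (h1.trans hlen) (by positivity)
      linarith
    have hint : 0 ≤ ∫ t in Icc (v₀ + (z₀ : ℝ) / 2 ^ m₀) (v₀ + z₁ / 2 ^ m₀), ψ t :=
      integral_nonneg h0
    have hl0 : 0 ≤ ((z₁ : ℝ) - z₀) / 2 ^ m₀ := div_nonneg (by linarith) (by positivity)
    have h5 := lost_le (c := 1000 / κ * (∫ t in Icc (v₀ + (z₀ : ℝ) / 2 ^ m₀)
      (v₀ + z₁ / 2 ^ m₀), ψ t) + 2 * ϑ * ((z₁ - z₀) / 2 ^ m₀)) (by positivity) hϑ0.le hvol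
    have h6 : 1000 / κ * (∫ t in Icc (v₀ + (z₀ : ℝ) / 2 ^ m₀) (v₀ + z₁ / 2 ^ m₀), ψ t) ≤
        ε / 2 := by
      calc 1000 / κ * (∫ t in Icc (v₀ + (z₀ : ℝ) / 2 ^ m₀) (v₀ + z₁ / 2 ^ m₀), ψ t)
          ≤ 1000 / κ * (κ * ε / 2000) := by gcongr
        _ = ε / 2 := by field_simp; norm_num
    have h7 : 2 * ϑ * (((z₁ : ℝ) - z₀) / 2 ^ m₀) ≤ 2 * ϑ * 1 := by gcongr
    linarith
  · intro mt hmt δ hδ
    obtain ⟨T, h1, h2, h3, h4, h5⟩ := exists_T hΛ H hκ0 le_rfl hϑ1 (hmt₀ mt hmt) hδ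
    refine ⟨T, h1, h2, fun y => (h3 y).trans ?_, h4, fun k hk => ?_⟩
    · have h6 : (1:ℝ) ≤ 2 ^ n := one_le_pow₀ (by norm_num)
      refine (div_le_self (by positivity) h6).trans ?_
      rw [hκ]; linarith
    · obtain ⟨z, hzJ, h6, h7⟩ := mem_gint.1 hk
      obtain ⟨t, ht⟩ := h5 z hzJ
      refine ⟨t, fun u hu y hy => ?_⟩
      obtain ⟨h8, h9⟩ := near_good H hκ0 hϑ0.le hzJ (iv_sub_ivm he1 h6 h7 hu) hy
      exact ht y h8 h9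

/-- **[BEAM-T]** -/
theorem specBeamCol : SpecBeamCol := by
  intro ε hε
  obtain ⟨κ, hκ, h⟩ := beamCol ε hε
  refine ⟨κ, hκ, fun v₀ m₀ z₀ z₁ Λ γ ψ h1 h2 h3 h4 h5 h6 h7 h8 h9 => ?_⟩
  obtain ⟨n₀, hn₀⟩ := h v₀ m₀ z₀ z₁ Λ γ ψ h1 h2 h3 h4 h5 h6 h7 h8 h9
  refine ⟨n₀, fun n₃ hn₃ => ?_⟩
  obtain ⟨G, mt₀, K, r, hr, hK, hKc, hG1, hG2, hT⟩ := hn₀ n₃ hn₃
  refine ⟨G, mt₀, K, hK, hKc, hG1, hG2, fun mt hmt δ hδ => ?_⟩
  obtain ⟨T, t1, t2, t3, t4, t5⟩ := hT mt hmt δ hδ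
  refine ⟨T, r, hr, fun y _ => t1 y, fun y _ y' _ => t2 y y', fun y _ => t3 y,
    fun y _ => t4 y, fun k hk => ?_⟩
  obtain ⟨t, ht⟩ := t5 k hk
  exact ⟨t, fun u hu y _ hy => ht u hu y hy⟩

end Vale.Agent.P073.H687.BeamT
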