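import Vale.Agent.P073.H687.PD4b

/-!
# P073, A15 [PD4]: the sum over the cells off the cut zone
-/

open Set Metric Topology Filter Module MeasureTheory
open scoped ENNReal

namespace Vale.Agent.P073.H687.PD4

open Vale.Agent.P073.St (V Mat)
open Vale.Agent.P073.SQ (ev)
open Vale.Agent.P073.H73 (MinEdge segP Bix)
open Vale.Agent.P073.H194 (cellT refine sInt bInt Oc)
open Vale.Agent.P073.H333 (eInt_const_mul eInt_mono_on eInt_add_cst eInt_cst PD PD0 lay gap out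
  core base)
open Vale.Agent.P073.AB Vale.Agent.P073.AB.P86
open _root_.P073.Net (dyc dyo)

variable {p ε δ : ℝ} {Φ : ℕ → Finset (Fin 3 → ℤ) → ((Fin 3 → ℤ) → V → V) → ℝ}
  {Ω Λ : Set V} {f : V → V} {F : V → Mat} (D : PD p ε δ Φ Ω Λ f F)

/-- off the cut zone -/
def Off (i : Idx) : Prop := ∀ b ∈ D.Bx, ∀ x ∈ dyc D.v i.1 i.2, ∀ y ∈ b.cell D.A,
  1 / 2 ^ D.nr < ‖x - y‖

/-- one square -/
noncomputable def T (ℓ : Idx × Fin 3 → ℝ≥0∞) (i : Idx) (s : Idx × Fin 3) : ℝ≥0∞ :=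
  ∑' e : {e : Idx × Fin 3 // MinEdge D.v D.I e ∧ edge D.v e ⊆ squ D.v s},
    ENNReal.ofReal (1 / 2 ^ i.1 * (1 / 2 ^ s.1.1)) *
      (ENNReal.ofReal ((1 / 2 ^ e.1.1.1) ^ (1 - p)) * ℓ e.1 ^ p)

variable {D} in
theorem Off.mem {i : Idx} (h : Off D i) {x : V} (hx : x ∈ dyc D.v i.1 i.2) : x ∈ Oc D.Bx D.A := by
  intro hcon
  obtain ⟨b, hb, hxb⟩ := mem_iUnion₂.1 hcon
  have h1 := h b hb x hx x (interior_subset hxb)
  rw [sub_self, norm_zero] at h1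
  have : (0:ℝ) < 1 / 2 ^ D.nr := by positivity
  linarith

open Classical in
/-- the divided edges off the cells -/
noncomputable def ellD (e : Idx × Fin 3) : ℝ≥0∞ :=
  if D.Div e ∧ ∀ x ∈ edge D.v e, x ∈ Oc D.Bx D.A then D.ell e else 0

theorem ellD_le {e : Idx × Fin 3} (he : MinEdge D.v D.I e) : ellD D e ≤ eInt D.v e D.gD := by
  unfold ellD
  split_ifs with h
  · exact D.ell_div he h.1 h.2
  · exact bot_le

/-- the density of the divided squares -/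
theorem gD_rpow (x : V) : D.gD x ^ p ≤
    2 ^ (p - 1) * 4356 ^ p * D.Hw p x + 2 ^ (p - 1) * ENNReal.ofReal D.β ^ p := by
  have hp1 : 1 ≤ p := by linarith [D.hp]
  have hp0 : 0 < p := by linarith
  unfold PD.gD
  refine (ENNReal.rpow_add_le_mul_rpow_add_rpow _ _ hp1).trans ?_
  rw [mul_add, mul_assoc]
  gcongr
  rw [ENNReal.mul_rpow_of_nonneg _ _ hp0.le]
  gcongr
  rw [ENNReal.mul_rpow_of_nonneg _ _ hp0.le, ← ENNReal.rpow_mul, one_div,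
    inv_mul_cancel₀ hp0.ne', ENNReal.rpow_one]
  exact le_rfl

theorem two_ne_top {p : ℝ} (hp : 1 ≤ p) : (2:ℝ≥0∞) ^ (p - 1) * 4356 ^ p ≠ ⊤ := by
  apply ENNReal.mul_ne_top
  · exact ENNReal.rpow_ne_top_of_nonneg (by linarith) (by norm_num)
  · exact ENNReal.rpow_ne_top_of_nonneg (by linarith) (by norm_num)

/-- the divided cubes -/
theorem part_div : ∑' i : {i // (i ∈ D.I ∧ Off D i) ∧ i ∉ D.P},
      ∑' s : {s // MinSq D.v D.I s ∧ squ D.v s ⊆ dyc D.v i.1.1 i.1.2}, T D D.ell i.1 s.1 ≤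
    2 ^ (p - 1) * (4356 ^ p * (36 * D.εI + D.εe) +
      24 * ENNReal.ofReal D.β ^ p * volume Ω) := by
  have hp1 : 1 ≤ p := by linarith [D.hp]
  have h1 : ∀ i : {i // (i ∈ D.I ∧ Off D i) ∧ i ∉ D.P},
      ∑' s : {s // MinSq D.v D.I s ∧ squ D.v s ⊆ dyc D.v i.1.1 i.1.2}, T D D.ell i.1 s.1 ≤
      cellT D.v D.I univ (fun x => D.gD x ^ p) i.1 := by
    rintro ⟨i, ⟨hi, hoff⟩, hiP⟩
    refine cell_sum_le hp1 D.bΩ.1 D.part i D.gD D.ell fun s hs hsi e he hes => ?_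
    have hdiv : D.Div e := by
      obtain ⟨q, hq, hiq⟩ : ∃ q ∈ D.Ib \ D.P, dyc D.v i.1 i.2 ⊆ dyc D.v q.1 q.2 := by
        rw [D.diff_eq]
        rcases D.ref.cases hi with h | ⟨-, q, hq, h, -⟩ | ⟨-, q, hq, h, -⟩
        · exact absurd h hiP
        · exact ⟨q, hq, h.trans dyo_sub_dyc⟩
        · exact ⟨q, hq, h⟩
      exact ⟨s, hs, hes, q, hq, hsi.trans hiq⟩
    exact D.ell_div he hdiv fun x hx => hoff.mem (hsi (hes hx))
  calc _ ≤ ∑' i : {i // (i ∈ D.I ∧ Off D i) ∧ i ∉ D.P},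
        cellT D.v D.I univ (fun x => D.gD x ^ p) i.1 := ENNReal.tsum_le_tsum h1
    _ ≤ 2 ^ (p - 1) * 4356 ^ p * ∑' i : {i // (i ∈ D.I ∧ Off D i) ∧ i ∉ D.P},
          cellT D.v D.I univ (D.Hw p) i.1 +
          24 * (2 ^ (p - 1) * ENNReal.ofReal D.β ^ p) * volume Ω :=
        sum_cellT_lin D.bΩ.1 D.part (fun i h => h.1.1) univ (two_ne_top hp1) (gD_rpow D)
    _ ≤ 2 ^ (p - 1) * 4356 ^ p * (36 * D.εI + D.εe) +
          24 * (2 ^ (p - 1) * ENNReal.ofReal D.β ^ p) * volume Ω := by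
        gcongr
        calc ∑' i : {i // (i ∈ D.I ∧ Off D i) ∧ i ∉ D.P}, cellT D.v D.I univ (D.Hw p) i.1
            ≤ ∑' i : {i // i ∈ D.I ∧ i ∉ D.P}, cellT D.v D.I univ (D.Hw p) i.1 :=
              tsum_sub_le (Q := fun i => (i ∈ D.I ∧ Off D i) ∧ i ∉ D.P)
                (Q' := fun i => i ∈ D.I ∧ i ∉ D.P) (fun i h => ⟨h.1.1, h.2⟩) fun i =>
                cellT D.v D.I univ (D.Hw p) i
          _ ≤ 36 * (∫⁻ x in ⋃ q ∈ D.Ib \ D.P, dyc D.v q.1 q.2, D.Hw p x) +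
                ∑' q : (D.Ib \ D.P : Set Idx), D.e q := D.mesh.sum
          _ ≤ 36 * D.εI + D.εe := by
              gcongr
              · exact D.int
              · exact (ENNReal.tsum_mono_subtype D.e Set.sdiff_subset).trans D.esum
    _ = _ := by ring

/-- the squares of kept cubes on divided cubes -/
def DSq (i : Idx) (s : Idx × Fin 3) : Prop :=
  (MinSq D.v D.I s ∧ squ D.v s ⊆ dyc D.v i.1 i.2) ∧
    ∃ r ∈ D.Ib \ D.P, squ D.v s ⊆ dyc D.v r.1 r.2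

theorem part_kept_div : ∑' i : {i // (i ∈ D.I ∧ Off D i) ∧ ¬ i ∉ D.P},
      ∑' s : {s // DSq D i.1 s}, T D D.ell i.1 s.1 ≤
    2 ^ (p - 1) * (4356 ^ p * (36 * (ENNReal.ofReal (1 + 4 * (2 / D.a₁)) ^ p *
        (ENNReal.ofReal (1 / 2 ^ D.k₁) * (6 * (∫⁻ x, D.G x) + 1) +
          ENNReal.ofReal D.M ^ p * (6 * ENNReal.ofReal (12 / 2 ^ D.k₁) * volume Ω))) + D.εe) +
        24 * ENNReal.ofReal D.β ^ p * volume Ω) := by
  have hp1 : 1 ≤ p := by linarith [D.hp]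
  set A : Set V := ⋃ r ∈ D.Ib \ D.P, dyc D.v r.1 r.2 with hA
  have h1 : ∀ i : {i // (i ∈ D.I ∧ Off D i) ∧ ¬ i ∉ D.P},
      ∑' s : {s // DSq D i.1 s}, T D D.ell i.1 s.1 ≤
      cellT D.v D.I A (fun x => D.gD x ^ p) i.1 := by
    rintro ⟨i, ⟨hi, hoff⟩, hiP⟩
    calc ∑' s : {s // DSq D i s}, T D D.ell i s.1
        = ∑' s : {s // DSq D i s}, T D (ellD D) i s.1 := by
          refine tsum_congr fun s => ?_
          unfold T
          refine tsum_congr fun e => ?_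
          have h2 : ellD D e.1 = D.ell e.1 := by
            unfold ellD
            rw [if_pos]
            obtain ⟨⟨hs1, hs2⟩, r, hr, hs3⟩ := s.2
            exact ⟨⟨s.1, hs1, e.2.2, r, hr, hs3⟩, fun x hx => hoff.mem (hs2 (e.2.2 hx))⟩
          rw [h2]
      _ ≤ ∑' s : {s // MinSq D.v D.I s ∧ squ D.v s ⊆ dyc D.v i.1 i.2 ∧ squ D.v s ⊆ A},
          T D (ellD D) i s.1 := by
          refine tsum_sub_le (Q := DSq D i)
            (Q' := fun s => MinSq D.v D.I s ∧ squ D.v s ⊆ dyc D.v i.1 i.2 ∧ squ D.v s ⊆ A)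
            (fun s h => ⟨h.1.1, h.1.2, ?_⟩) (T D (ellD D) i)
          obtain ⟨r, hr, hsr⟩ := h.2
          exact hsr.trans (subset_iUnion₂
            (s := fun (r : Idx) (_ : r ∈ D.Ib \ D.P) => dyc D.v r.1 r.2) r hr)
      _ ≤ _ := cell_sum_le_set hp1 D.bΩ.1 D.part i A D.gD (ellD D)
          fun s _ _ _ e he _ => ellD_le D he
  calc _ ≤ ∑' i : {i // (i ∈ D.I ∧ Off D i) ∧ ¬ i ∉ D.P},
        cellT D.v D.I A (fun x => D.gD x ^ p) i.1 := ENNReal.tsum_le_tsum h1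
    _ ≤ 2 ^ (p - 1) * 4356 ^ p * ∑' i : {i // (i ∈ D.I ∧ Off D i) ∧ ¬ i ∉ D.P},
          cellT D.v D.I A (D.Hw p) i.1 +
          24 * (2 ^ (p - 1) * ENNReal.ofReal D.β ^ p) * volume Ω :=
        sum_cellT_lin D.bΩ.1 D.part (fun i h => h.1.1) A (two_ne_top hp1) (gD_rpow D)
    _ ≤ 2 ^ (p - 1) * 4356 ^ p * (36 * (ENNReal.ofReal (1 + 4 * (2 / D.a₁)) ^ p *
        (ENNReal.ofReal (1 / 2 ^ D.k₁) * (6 * (∫⁻ x, D.G x) + 1) +
          ENNReal.ofReal D.M ^ p * (6 * ENNReal.ofReal (12 / 2 ^ D.k₁) * volume Ω))) + D.εe) +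
          24 * (2 ^ (p - 1) * ENNReal.ofReal D.β ^ p) * volume Ω := by
        gcongr
        calc ∑' i : {i // (i ∈ D.I ∧ Off D i) ∧ ¬ i ∉ D.P}, cellT D.v D.I A (D.Hw p) i.1
            ≤ ∑' i : {i // i ∈ D.P}, cellT D.v D.I A (D.Hw p) i.1 :=
              tsum_sub_le (Q := fun i => (i ∈ D.I ∧ Off D i) ∧ ¬ i ∉ D.P)
                (Q' := fun i => i ∈ D.P) (fun i h => not_not.1 h.2) fun i =>
                cellT D.v D.I A (D.Hw p) i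
          _ ≤ ∑' i : {i // i ∈ D.P}, (36 * ∑' s : {s // BSq D i.1 s},
                ENNReal.ofReal (1 / 2 ^ i.1.1) * sInt D.v s.1 (D.Hw p) + D.e i.1) :=
              ENNReal.tsum_le_tsum fun i => D.mesh.kept i.1 i.2
          _ = 36 * (∑' i : {i // i ∈ D.P}, ∑' s : {s // BSq D i.1 s},
                ENNReal.ofReal (1 / 2 ^ i.1.1) * sInt D.v s.1 (D.Hw p)) +
                ∑' i : {i // i ∈ D.P}, D.e i.1 := by
              rw [ENNReal.tsum_add, ENNReal.tsum_mul_left]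
          _ ≤ _ := by
              gcongr
              · exact sum_base D
              · refine (tsum_sub_le (Q := fun i => i ∈ D.P) (Q' := fun i => i ∈ D.Ib)
                  (fun i h => H669.lay_gap_sub h) D.e).trans D.esum
    _ = _ := by ring

theorem part_kept : ∑' i : {i // (i ∈ D.I ∧ Off D i) ∧ ¬ i ∉ D.P},
      ∑' s : {s // (MinSq D.v D.I s ∧ squ D.v s ⊆ dyc D.v i.1.1 i.1.2) ∧
        ¬ ∃ r ∈ D.Ib \ D.P, squ D.v s ⊆ dyc D.v r.1 r.2}, T D D.ell i.1 s.1 ≤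
    24 * D.Kk p * (ENNReal.ofReal (12 / 2 ^ D.k₁) * volume Ω) := by
  have hp1 : 1 ≤ p := by linarith [D.hp]
  have h1 := kept_kept_sum (B := D.Bg) (nf := D.nf) (k₀ := D.k₀) D.bΩ.1 hp1 D.part (fun s hs => by
      rcases D.ref.minSq D.bΩ.1 hs with ⟨r, hr, hf⟩ | h | h
      · obtain ⟨q, hq, hsq⟩ := D.div_of_fine hr (s := s) (H194.face_sub hf)
        rw [D.diff_eq] at hq
        exact Or.inl ⟨q, hq, hsq⟩
      · exact Or.inr (Or.inl h)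
      · exact Or.inr (Or.inr h)) (gk := D.gk) (K := D.Kk p)
    (fun z hz e he hez => D.own_gk hz he hez) (ℓ := D.ell) (fun e he h => D.ell_kept he h)
  refine le_trans ?_ (h1.trans ?_)
  · refine le_trans (tsum_sub_le (Q := fun i => (i ∈ D.I ∧ Off D i) ∧ ¬ i ∉ D.P)
      (Q' := fun i => i ∈ D.P) (fun i h => not_not.1 h.2) fun i =>
        ∑' s : {s // (MinSq D.v D.I s ∧ squ D.v s ⊆ dyc D.v i.1 i.2) ∧
        ¬ ∃ r ∈ D.Ib \ D.P, squ D.v s ⊆ dyc D.v r.1 r.2}, T D D.ell i s.1) ?_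
    refine ENNReal.tsum_le_tsum fun i => ?_
    refine tsum_sub_le (Q := fun s => (MinSq D.v D.I s ∧ squ D.v s ⊆ dyc D.v i.1.1 i.1.2) ∧
        ¬ ∃ r ∈ D.Ib \ D.P, squ D.v s ⊆ dyc D.v r.1 r.2)
      (Q' := fun s => MinSq D.v D.I s ∧ squ D.v s ⊆ dyc D.v i.1.1 i.1.2 ∧
        ∀ r ∈ out Ω D.v D.n D.k₁ D.k₀ D.J ∪ core D.v D.n D.k₁ D.J,
          ¬ squ D.v s ⊆ dyc D.v r.1 r.2) (fun s h => ⟨h.1.1, h.1.2, fun r hr hsr => ?_⟩)
      (T D D.ell i.1)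
    rw [← D.diff_eq] at hr
    exact h.2 ⟨r, hr, hsr⟩
  · gcongr
    exact cells_volume_le (by positivity) D

/-- **[PD4]** -/
theorem sum : ∑' i : {i : Idx // i ∈ D.I ∧ ∀ b ∈ D.Bx, ∀ x ∈ dyc D.v i.1 i.2,
      ∀ y ∈ b.cell D.A, 1 / 2 ^ D.nr < ‖x - y‖},
    ∑' s : {s : Idx × Fin 3 // MinSq D.v D.I s ∧ squ D.v s ⊆ dyc D.v i.1.1 i.1.2},
      ∑' e : {e : Idx × Fin 3 // MinEdge D.v D.I e ∧ edge D.v e ⊆ squ D.v s.1},
        ENNReal.ofReal (1 / 2 ^ i.1.1 * (1 / 2 ^ s.1.1.1)) *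
          (ENNReal.ofReal ((1 / 2 ^ e.1.1.1) ^ (1 - p)) * D.ell e.1 ^ p) ≤
    ENNReal.ofReal ε := by
  have h1 := tsum_split (fun i => i ∈ D.I ∧ Off D i) (fun i => i ∉ D.P)
    (E := fun i => ∑' s : {s // MinSq D.v D.I s ∧ squ D.v s ⊆ dyc D.v i.1 i.2},
      T D D.ell i s.1)
    (H₁ := fun i => ∑' s : {s // MinSq D.v D.I s ∧ squ D.v s ⊆ dyc D.v i.1 i.2},
      T D D.ell i s.1)
    (H₂ := fun i => ∑' s : {s // DSq D i s}, T D D.ell i s.1 +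
      ∑' s : {s // (MinSq D.v D.I s ∧ squ D.v s ⊆ dyc D.v i.1 i.2) ∧
        ¬ ∃ r ∈ D.Ib \ D.P, squ D.v s ⊆ dyc D.v r.1 r.2}, T D D.ell i s.1)
    (fun _ _ _ => le_rfl) (fun i _ _ =>
      tsum_split (fun s => MinSq D.v D.I s ∧ squ D.v s ⊆ dyc D.v i.1 i.2)
        (fun s => ∃ r ∈ D.Ib \ D.P, squ D.v s ⊆ dyc D.v r.1 r.2) (E := T D D.ell i)
        (fun _ _ _ => le_rfl) (fun _ _ _ => le_rfl))
  refine h1.trans (le_trans ?_ D.b3)
  refine add_le_add (part_div D) ?_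
  rw [ENNReal.tsum_add]
  exact add_le_add (part_kept_div D) (part_kept D)

end Vale.Agent.P073.H687.PD4

namespace Vale.Agent.P073.H333.PD

open MeasureTheory Vale.Agent.P073.St Vale.Agent.P073.AB
open Vale.Agent.P073.H73 (MinEdge)
open _root_.P073.Net (dyc)

variable {p ε δ : ℝ} {Φ : ℕ → Finset (Fin 3 → ℤ) → ((Fin 3 → ℤ) → V → V) → ℝ}
  {Ω Λ : Set V} {f : V → V} {F : V → Mat} (D : PD p ε δ Φ Ω Λ f F)

/-- **[PD4]** -/
theorem sum : ∑' i : {i : Idx // i ∈ D.I ∧ ∀ b ∈ D.Bx, ∀ x ∈ dyc D.v i.1 i.2,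
      ∀ y ∈ b.cell D.A, 1 / 2 ^ D.nr < ‖x - y‖},
    ∑' s : {s : Idx × Fin 3 // MinSq D.v D.I s ∧ squ D.v s ⊆ dyc D.v i.1.1 i.1.2},
      ∑' e : {e : Idx × Fin 3 // MinEdge D.v D.I e ∧ edge D.v e ⊆ squ D.v s.1},
        ENNReal.ofReal (1 / 2 ^ i.1.1 * (1 / 2 ^ s.1.1.1)) *
          (ENNReal.ofReal ((1 / 2 ^ e.1.1.1) ^ (1 - p)) * D.ell e.1 ^ p) ≤
    ENNReal.ofReal ε :=
  H687.PD4.sum D

end Vale.Agent.P073.H333.PD
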