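import Vale.Agent.P073.H687.PB

/-!
# P073, rank one, `2 ≤ p < 3`: tools for the assembly of `PreBeam`
-/

namespace Vale.Agent.P073.H687

open MeasureTheory Set Filter Topology Metric Vale.Agent.P073.St Vale.Agent.P073.AB
open Vale.Agent.P073.SQ (ev)
open Vale.Agent.P073.H194 (sInt RgN KRN up cW Sc sc_up mem_rectN mem_redgeN squ_sub_RgN eInSq)
open Vale.Agent.P073.H235 (Bx bm fl Co Fr P1 cmp cmpD Kc norm_sub_dyc half_pow_le
  squ_sub_of_sc)
open Vale.Agent.P073.H253 (rectN redgeN ledge xL BVData lpt PreBeam jv mem_ledge eInt_ledge)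
open Vale.Agent.P073.H732 (XL upz)
open _root_.P073 (ConHomeo)
open _root_.P073.Net (dyc dyo)
open scoped ENNReal

/-! ### The measure on the line -/

theorem measurable_lpt (c₁ c₂ : ℝ) : Measurable fun u : ℝ => lpt c₁ c₂ u := by
  refine measurable_pi_lambda _ fun i => ?_
  fin_cases i
  · exact measurable_id
  · exact measurable_const
  · exact measurable_const

/-- the measure on the edges `k ∈ S` of the line -/
noncomputable def lineM (v : V) (n : ℕ) (k₁ k₂ : ℤ) (S : Finset ℤ) : Measure V :=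
  ∑ k ∈ S, (volume.restrict (jv (v 0) (1 / 2 ^ n) k)).map
    fun u => lpt (v 1 + k₁ / 2 ^ n) (v 2 + k₂ / 2 ^ n) u

instance (v : V) (n : ℕ) (k₁ k₂ : ℤ) (S : Finset ℤ) : SFinite (lineM v n k₁ k₂ S) := by
  unfold lineM
  classical
  induction S using Finset.induction_on with
  | empty => rw [Finset.sum_empty]; infer_instance
  | insert k S hk ih => rw [Finset.sum_insert hk]; infer_instance

theorem lintegral_lineM {v : V} {n : ℕ} {k₁ k₂ : ℤ} {S : Finset ℤ} {F : V → ℝ≥0∞}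
    (hF : AEMeasurable F (lineM v n k₁ k₂ S)) :
    ∫⁻ x, F x ∂(lineM v n k₁ k₂ S) = ∑ k ∈ S, eInt v (ledge n k₁ k₂ k) F := by
  classical
  unfold lineM at hF ⊢
  rw [lintegral_finset_sum_measure]
  refine Finset.sum_congr rfl fun k hk => ?_
  have h1 : AEMeasurable F ((volume.restrict (jv (v 0) (1 / 2 ^ n) k)).map
      fun u => lpt (v 1 + k₁ / 2 ^ n) (v 2 + k₂ / 2 ^ n) u) := by
    refine hF.mono_ac ?_
    intro s hs
    rw [Measure.finset_sum_apply, Finset.sum_eq_zero_iff] at hs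
    exact hs k hk
  rw [lintegral_map' h1 (measurable_lpt _ _).aemeasurable, eInt_ledge]

theorem lineM_compl {v : V} {n : ℕ} {k₁ k₂ : ℤ} {S : Finset ℤ} {U : Set V}
    (hU : MeasurableSet U) (hS : ∀ k ∈ S, edge v (ledge n k₁ k₂ k) ⊆ U) :
    lineM v n k₁ k₂ S Uᶜ = 0 := by
  unfold lineM
  rw [Measure.finset_sum_apply]
  refine Finset.sum_eq_zero fun k hk => ?_
  rw [Measure.map_apply (measurable_lpt _ _) hU.compl,
    Measure.restrict_apply (measurable_lpt _ _ hU.compl)]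
  have h1 : (fun u => lpt (v 1 + k₁ / 2 ^ n) (v 2 + k₂ / 2 ^ n) u) ⁻¹' Uᶜ ∩
      jv (v 0) (1 / 2 ^ n) k = ∅ := by
    rw [Set.eq_empty_iff_forall_notMem]
    rintro u ⟨hu1, hu2⟩
    exact hu1 (hS k hk (mem_ledge.2 ⟨u, hu2, rfl⟩))
  rw [h1, measure_empty]

/-! ### The squares of the rectangle -/

/-- the squares of a high generation in the rectangle are in the cubes of the partition -/
theorem list_okN {U : Set V} {v : V} {I : Set Idx} (hI : Part U v I) {l : Fin 3} {m n : ℕ}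
    (hmn : m ≤ n) {α β : Fin 3 → ℤ} (hR : RgN l v m α β ⊆ U) (hm : ∀ q ∈ I, m ≤ q.1)
    (hn : ∀ q ∈ KRN l v I m α β, q.1 ≤ n) {k : Fin 3 → ℤ}
    (hk : k ∈ rectN l (up m n α) (up m n β)) :
    (∃ q ∈ KRN l v I m α β, squ v ((n, k), l) ⊆ dyc v q.1 q.2) ∧
      ∀ q ∈ I, Disjoint (squ v ((n, k), l)) (dyo v q.1 q.2) := by
  have h1 := squ_sub_RgN (v := v) (sc_up hmn α β) hk
  constructor
  · have h2 : P86.sc v ((n, k), l) ∈ squ v ((n, k), l) := P86.rel_sub P86.sc_mem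
    obtain ⟨q, hq, hsq⟩ := hI.cover _ (hR (h1 h2))
    have h3 : q ∈ KRN l v I m α β := ⟨hq, _, hsq, h1 h2⟩
    exact ⟨q, h3, squ_sub_of_sc (s := ((n, k), l)) (hn q h3) hsq⟩
  · intro q hq
    rw [Set.disjoint_left]
    intro x hx
    exact H194.plane_off (hm q hq) (h1 hx).1

/-- the cubes which meet the frame -/
theorem union_frameB {θ₁ θ₂ ν : ℝ} {v : V} {I : Set Idx} (hI : Part (Bx (bm θ₁ θ₂)) v I) {n : ℕ}
    (hθ₂ : 0 < θ₂) (hθ₂' : θ₂ ≤ 1 / 4) (hν : 0 < ν)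
    (hn : ∀ q ∈ I, n ≤ q.1) (hnν : 1 / 2 ^ n ≤ ν * θ₂) :
    (⋃ q ∈ {q : Idx | q ∈ I ∧ (dyc v q.1 q.2 ∩ Fr (bm θ₁ θ₂) (3 * ν) {0, 2}).Nonempty},
      dyc v q.1 q.2) ⊆ Bx (bm θ₁ θ₂) ∩ Fr (bm θ₁ θ₂) (3 * (4 / 3 * ν)) {0, 2} := by
  refine iUnion₂_subset ?_
  rintro q ⟨hq, y, hy, i, hi, hyi⟩ x hx
  refine ⟨hI.sub q hq hx, i, hi, ?_⟩
  have h1 := norm_sub_dyc hx hy i
  have h2 := (half_pow_le (hn q hq)).trans hnν
  have h3 : θ₂ ≤ bm θ₁ θ₂ i := by
    simp only [Finset.mem_insert, Finset.mem_singleton] at hi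
    rcases hi with rfl | rfl
    · have : bm θ₁ θ₂ 0 = 1 := rfl
      rw [this]; linarith
    · have : bm θ₁ θ₂ 2 = 2 * θ₂ := rfl
      rw [this]; linarith
  have h4 : ν * θ₂ ≤ ν * bm θ₁ θ₂ i := by gcongr
  rw [abs_le] at h1
  rcases hyi with h | h
  · left
    have e : 3 * (4 / 3 * ν) * bm θ₁ θ₂ i = 3 * ν * bm θ₁ θ₂ i + ν * bm θ₁ θ₂ i := by ring
    rw [e]; linarith [h1.2]
  · right
    have e : (1 - 3 * (4 / 3 * ν)) * bm θ₁ θ₂ i =
      (1 - 3 * ν) * bm θ₁ θ₂ i - ν * bm θ₁ θ₂ i := by ring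
    rw [e]; linarith [h1.1]

/-- the edges of the line are edges of the rectangle -/
theorem ledge_mem {a b : Fin 3 → ℤ} {k m₂ : ℤ} (hk : k ∈ Finset.Ico (a 0) (b 0))
    (hm : m₂ ∈ Icc (a 2) (b 2)) : ![k, a 1, m₂] ∈ redgeN 1 a b 0 := by
  rw [mem_redgeN (by decide)]
  refine ⟨rfl, Finset.mem_Ico.1 hk, fun j hj hj' => ?_⟩
  fin_cases j
  · exact absurd rfl hj'
  · exact absurd rfl hj
  · exact hm

/-- scales of scales -/
theorem up_up {m n N : ℕ} (h1 : m ≤ n) (h2 : n ≤ N) (α : Fin 3 → ℤ) :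
    up n N (up m n α) = up m N α := by
  funext j
  show 2 ^ (N - n) * (2 ^ (n - m) * α j) = 2 ^ (N - m) * α j
  rw [← mul_assoc, ← pow_add]
  congr 2
  omega

theorem upz_upz {m n N : ℕ} (h1 : m ≤ n) (h2 : n ≤ N) (k : ℤ) :
    upz n N (upz m n k) = upz m N k := by
  show 2 ^ (N - n) * (2 ^ (n - m) * k) = 2 ^ (N - m) * k
  rw [← mul_assoc, ← pow_add]
  congr 2
  omega

theorem sc_up2 {m n N : ℕ} (h1 : m ≤ n) (h2 : n ≤ N) (α β : Fin 3 → ℤ) :
    Sc n N (up m n α) (up m n β) (up m N α) (up m N β) :=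
  ⟨h2, fun j => by rw [← up_up h1 h2 α]; rfl, fun j => by rw [← up_up h1 h2 β]; rfl⟩

theorem upz_div {m n : ℕ} (h : m ≤ n) (k : ℤ) : (upz m n k : ℝ) / 2 ^ n = k / 2 ^ m := by
  obtain ⟨d, rfl⟩ := Nat.exists_eq_add_of_le h
  have e : m + d - m = d := by omega
  unfold upz
  rw [e, pow_add]
  push_cast
  field_simp

/-- position of the square of an edge -/
theorem eInSq_pos {m n : ℕ} (h : m ≤ n) {l i : Fin 3} {κ k : Fin 3 → ℤ}
    (hk : k ∈ eInSq ((m, κ), l) n i) {j : Fin 3} (hj : j ≠ l) :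
    (κ j : ℝ) / 2 ^ m ≤ k j / 2 ^ n ∧ (k j : ℝ) / 2 ^ n ≤ (κ j + 1) / 2 ^ m := by
  unfold eInSq at hk
  rw [Fintype.mem_piFinset] at hk
  have h1 := hk j
  rw [if_neg hj] at h1
  have h2 : upz m n (κ j) ≤ k j ∧ k j ≤ upz m n (κ j + 1) := by
    by_cases hji : j = i
    · rw [if_pos hji, Finset.mem_Ico] at h1
      exact ⟨h1.1, h1.2.le⟩
    · rw [if_neg hji, Finset.mem_Icc] at h1
      exact h1
  have e1 := upz_div h (κ j)
  have e2 := upz_div h (κ j + 1)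
  push_cast at e2
  rw [← e1, ← e2]
  have hp : (0:ℝ) < 2 ^ n := by positivity
  exact ⟨(div_le_div_iff_of_pos_right hp).2 (by exact_mod_cast h2.1),
    (div_le_div_iff_of_pos_right hp).2 (by exact_mod_cast h2.2)⟩

end Vale.Agent.P073.H687
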