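import Vale.Agent.P073.H732.BeamParts
import Vale.Agent.P073.H235.PreFlatA
import Vale.Agent.P073.H253.LineG

/-!
# P073, rank one, `2 ≤ p < 3`: the assembly of `PreBeam` (statements)

* `SpecBeamBuild`: the data are built from the pieces (owner 687);
* `SpecTOut`: the collapse for the compressed map on the line, from `SpecBeamCol`;
* `specPreBeam_of`: the order of the constants.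
-/

namespace Vale.Agent.P073.H687

open MeasureTheory Set Filter Topology Metric Vale.Agent.P073.St Vale.Agent.P073.AB
open Vale.Agent.P073.SQ (ev)
open Vale.Agent.P073.H194 (sInt RgN up cW)
open Vale.Agent.P073.H235 (Bx bm fl Co Fr P1 cmp cmpD Kc)
open Vale.Agent.P073.H253 (rectN redgeN ledge xL BVData lpt PreBeam)
open Vale.Agent.P073.H732 (XL upz)
open _root_.P073 (ConHomeo)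
open _root_.P073.Net (dyc dyo)
open scoped ENNReal

section

variable {p θ₁ θ₂ κ : ℝ} {m₀ : ℕ} {Λ : Set V} {f : V → V} {F : V → Mat}

/-- the clause of `SpecEnerB` on the line -/
def EnerL (D : BVData p θ₁ θ₂ κ m₀ Λ f F) : Prop :=
  ∀ (n : ℕ) (k₁ k₂ : ℤ) (S : Finset ℤ),
    (∀ k ∈ S, edge D.v (ledge n k₁ k₂ k) ⊆ Bx (bm θ₁ θ₂)) →
    (∑ k ∈ S, eInt D.v (ledge n k₁ k₂ k) (fun x => D.H x + H194.Bk 1 x) ≤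
      ENNReal.ofReal (2 ^ p) * ((∑ k ∈ S, eInt D.v (ledge n k₁ k₂ k) D.H₁) +
        ENNReal.ofReal (S.card / 2 ^ n))) ∧
    ∀ t : ℝ, 0 < t →
      ∑ k ∈ S, eInt D.v (ledge n k₁ k₂ k) (fun x => ‖cl (cmpD (bm θ₁ θ₂) F x) - P1‖ₑ) ≤
      ENNReal.ofReal (t * (S.card / 2 ^ n)) +
        ENNReal.ofReal (t ^ (1 - p)) * ∑ k ∈ S, eInt D.v (ledge n k₁ k₂ k) D.H₁

/-- the conclusion of `SpecEnerB` -/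
structure EnerB (D : BVData p θ₁ θ₂ κ m₀ Λ f F) : Prop where
  vol : ∀ R ⊆ Bx (bm θ₁ θ₂), MeasurableSet R → ∫⁻ x in R, (D.H x + H194.Bk 1 x) ≤
    ENNReal.ofReal (2 ^ p) * ((∫⁻ x in R, D.H₁ x) + volume R)
  one : ∀ x ∈ Bx (bm θ₁ θ₂), H194.Bk 1 x = 1
  box : volume (Bx (bm θ₁ θ₂)) ≤ ENNReal.ofReal (4 * θ₁ * θ₂)
  frame : ∀ ν, 0 < ν → volume (Bx (bm θ₁ θ₂) ∩ Fr (bm θ₁ θ₂) (3 * ν) {0, 2}) ≤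
    ENNReal.ofReal (48 * ν * θ₁ * θ₂)
  squ : ∀ (n : ℕ) (S : Finset (Fin 3 → ℤ)), (∀ k ∈ S, squ D.v ((n, k), 1) ⊆ Bx (bm θ₁ θ₂)) →
    ∑ k ∈ S, sInt D.v ((n, k), 1) (fun x => D.H x + H194.Bk 1 x) ≤ ENNReal.ofReal (2 ^ p) *
      ((∑ k ∈ S, sInt D.v ((n, k), 1) D.H₁) + ENNReal.ofReal (S.card / 4 ^ n))
  line : EnerL D

/-- the conclusion of `SpecXL` -/
def XLOut (D : BVData p θ₁ θ₂ κ m₀ Λ f F) (α β : ℤ) : Prop :=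
  ∀ n : ℕ, m₀ ≤ n →
    ∀ (h₀ : ConHomeo (Bx (bm θ₁ θ₂)) Λ) (T : ConHomeo Λ Λ) (b : ℝ), 0 < b → b ≤ 1 →
    (∀ y ∈ Λ, T.toFun y 0 = y 0) →
    (∀ k ∈ Finset.Ico (upz m₀ n α) (upz m₀ n β),
      eInt D.v (ledge n (upz m₀ n D.B₁) (upz m₀ n D.B₂) k)
        (fun x => ENNReal.ofReal ‖lineDeriv ℝ h₀.toFun x (ev 0) -
          cl (cmpD (bm θ₁ θ₂) F x) (ev 0)‖) ≤ ENNReal.ofReal (b / 2 ^ n)) →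
    (∀ k ∈ Finset.Ico (upz m₀ n α) (upz m₀ n β),
      edge D.v (ledge n (upz m₀ n D.B₁) (upz m₀ n D.B₂) k) ⊆ Bx (bm θ₁ θ₂) ∧
      xL (h₀.trans T).toFun D.v (ledge n (upz m₀ n D.B₁) (upz m₀ n D.B₂) k) ≤
        XL θ₁ θ₂ D.v F b (ledge n (upz m₀ n D.B₁) (upz m₀ n D.B₂) k) ∧
      eInt D.v (ledge n (upz m₀ n D.B₁) (upz m₀ n D.B₂) k) (fun x => D.H x ^ (1 / p) + 1) ≤
        2 * (ENNReal.ofReal (1 / 2 ^ n) +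
          XL θ₁ θ₂ D.v F b (ledge n (upz m₀ n D.B₁) (upz m₀ n D.B₂) k))) ∧
    ∑ k ∈ Finset.Ico (upz m₀ n α) (upz m₀ n β), ENNReal.ofReal ((1 / 2 ^ n) ^ (1 - p)) *
      XL θ₁ θ₂ D.v F b (ledge n (upz m₀ n D.B₁) (upz m₀ n D.B₂) k) ^ p ≤
        ENNReal.ofReal (4 ^ p * (κ + b))

/-- the conclusion of `SpecBeamCol` for the compressed map on the line -/
def TOut (D : BVData p θ₁ θ₂ κ m₀ Λ f F) (α β : ℤ) (ε : ℝ) : Prop :=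
  ∃ n₀ : ℕ, ∀ n₃ ≥ n₀, m₀ ≤ n₃ → ∃ (G : Finset ℤ) (mt₀ : ℕ) (K : Set V), K ⊆ Λ ∧ IsCompact K ∧
    G ⊆ Finset.Ico (upz m₀ n₃ α) (upz m₀ n₃ β) ∧
    (β - α : ℝ) / 2 ^ m₀ - (G.card : ℝ) / 2 ^ n₃ ≤ ε ∧
    ∀ mt ≥ mt₀, ∀ δ > 0, ∃ (T : ConHomeo Λ Λ) (r : ℝ), 0 < r ∧
      (∀ y ∈ Λ, y ∉ K → T.toFun y = y) ∧
      (∀ y ∈ Λ, ∀ y' ∈ Λ, ‖T.toFun y - T.toFun y'‖ ≤ 2 * ‖y - y'‖) ∧
      (∀ y ∈ Λ, T.toFun y 0 = y 0) ∧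
      ∀ k ∈ G, ∃ t : Fin 3 → ℤ,
        ∀ x ∈ edge D.v (ledge n₃ (upz m₀ n₃ D.B₁) (upz m₀ n₃ D.B₂) k), ∀ y ∈ Λ,
          ‖y - cmp (bm θ₁ θ₂) f x‖ ≤ r → ∀ j, j ≠ 0 → |T.toFun y j - t j / 2 ^ mt| ≤ δ / 2 ^ mt

/-- the conclusion of `SpecRectB` -/
structure RectOut (θ₁ θ₂ ν₁ : ℝ) (v : V) (m : ℕ) (B₁ B₂ : ℤ) (α β : Fin 3 → ℤ) : Prop where
  pos : α 1 = B₁
  lt : ∀ j, j ≠ 1 → α j < β j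
  sub : RgN 1 v m α β ⊆ Bx (bm θ₁ θ₂)
  unit : (β 0 - α 0 : ℝ) / 2 ^ m ≤ 1
  wid : (β 2 - α 2 : ℝ) / 2 ^ m ≤ 2 * θ₂
  mem : B₂ ∈ Icc (α 2) (β 2)
  line : ∀ k ∈ Finset.Ico (α 0) (β 0), edge v (ledge m B₁ B₂ k) ⊆ RgN 1 v m α β
  cov : ∀ x ∈ Bx (fl θ₂) ∩ Co (fl θ₂) (ν₁ / 2) {0, 2}, ∀ j, j ≠ 1 →
    v j + α j / 2 ^ m ≤ x j ∧ x j ≤ v j + β j / 2 ^ m

end

/-- **[T-OUT]** from `SpecBeamCol` (`H687.BeamT.specBeamCol`), on the line of `BVData` -/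
def SpecTOut : Prop :=
  ∀ p ε : ℝ, 1 ≤ p → 0 < ε → ∃ κ₁ > 0, ∀ (θ₁ θ₂ κ : ℝ) (m₀ : ℕ) (Λ : Set V) (f : V → V)
    (F : V → Mat), 0 < κ → κ ≤ κ₁ → 0 < θ₁ → θ₁ ≤ 1 / 4 → 0 < θ₂ → θ₂ ≤ 1 / 4 → IsOpen Λ →
    St.IsHomeo (Bx (bm θ₁ θ₂)) Λ (cmp (bm θ₁ θ₂) f) →
    ∀ D : BVData p θ₁ θ₂ κ m₀ Λ f F, EnerL D → ∀ α β : ℤ, α < β → (β - α : ℝ) / 2 ^ m₀ ≤ 1 →
    (∀ k ∈ Finset.Ico α β, edge D.v (ledge m₀ D.B₁ D.B₂ k) ⊆ Bx (bm θ₁ θ₂)) → TOut D α β ε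

/-- **[BUILD]** the data are built -/
def SpecBeamBuild : Prop :=
  ∀ {p C θ₁ θ₂ ν₁ ν τ ε δ κ εP η b : ℝ}, 1 ≤ p → p < 3 → 0 < θ₁ → θ₁ ≤ 1 / 4 → 0 < θ₂ →
    θ₂ ≤ 1 / 4 → 0 < ν₁ → ν₁ ≤ ν / 4 → ν ≤ 1 / 4 → 0 < ε → 0 < δ → 0 < η → 0 < b → b ≤ 1 →
    0 ≤ κ → 0 ≤ εP →
    ∀ {m₀ : ℕ} {Λ : Set V} {f : V → V} {F : V → Mat}, St.IsBoundedDomain Λ →
    St.IsHomeo (Bx (bm θ₁ θ₂)) Λ (cmp (bm θ₁ θ₂) f) → ∀ D : BVData p θ₁ θ₂ κ m₀ Λ f F,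
    EnerB D → ∀ {α β : Fin 3 → ℤ}, RectOut θ₁ θ₂ ν₁ D.v m₀ D.B₁ D.B₂ α β →
    XLOut D (α 0) (β 0) → TOut D (α 0) (β 0) εP → 1 / 2 ^ m₀ ≤ τ → 1 / 2 ^ m₀ ≤ ν →
    -- bulk
    (cW p 8 * (36 * (Kc p 5 * (ENNReal.ofReal (2 ^ p) * (ENNReal.ofReal κ +
      ENNReal.ofReal (4 * θ₁ * θ₂)))) + ENNReal.ofReal η) ≤ ENNReal.ofReal (C * θ₁ * θ₂)) →
    -- frame
    (cW p 8 * (36 * (Kc p 5 * (ENNReal.ofReal (2 ^ p) * (ENNReal.ofReal κ +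
      ENNReal.ofReal (64 * ν₁ * θ₁ * θ₂)))) + ENNReal.ofReal η) ≤
        ENNReal.ofReal (C * ν₁ * θ₁ * θ₂)) →
    -- the plane
    (2 * (cW p 8 * (Kc p 5 * (ENNReal.ofReal (2 ^ p) * (ENNReal.ofReal κ +
      ENNReal.ofReal (2 * θ₂))) + ENNReal.ofReal η)) ≤ ENNReal.ofReal (C * θ₂)) →
    (2 * (cW p 8 * (Kc p 5 * (ENNReal.ofReal (2 ^ p) * (ENNReal.ofReal κ +
      ENNReal.ofReal (48 * ν * θ₂))) + ENNReal.ofReal η)) ≤ ENNReal.ofReal (C * ν * θ₂)) →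
    -- the line
    (cW p 8 * (Kc p 5 * (ENNReal.ofReal (2 ^ p) * (ENNReal.ofReal κ + ENNReal.ofReal εP))) ≤
      ENNReal.ofReal ε) →
    4 ^ p * (κ + b) ≤ ε → 1149984 ≤ C →
    Nonempty (PreBeam p C θ₁ θ₂ ν₁ ν τ ε δ Λ f)

end Vale.Agent.P073.H687
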