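import Vale.Agent.P073.H687.Surf
import Vale.Agent.P073.H194.PartMesh
import Vale.Agent.P073.LOC.Spec752
import Vale.Agent.P073.SMF.Meas

/-!
# P073, block A16, `[BOX-POST]`, part 2: boundary values

A homeomorphism which is close to `h` on the squares of a partition, relative to the sizes of the
tiles of the target, has the same boundary values as `h`.
-/

open Set Metric Topology Filter MeasureTheory
open scoped ENNReal

namespace Vale.Agent.P073.H687

open Vale.Agent.P073.St (V)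
open Vale.Agent.P073.LOC (BdClose)
open Vale.Agent.P073.H194 (partMesh)
open Vale.Agent.P073.AB Vale.Agent.P073.AB.P86
open _root_.P073 (ConHomeo)
open _root_.P073.Net (dyc dyo IsTile SizeFn)

/-! ### Images of compact sets (copied from helper142's `H142/Hull.lean`) -/

theorem isOpen_image_sub {Ω Λ : Set V} (hΛ : IsOpen Λ) (g : ConHomeo Ω Λ) {O : Set V}
    (hO : O ⊆ Ω) (hOo : IsOpen O) : IsOpen (g.toFun '' O) := by
  have e : g.toFun '' O = Λ ∩ g.invFun ⁻¹' O := by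
    ext y
    constructor
    · rintro ⟨x, hx, rfl⟩
      exact ⟨g.mapsTo (hO hx), by rw [mem_preimage, g.left_inv (hO hx)]; exact hx⟩
    · rintro ⟨hy, hy2⟩
      exact ⟨g.invFun y, hy2, g.right_inv hy⟩
  rw [e]
  exact g.cont_inv.isOpen_inter_preimage hΛ hOo

/-- the maximum of a signed coordinate is attained on the boundary -/
theorem exists_frontier_coord {Ω Λ : Set V} (hΛ : IsOpen Λ) (g : ConHomeo Ω Λ) {Q : Set V}
    (hQ : IsCompact Q) (hQΩ : Q ⊆ Ω) (j : Fin 3) {σ : ℝ} (hσ : σ = 1 ∨ σ = -1) {x : V}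
    (hx : x ∈ Q) : ∃ a ∈ frontier Q, σ * g.toFun x j ≤ σ * g.toFun a j := by
  have hc : ContinuousOn (fun x => σ * g.toFun x j) Q :=
    continuousOn_const.mul ((continuous_apply j).comp_continuousOn (g.cont.mono hQΩ))
  obtain ⟨a, ha, hmax⟩ := hQ.exists_isMaxOn ⟨x, hx⟩ hc
  refine ⟨a, ?_, hmax hx⟩
  rw [hQ.isClosed.frontier_eq]
  refine ⟨ha, fun hi => ?_⟩
  have hopen := isOpen_image_sub hΛ g (interior_subset.trans hQΩ) isOpen_interior
  obtain ⟨ε, hε, hb⟩ := Metric.isOpen_iff.1 hopen _ ⟨a, hi, rfl⟩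
  have habs : |σ| = 1 := by rcases hσ with h | h <;> simp [h]
  have hsq : σ * σ = 1 := by rcases hσ with h | h <;> simp [h]
  have h1 : Function.update (g.toFun a) j (g.toFun a j + σ * (ε / 2)) ∈
      ball (g.toFun a) ε := by
    rw [mem_ball_iff_norm, pi_norm_lt_iff hε]
    intro k
    by_cases hk : k = j
    · subst hk
      rw [Pi.sub_apply, Function.update_self, add_sub_cancel_left, Real.norm_eq_abs, abs_mul,
        habs, one_mul, abs_of_pos (by positivity)]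
      linarith
    · rw [Pi.sub_apply, Function.update_of_ne hk, sub_self, norm_zero]
      exact hε
  obtain ⟨b, hb1, hb2⟩ := hb h1
  have h2 : σ * g.toFun b j ≤ σ * g.toFun a j := hmax (interior_subset hb1)
  rw [hb2, Function.update_self, mul_add, ← mul_assoc, hsq] at h2
  linarith

/-- the diameter of the image of a compact set is the diameter of the image of its boundary -/
theorem osc_le_of_frontier {Ω Λ : Set V} (hΛ : IsOpen Λ) (g : ConHomeo Ω Λ) {Q : Set V}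
    (hQ : IsCompact Q) (hQΩ : Q ⊆ Ω) {B : ℝ}
    (h : ∀ x ∈ frontier Q, ∀ y ∈ frontier Q, ‖g.toFun x - g.toFun y‖ ≤ B) :
    ∀ x ∈ Q, ∀ y ∈ Q, ‖g.toFun x - g.toFun y‖ ≤ B := by
  intro x hx y hy
  obtain ⟨a, ha, -⟩ := exists_frontier_coord hΛ g hQ hQΩ 0 (Or.inl rfl) hx
  have hB : 0 ≤ B := (norm_nonneg _).trans (h a ha a ha)
  rw [pi_norm_le_iff_of_nonneg hB]
  intro j
  rw [Pi.sub_apply, Real.norm_eq_abs]
  have key : ∀ x ∈ Q, ∀ y ∈ Q, g.toFun x j - g.toFun y j ≤ B := by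
    intro x hx y hy
    obtain ⟨a, ha, h1⟩ := exists_frontier_coord hΛ g hQ hQΩ j (Or.inl rfl) hx
    obtain ⟨b, hb, h2⟩ := exists_frontier_coord hΛ g hQ hQΩ j (Or.inr rfl) hy
    have h3 := (le_abs_self _).trans
      ((norm_le_pi_norm (g.toFun a - g.toFun b) j).trans (h a ha b hb))
    rw [Pi.sub_apply] at h3
    linarith
  rw [abs_le]
  constructor <;> linarith [key x hx y hy, key y hy x hx]

/-! ### Boundary values -/

theorem dist_le_of_dyc {v : V} {m : ℕ} {z : Fin 3 → ℤ} {x y : V} (hx : x ∈ dyc v m z)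
    (hy : y ∈ dyc v m z) : ‖x - y‖ ≤ 1 / 2 ^ m := by
  rw [pi_norm_le_iff_of_nonneg (by positivity)]
  intro k
  have h1 := hx k
  have h2 := hy k
  rw [P86.div_add_one] at h1 h2
  rw [Pi.sub_apply, Real.norm_eq_abs, abs_le]
  constructor <;> linarith [h1.1, h1.2, h2.1, h2.2]

/-- **boundary values** -/
theorem bdClose_of_squares {U Λ : Set V} (hU : St.IsBoundedDomain U)
    (hΛ : St.IsBoundedDomain Λ)
    {v w : V} {I : Set Idx} (hI : Part U v I) {fc : V → V} (hf : ContinuousOn fc (closure U))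
    {h g : ConHomeo U Λ} (hb : BdClose U fc h.toFun) {ρ : V → ℝ} (hρ : SizeFn Λ ρ) {D : ℝ}
    (hD : 0 ≤ D) (hclose : ∀ s, MinSq v I s → ∀ x ∈ squ v s, ∀ m z, IsTile ρ w m z →
      h.toFun x ∈ dyc w m z → ‖g.toFun x - h.toFun x‖ ≤ D / 2 ^ m) :
    BdClose U fc g.toFun := by
  intro δ₀ hδ₀
  have hUo : IsOpen U := hU.1
  have hUb : Bornology.IsBounded U := _root_.P073.SMF.bounded_of_euc hU
  have hΛb : Bornology.IsBounded Λ := _root_.P073.SMF.bounded_of_euc hΛ
  set η : ℝ := δ₀ / (3 * D + 5) with hη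
  have hη0 : 0 < η := by positivity
  -- the part of the target with large tiles
  have hρc : Continuous ρ := by
    refine (LipschitzWith.of_dist_le_mul (K := 1) fun x y => ?_).continuous
    rw [Real.dist_eq, NNReal.coe_one, one_mul, dist_eq_norm, abs_le]
    have h1 := hρ.lip x y
    have h2 := hρ.lip y x
    rw [norm_sub_rev] at h2
    constructor <;> linarith
  set K' : Set V := {y | η ≤ ρ y} with hK'
  have hK'Λ : K' ⊆ Λ := by
    intro y hy
    by_contra hcon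
    have h1 := hρ.off y hcon
    have h2 : η ≤ ρ y := hy
    linarith
  have hK'c : IsCompact K' := Metric.isCompact_of_isClosed_isBounded
    (isClosed_le continuous_const hρc) (hΛb.subset hK'Λ)
  set K1 : Set V := h.invFun '' K' with hK1
  have hK1c : IsCompact K1 := hK'c.image_of_continuousOn (h.cont_inv.mono hK'Λ)
  have hK1U : K1 ⊆ U := by
    rintro _ ⟨y, hy, rfl⟩
    exact h.mapsTo_inv (hK'Λ hy)
  have hfar : ∀ x ∈ U, x ∉ K1 → ρ (h.toFun x) < η := by
    intro x hx hxK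
    by_contra hcon
    exact hxK ⟨h.toFun x, not_lt.1 hcon, h.left_inv hx⟩
  obtain ⟨K2, hK2U, hK2c, hK2⟩ := hb η hη0
  -- uniform continuity
  have huc : UniformContinuousOn fc (closure U) :=
    hUb.isCompact_closure.uniformContinuousOn_of_continuous hf
  obtain ⟨δ₁, hδ₁, hδ₁'⟩ := Metric.uniformContinuousOn_iff.1 huc η hη0
  obtain ⟨N, hN⟩ : ∃ N : ℕ, (1:ℝ) / 2 ^ N < δ₁ := by
    obtain ⟨N, hN⟩ := exists_pow_lt_of_lt_one hδ₁ (show (1/2:ℝ) < 1 by norm_num)
    exact ⟨N, by rwa [one_div_pow] at hN⟩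
  -- the large cubes, and the cubes which meet the compact sets
  set T : Set Idx := {q | q ∈ I ∧ (q.1 ≤ N ∨ (dyc v q.1 q.2 ∩ (K1 ∪ K2)).Nonempty)} with hT
  have hTfin : T.Finite := by
    have h1 : (⋃ n ∈ Set.Iic N, (fun z => ((n, z) : Idx)) ''
        {z : Fin 3 → ℤ | (dyc v n z ∩ U).Nonempty}).Finite :=
      (Set.finite_Iic N).biUnion fun n _ => (finite_meet_dyc v n hUb).image _
    have h2 := hI.fin (K1 ∪ K2) (union_subset hK1U hK2U) (hK1c.union hK2c)
    refine (h1.union h2).subset ?_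
    rintro q ⟨hq, hq' | hq'⟩
    · left
      refine mem_iUnion₂.2 ⟨q.1, hq', q.2, ?_, rfl⟩
      refine ⟨cen v q.1 q.2, ?_, hI.sub q hq ?_⟩
      · exact dyo_sub_dyc (cen_mem v q.1 q.2)
      · exact dyo_sub_dyc (cen_mem v q.1 q.2)
    · exact Or.inr ⟨hq, hq'⟩
  refine ⟨⋃ q ∈ T, dyc v q.1 q.2, iUnion₂_subset fun q hq => hI.sub q hq.1,
    hTfin.isCompact_biUnion fun q _ => isCompact_dyc v q.1 q.2, ?_⟩
  rintro x ⟨hx, hxK⟩
  obtain ⟨q, hq, hxq⟩ := hI.cover x hx
  have hqT : q ∉ T := fun hqT => hxK (mem_iUnion₂.2 ⟨q, hqT, hxq⟩)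
  have hqN : N < q.1 := by
    by_contra hcon
    exact hqT ⟨hq, Or.inl (not_lt.1 hcon)⟩
  have hqK : ∀ y ∈ dyc v q.1 q.2, y ∉ K1 ∧ y ∉ K2 := by
    intro y hy
    constructor
    · intro hyK
      exact hqT ⟨hq, Or.inr ⟨y, hy, Or.inl hyK⟩⟩
    · intro hyK
      exact hqT ⟨hq, Or.inr ⟨y, hy, Or.inr hyK⟩⟩
  have hsub : dyc v q.1 q.2 ⊆ U := hI.sub q hq
  have hosc : ∀ a ∈ dyc v q.1 q.2, ∀ b ∈ dyc v q.1 q.2, ‖fc a - fc b‖ ≤ η := by
    intro a ha b hb
    have h1 : dist a b < δ₁ := by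
      rw [dist_eq_norm]
      refine (dist_le_of_dyc ha hb).trans_lt (lt_of_le_of_lt ?_ hN)
      have := pow_le_pow_right₀ (show (1:ℝ) ≤ 2 by norm_num) hqN.le
      exact one_div_le_one_div_of_le (by positivity) this
    have h2 := hδ₁' a (subset_closure (hsub ha)) b (subset_closure (hsub hb)) h1
    rw [dist_eq_norm] at h2
    exact h2.le
  -- on the boundary of the cube
  have hfr : ∀ y ∈ frontier (dyc v q.1 q.2), y ∈ dyc v q.1 q.2 ∧
      ‖g.toFun y - fc y‖ ≤ D * η + η := by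
    intro y hy
    have hyq : y ∈ dyc v q.1 q.2 := (isCompact_dyc v _ _).isClosed.frontier_subset hy
    refine ⟨hyq, ?_⟩
    obtain ⟨k, hyk, -⟩ := (partMesh hUo hI).bd (⟨q, hq⟩ : {q : Idx // q ∈ I}) y hy
    have hyU := hsub hyq
    obtain ⟨m, z, hz, hyz⟩ := _root_.P073.Net.NC.exists_tile hρ w (h.mapsTo hyU)
    have h1 := hclose k.1 k.2 y hyk m z hz hyz
    have h2 : (1:ℝ) / 2 ^ m ≤ ρ (h.toFun y) := hz.1 _ hyz
    have h3 := hfar y hyU (hqK y hyq).1
    have h4 := hK2 y ⟨hyU, (hqK y hyq).2⟩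
    have h5 : D / 2 ^ m ≤ D * η := by
      rw [div_eq_mul_one_div]
      gcongr
      linarith
    calc ‖g.toFun y - fc y‖ ≤ ‖g.toFun y - h.toFun y‖ + ‖h.toFun y - fc y‖ :=
          norm_sub_le_norm_sub_add_norm_sub _ _ _
      _ ≤ D * η + η := add_le_add (h1.trans h5) h4
  have hfr2 : ∀ a ∈ frontier (dyc v q.1 q.2), ∀ b ∈ frontier (dyc v q.1 q.2),
      ‖g.toFun a - g.toFun b‖ ≤ 2 * (D * η + η) + η := by
    intro a ha b hb
    obtain ⟨ha1, ha2⟩ := hfr a ha
    obtain ⟨hb1, hb2⟩ := hfr b hb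
    have h1 := hosc a ha1 b hb1
    have h2 : g.toFun a - g.toFun b =
      (g.toFun a - fc a) + (fc a - fc b) - (g.toFun b - fc b) := by abel
    rw [h2]
    refine (norm_sub_le _ _).trans ?_
    have h3 := norm_add_le (g.toFun a - fc a) (fc a - fc b)
    linarith
  have hall := osc_le_of_frontier hΛ.1 g (isCompact_dyc v q.1 q.2) hsub hfr2
  obtain ⟨a, ha, -⟩ := exists_frontier_coord hΛ.1 g (isCompact_dyc v q.1 q.2) hsub 0
    (Or.inl rfl) hxq
  obtain ⟨ha1, ha2⟩ := hfr a ha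
  have h1 := hall x hxq a ha1
  have h2 := hosc a ha1 x hxq
  have h3 : g.toFun x - fc x = (g.toFun x - g.toFun a) + (g.toFun a - fc a) + (fc a - fc x) := by
    abel
  have h4 : ‖g.toFun x - fc x‖ ≤ (3 * D + 5) * η := by
    rw [h3]
    refine (norm_add_le _ _).trans ?_
    have h5 := norm_add_le (g.toFun x - g.toFun a) (g.toFun a - fc a)
    linarith
  refine h4.trans (le_of_eq ?_)
  rw [hη]
  field_simp

end Vale.Agent.P073.H687
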