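import Vale.Agent.P073.H687.MinSum
import Vale.Agent.P073.H687.MinSqEdge
import Vale.Agent.P073.H304.SpecB
import Vale.Agent.P073.AB.Sum308b

/-!
# P073, block A16, `[BOX-POST]`, part 1: edges of the mesh of a dyadic partition

The minimal edges in a minimal square are adapted to the mesh `partMesh` of the partition, and they
are edges of this mesh.
-/

open Set Metric Topology Filter Module MeasureTheory
open scoped ENNReal

namespace Vale.Agent.P073.H687

open Vale.Agent.P073.St (V)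
open Vale.Agent.P073.SQ (ev)
open Vale.Agent.P073.H73 (Mesh MinEdge segP)
open Vale.Agent.P073.H194 (partMesh)
open Vale.Agent.P073.H304 (IsEdge)
open Vale.Agent.P073.AB Vale.Agent.P073.AB.P86
open _root_.P073.Net (dyc dyo)

variable {Ω : Set V} {v : V} {I : Set Idx}

/-- a minimal square which contains an inner point of a minimal edge contains the edge -/
theorem edge_sub_squ_of_inner (hΩ : IsOpen Ω) (hI : Part Ω v I) {e : Idx × Fin 3}
    (he : MinEdge v I e) {l : Idx × Fin 3} (hl : MinSq v I l) {x : V} (hx : x ∈ edge v e)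
    (h1 : v e.2 + e.1.2 e.2 / 2 ^ e.1.1 < x e.2)
    (h2 : x e.2 < v e.2 + (e.1.2 e.2 + 1) / 2 ^ e.1.1) (hxl : x ∈ squ v l) :
    edge v e ⊆ squ v l := by
  obtain ⟨qp, qm, h⟩ := two_of_minSq hΩ hI hl
  rw [← inter_eq hI hl h]
  exact subset_inter
    (edge_sub_of_inner he h.memp hx h1 h2 (h.subp (squ_sub_hi hxl)))
    (edge_sub_of_inner he h.memm hx h1 h2 (h.subm (squ_sub_lo hxl)))

/-- a face of the mesh which meets the open edge contains the edge -/
theorem edge_clause (hΩ : IsOpen Ω) (hI : Part Ω v I) {e : Idx × Fin 3} (he : MinEdge v I e)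
    (l : (partMesh hΩ hI).κ)
    (hl : ((partMesh hΩ hI).F l ∩ openSegment ℝ (segP v e).1 (segP v e).2).Nonempty) :
    segment ℝ (segP v e).1 (segP v e).2 ⊆ (partMesh hΩ hI).F l := by
  obtain ⟨x, hxl, hxe⟩ := hl
  obtain ⟨g1, g2, g3⟩ := inner_of_openSegment hxe
  exact edge_sub_squ_of_inner hΩ hI he l.2 g1 g2 g3 hxl

/-- **[ADP]** for the mesh of the partition -/
theorem adapted_part (hΩ : IsOpen Ω) (hI : Part Ω v I) {s : Idx × Fin 3} (hs : MinSq v I s) :
    H73.Adapted (partMesh hΩ hI) (⟨s, hs⟩ : {s : Idx × Fin 3 // MinSq v I s}) (edges hI hs) where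
  ne := by
    intro e he
    obtain ⟨e', -, rfl⟩ := (mem_edges hI hs).1 he
    exact segP_ne v e'
  sub := by
    intro e he
    obtain ⟨e', ⟨-, h2⟩, rfl⟩ := (mem_edges hI hs).1 he
    exact h2
  cover := by
    show intrinsicFrontier ℝ (squ v s) ⊆ _
    rw [intrinsicFrontier_squ]
    rintro x ⟨hx, hxr⟩
    obtain ⟨e, h1, h2, h3⟩ := exists_minEdge hΩ hI hs hx hxr
    exact mem_iUnion₂.2 ⟨segP v e, (mem_edges hI hs).2 ⟨e, ⟨h1, h2⟩, rfl⟩, h3⟩
  edge := by
    intro e he l hl
    obtain ⟨e', ⟨h1, h2⟩, rfl⟩ := (mem_edges hI hs).1 he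
    exact edge_clause hΩ hI h1 l hl

/-- the points of the edge of a square are in the relative boundary -/
theorem edgeOfSq_frontier {e s : Idx × Fin 3} (h : EdgeOfSq e s) :
    edge v e ⊆ intrinsicFrontier ℝ (squ v s) := by
  rw [intrinsicFrontier_squ]
  intro x hx
  refine ⟨S308.edge_sub_squ h hx, fun hxr => ?_⟩
  obtain ⟨h1, h2, h3, h4, h5⟩ := h
  obtain ⟨k, hks, hke⟩ := fin3_third e.2 s.2 h2
  have h6 := (Gr.mem_edge.1 hx).1 k hke
  have h7 := hxr.2 k hks
  rw [h1] at h6
  rcases h5 k hke hks with h8 | h8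
  · rw [h6, h8] at h7
    exact lt_irrefl _ h7.1
  · rw [h6, h8] at h7
    push_cast at h7
    exact lt_irrefl _ h7.2

/-- sides of a square in a cube -/
theorem side_le {s : Idx × Fin 3} {r : Idx} (h : squ v s ⊆ dyc v r.1 r.2) :
    (1 : ℝ) / 2 ^ s.1.1 ≤ 1 / 2 ^ r.1 := by
  obtain ⟨k, hk⟩ : ∃ k : Fin 3, k ≠ s.2 := exists_ne _
  have hp : (0:ℝ) < 1 / 2 ^ s.1.1 := by positivity
  have h1 : (fun k => v k + s.1.2 k / 2 ^ s.1.1 : V) ∈ squ v s :=
    ⟨rfl, fun j _ => ⟨le_rfl, by rw [div_add_one]; linarith⟩⟩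
  have h2 : (fun k => if k = s.2 then v k + s.1.2 k / 2 ^ s.1.1 else
      v k + (s.1.2 k + 1) / 2 ^ s.1.1 : V) ∈ squ v s := by
    refine ⟨by simp, fun j hj => ?_⟩
    simp only [if_neg hj]
    exact ⟨by rw [div_add_one]; linarith, le_rfl⟩
  have h3 := (h h1 k).1
  have h4 := (h h2 k).2
  simp only [if_neg hk] at h3 h4
  rw [div_add_one, div_add_one] at h4
  linarith

/-- **The minimal edges are edges of the mesh of the partition.** -/
theorem isEdge_part (hΩ : IsOpen Ω) (hI : Part Ω v I) {e : Idx × Fin 3} (he : MinEdge v I e) :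
    IsEdge (partMesh hΩ hI) (segP v e) := by
  obtain ⟨r, hr, her⟩ := he.1
  obtain ⟨s, hs, hes, hsr⟩ := exists_minSq_of_minEdge hΩ hI he hr her
  refine ⟨segP_ne v e, ?_, edge_clause hΩ hI he, ?_⟩
  · obtain ⟨e₀, h1, h2⟩ := minEdge_sub hΩ hI hs he hes
    exact ⟨(⟨s, hs⟩ : {s : Idx × Fin 3 // MinSq v I s}), h2.trans (edgeOfSq_frontier h1)⟩
  · intro e' hsub hedge
    have hp0 : (segP v e).1 ∈ segment ℝ e'.1 e'.2 := hsub (left_mem_segment ℝ _ _)
    have hp1 : (segP v e).2 ∈ segment ℝ e'.1 e'.2 := hsub (right_mem_segment ℝ _ _)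
    rw [segment_eq_image'] at hp0 hp1
    obtain ⟨a, ha, ha'⟩ := hp0
    obtain ⟨b, hb, hb'⟩ := hp1
    simp only at ha' hb'
    have hab : a ≠ b := by
      rintro rfl
      exact segP_ne v e (ha'.symm.trans hb')
    -- the midpoint of the edge is in the open segment
    have hmid : Gr.mid v e = e'.1 + ((a + b) / 2) • (e'.2 - e'.1) := by
      have h1 : Gr.mid v e = (1 / 2 : ℝ) • (segP v e).1 + (1 / 2 : ℝ) • (segP v e).2 := by
        funext j
        simp only [Gr.mid, segP, Pi.add_apply, Pi.smul_apply, smul_eq_mul, pt, ev]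
        by_cases hj : j = e.2
        · subst hj
          simp only [if_true, Pi.single_eq_same]
          ring
        · simp only [if_neg hj, Pi.single_eq_of_ne hj]
          ring
      rw [h1, ← ha', ← hb']
      module
    have hopen : Gr.mid v e ∈ openSegment ℝ e'.1 e'.2 := by
      rw [openSegment_eq_image']
      refine ⟨(a + b) / 2, ?_, hmid.symm⟩
      rcases lt_or_gt_of_ne hab with h | h
      · constructor <;> linarith [ha.1, ha.2, hb.1, hb.2]
      · constructor <;> linarith [ha.1, ha.2, hb.1, hb.2]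
    have hin := hedge (⟨s, hs⟩ : {s : Idx × Fin 3 // MinSq v I s})
      ⟨_, hes (Gr.mid_spec v e).1, hopen⟩
    have hin' : segment ℝ e'.1 e'.2 ⊆ squ v s := hin
    -- the direction
    have hes2 : e.2 ≠ s.2 := by
      obtain ⟨e₀, h1, h2⟩ := minEdge_sub hΩ hI hs he hes
      intro hd
      have h3 := (hes (left_mem_segment ℝ _ _)).1
      have h4 := (hes (right_mem_segment ℝ _ _)).1
      rw [← hd] at h3 h4
      have hpos : (0:ℝ) < 1 / 2 ^ e.1.1 := by positivity
      simp only [Pi.add_apply, Pi.smul_apply, ev, Pi.single_eq_same, smul_eq_mul, mul_one] at h4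
      linarith
    have hother : ∀ j, j ≠ e.2 → e'.2 j = e'.1 j := by
      intro j hj
      have h1 : (segP v e).2 j = (segP v e).1 j := by
        simp [segP, ev, hj]
      rw [← ha', ← hb'] at h1
      simp only [Pi.add_apply, Pi.smul_apply, Pi.sub_apply, smul_eq_mul] at h1
      have h2 : (b - a) * (e'.2 j - e'.1 j) = 0 := by linarith
      rcases mul_eq_zero.1 h2 with h3 | h3
      · exact absurd (by linarith : a = b) hab
      · linarith
    intro x hx
    show x ∈ edge v e
    rw [Gr.mem_edge]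
    refine ⟨fun j hj => ?_, ?_⟩
    · rw [segment_eq_image'] at hx
      obtain ⟨t, -, rfl⟩ := hx
      have h1 : (segP v e).1 j = v j + e.1.2 j / 2 ^ e.1.1 := rfl
      rw [← h1, ← ha']
      simp only [Pi.add_apply, Pi.smul_apply, Pi.sub_apply, smul_eq_mul, hother j hj]
      ring
    · have h1 := (hin' hx).2 e.2 hes2
      have h2 := ((hes (left_mem_segment ℝ _ _)).2 e.2 hes2).1
      have h3 := ((hes (right_mem_segment ℝ _ _)).2 e.2 hes2).2
      have h4 := side_le hsr
      rw [← her.1] at h4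
      simp only [pt, ev, Pi.add_apply, Pi.smul_apply, Pi.single_eq_same, smul_eq_mul, mul_one]
        at h2 h3
      rw [P86.div_add_one] at h1 h3 ⊢
      constructor <;> linarith

end Vale.Agent.P073.H687
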