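import Vale.Agent.P073.H235.BoxSpec
import Vale.Agent.P073.H687.BoxMesh
import Vale.Agent.P073.H687.BoxBd

/-!
# P073, block A16, `[BOX-POST]`: the face theorem in dyadic form
-/

open Set Metric Topology Filter MeasureTheory
open scoped ENNReal

namespace Vale.Agent.P073.H687

open Vale.Agent.P073.St (V)
open Vale.Agent.P073.SQ (ev)
open Vale.Agent.P073.LOC (BdClose)
open Vale.Agent.P073.H73 (Mesh MinEdge segP onSeg ctr WLe faceL K2AS Aligned offY ELip)
open Vale.Agent.P073.H194 (partMesh)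
open Vale.Agent.P073.H235 (BoxData BoxOut SpecBoxPost meetY)
open Vale.Agent.P073.H239 (Deep faceI)
open Vale.Agent.P073.H304 (IsEdge)
open Vale.Agent.P073.AB Vale.Agent.P073.AB.P86
open _root_.P073 (ConHomeo)
open _root_.P073.Net (len dyc dyo IsTile SizeFn)

/-- no protected cells -/
theorem aligned_empty {Ω : Set V} (w : V) (ρ : V → ℝ) (M : Mesh Ω) (h : V → V) :
    Aligned w ρ M h ∅ where
  box := fun _ hi => absurd hi (notMem_empty _)
  tile := fun _ hi => absurd hi (notMem_empty _)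
  gen := fun _ hi => absurd hi (notMem_empty _)
  aff := fun _ hi => absurd hi (notMem_empty _)
  one := fun _ hi => absurd hi (notMem_empty _)

theorem exists_pos_le {α : Type*} {S : Set α} (hS : S.Finite) {β : α → ℝ} (hβ : ∀ a, 0 < β a) :
    ∃ t : ℝ, 0 < t ∧ ∀ a ∈ S, t ≤ β a := by
  induction S, hS using Set.Finite.induction_on with
  | empty => exact ⟨1, one_pos, by simp⟩
  | @insert a S _ _ ih =>
    obtain ⟨t, ht, h⟩ := ih
    refine ⟨min t (β a), lt_min ht (hβ a), ?_⟩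
    rintro b (rfl | hb)
    · exact min_le_right _ _
    · exact (min_le_left _ _).trans (h b hb)

theorem Deep.mono {c δ δ' : ℝ} (h : δ ≤ δ') {w : V} {ρ : V → ℝ} {J₀ : Set (ℕ × (Fin 3 → ℤ))}
    {A : Finset (Fin 3)} {m : ℕ} {z : Fin 3 → ℤ} {S : Set V} (hd : Deep c δ w ρ J₀ A m z S) :
    Deep c δ' w ρ J₀ A m z S where
  tile := hd.tile
  act := hd.act
  near := fun y hy j hj => (hd.near y hy j hj).trans (by gcongr)
  mid := hd.mid

/-- an edge in a square is not longer than the side of the square -/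
theorem edge_dir {v : V} {e s : Idx × Fin 3} (h : edge v e ⊆ squ v s) : e.2 ≠ s.2 := by
  intro hd
  have h3 := (h (left_mem_segment ℝ _ _)).1
  have h4 := (h (right_mem_segment ℝ _ _)).1
  rw [← hd] at h3 h4
  have hpos : (0:ℝ) < 1 / 2 ^ e.1.1 := by positivity
  simp only [Pi.add_apply, Pi.smul_apply, ev, Pi.single_eq_same, smul_eq_mul, mul_one] at h4
  linarith

theorem edge_len_le {v : V} {e s : Idx × Fin 3} (h : edge v e ⊆ squ v s) :
    (1:ℝ) / 2 ^ e.1.1 ≤ 1 / 2 ^ s.1.1 := by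
  have h2 := ((h (left_mem_segment ℝ _ _)).2 e.2 (edge_dir h)).1
  have h3 := ((h (right_mem_segment ℝ _ _)).2 e.2 (edge_dir h)).2
  simp only [pt, ev, Pi.add_apply, Pi.smul_apply, Pi.single_eq_same, smul_eq_mul, mul_one]
    at h2 h3
  rw [P86.div_add_one] at h3
  linarith

/-- the side of a square as a dyadic edge -/
theorem side_segP {v : V} {s : Idx × Fin 3} {i : Fin 3} (hi : i ≠ s.2) {x : V}
    (hx : x ∈ H73.sqr (sc v s) s.2 (1 / 2 / 2 ^ s.1.1))
    (hx' : x + (2 * (1 / 2 / 2 ^ s.1.1) : ℝ) • ev i ∈ H73.sqr (sc v s) s.2 (1 / 2 / 2 ^ s.1.1))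
    (hxx : ∀ j, j ≠ i → j ≠ s.2 → |x j - sc v s j| = 1 / 2 / 2 ^ s.1.1) :
    ∃ e : Idx × Fin 3, EdgeOfSq e s ∧ e.2 = i ∧ e.1.1 = s.1.1 ∧
      segP v e = (x, x + (2 * (1 / 2 / 2 ^ s.1.1) : ℝ) • ev i) := by
  obtain ⟨k, hks, hki⟩ := fin3_third i s.2 hi
  have hall := fin3_all s.2 k i hks hi hki.symm
  have hsci : sc v s i = v i + s.1.2 i / 2 ^ s.1.1 + 1 / 2 / 2 ^ s.1.1 := by
    rw [sc, if_neg hi, add_div]; ring
  have hsck : sc v s k = v k + s.1.2 k / 2 ^ s.1.1 + 1 / 2 / 2 ^ s.1.1 := by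
    rw [sc, if_neg hks, add_div]; ring
  have hscs : sc v s s.2 = v s.2 + s.1.2 s.2 / 2 ^ s.1.1 := by
    rw [sc, if_pos rfl]
  have hxi : x i = v i + s.1.2 i / 2 ^ s.1.1 := by
    have h1 := (abs_le.1 (hx.2 i)).1
    have h2 := (abs_le.1 (hx'.2 i)).2
    simp only [Pi.add_apply, Pi.smul_apply, ev, Pi.single_eq_same, smul_eq_mul, mul_one] at h2
    rw [hsci] at h1 h2
    linarith
  obtain ⟨c, hc, hxk⟩ : ∃ c : ℤ, (c = s.1.2 k ∨ c = s.1.2 k + 1) ∧
      x k = v k + c / 2 ^ s.1.1 := by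
    have h1 := hxx k hki hks
    rw [hsck] at h1
    rcases eq_or_eq_neg_of_abs_eq h1 with h2 | h2
    · refine ⟨s.1.2 k + 1, Or.inr rfl, ?_⟩
      push_cast
      rw [add_div]
      have : (1:ℝ) / 2 ^ s.1.1 = 2 * (1 / 2 / 2 ^ s.1.1) := by ring
      rw [this]
      linarith
    · refine ⟨s.1.2 k, Or.inl rfl, ?_⟩
      linarith
  have hspec := (side_spec (v := v) hks hi hki.symm hc).1
  refine ⟨_, hspec, rfl, rfl, ?_⟩
  have hpt : pt v s.1.1 (Function.update s.1.2 k c) = x := by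
    funext j
    rcases hall j with h | h | h
    · rw [h]
      show v s.2 + ((Function.update s.1.2 k c s.2 : ℤ) : ℝ) / 2 ^ s.1.1 = x s.2
      rw [Function.update_of_ne hks.symm, hx.1, hscs]
    · rw [h]
      show v k + ((Function.update s.1.2 k c k : ℤ) : ℝ) / 2 ^ s.1.1 = x k
      rw [Function.update_self, hxk]
    · rw [h]
      show v i + ((Function.update s.1.2 k c i : ℤ) : ℝ) / 2 ^ s.1.1 = x i
      rw [Function.update_of_ne hki.symm, hxi]
  have h2 : (2 * (1 / 2 / 2 ^ s.1.1) : ℝ) = 1 / 2 ^ s.1.1 := by ring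
  rw [h2]
  show (pt v s.1.1 (Function.update s.1.2 k c),
    pt v s.1.1 (Function.update s.1.2 k c) + (1 / 2 ^ s.1.1 : ℝ) • ev i) = _
  rw [hpt]

/-- **[BOX-POST]** -/
theorem specBoxPost {p : ℝ} (hp : 0 ≤ p) : SpecBoxPost p := by
  intro hK
  obtain ⟨D₀, C, hK⟩ := hK
  refine ⟨max D₀ 1, le_max_right _ _, fun μ hμ => ?_⟩
  obtain ⟨D₀', C', r, hr, hK⟩ := hK μ hμ
  refine ⟨max D₀' (max D₀ 1), le_max_right _ _, min r 1, lt_min hr one_pos, min_le_right _ _,
    fun c hc hc4 => ?_⟩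
  obtain ⟨δ, hδ, hK⟩ := hK c hc hc4
  refine ⟨min δ c, lt_min hδ hc, min_le_right _ _, ?_⟩
  intro U Λ fc hU hΛ hfc P Y β hβ
  set D : ℝ := max D₀ 1 with hD
  set D' : ℝ := max D₀' D with hD'
  have hD1 : 1 ≤ D := le_max_right _ _
  have hD0 : D₀ ≤ D := le_max_left _ _
  have hD1' : 1 ≤ D' := hD1.trans (le_max_right _ _)
  have hD0' : D₀' ≤ D' := le_max_left _ _
  have hI := P.part
  have hUo := hU.1
  -- the errors
  have hε : ∀ k : (partMesh hUo hI).κ, ∃ t : ℝ, 0 < t ∧ t ≤ β k.1 / 4 ∧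
      ∀ e, MinEdge P.v P.I e → edge P.v e ⊆ squ P.v k.1 → t ≤ β e := by
    intro k
    obtain ⟨t, ht, h⟩ := exists_pos_le (finite_minEdge hI k.2) hβ
    have := hβ k.1
    refine ⟨min t (β k.1 / 4), lt_min ht (by positivity), min_le_right _ _, ?_⟩
    intro e he hes
    exact (min_le_left _ _).trans (h e ⟨he, hes⟩)
  choose ε hε0 hε1 hε2 using hε
  set Y' : Set (partMesh hUo hI).κ := {k | k.1 ∈ Y} with hY'
  obtain ⟨g, hg⟩ := hK U Λ hU hΛ 0 P.ρ P.size (partMesh hUo hI) P.h ∅ P.c P.cmem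
    (fun k x hx m z hz hxz => by
      obtain ⟨h1, h2⟩ := P.cond k.1 k.2 x hx m z hz hxz
      refine ⟨h1, fun y hy => (h2 y hy).trans ?_⟩
      gcongr
      exact min_le_left _ _) (aligned_empty _ _ _ _) Y' ε hε0
  -- lengths as a function of the segment
  set ℓ' : V × V → ℝ≥0∞ := Function.extend (segP P.v) P.ℓ 0 with hℓ'
  have hℓe : ∀ e, ℓ' (segP P.v e) = P.ℓ e := fun e => (segP_injective P.v).extend_apply _ _ _
  have hoff : ∀ s (hs : MinSq P.v P.I s), ¬ meetY P.v Y (squ P.v s) →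
      (⟨s, hs⟩ : {s : Idx × Fin 3 // MinSq P.v P.I s}) ∈ offY (partMesh hUo hI) Y' := by
    intro s hs hm k' hk'
    rw [Set.disjoint_left]
    intro x hx hx'
    exact hm ⟨k'.1, hk', x, hx', hx⟩
  have hclose : ∀ s, MinSq P.v P.I s → ∀ x ∈ squ P.v s, ∀ m z, IsTile P.ρ 0 m z →
      P.h.toFun x ∈ dyc 0 m z → ‖g.toFun x - P.h.toFun x‖ ≤ D / 2 ^ m := by
    intro s hs x hx m z hz hxz
    refine (hg.out.close (⟨s, hs⟩ : {s : Idx × Fin 3 // MinSq P.v P.I s}) x hx m z hz hxz).trans ?_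
    gcongr
  refine ⟨g, ?_, hclose, ?_, ?_, ?_, ?_⟩
  · exact bdClose_of_squares hU hΛ hI hfc P.bd P.size (by linarith) hclose
  · -- energy
    intro s hs
    have hσ : (0:ℝ) < 1 / 2 / 2 ^ s.1.1 := by positivity
    have key : ∀ (D₁ D₂ : ℝ), D₁ ≤ D₂ → 1 ≤ D₂ →
        (∀ (E : Finset (V × V)) (ℓ : V × V → ℝ≥0∞) (a : V) (l : Fin 3) (σ : ℝ), 0 < σ →
          squ P.v s = H73.sqr a l σ →
          H73.Adapted (partMesh hUo hI) (⟨s, hs⟩ : {s : Idx × Fin 3 // MinSq P.v P.I s}) E →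
          (∀ e ∈ E, ∃ W, WLe 0 P.ρ P.c P.h.toFun e W ∧
            ENNReal.ofReal W * len (onSeg P.h.toFun e) (Icc 0 1) ≤ ℓ e) →
          faceL p g.toFun a l σ ≤ ENNReal.ofReal (D₁ * σ ^ 2) *
            ∑ e ∈ E, ENNReal.ofReal (‖e.2 - e.1‖ ^ (1 - p)) *
              (ℓ e + ENNReal.ofReal (ε (⟨s, hs⟩ : {s : Idx × Fin 3 // MinSq P.v P.I s}) *
                ‖e.2 - e.1‖ / σ)) ^ p) →
        faceL p g.toFun (sc P.v s) s.2 (1 / 2 / 2 ^ s.1.1) ≤
          ENNReal.ofReal (D₂ * (1 / 2 ^ s.1.1) ^ 2) *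
            ∑' e : {e : Idx × Fin 3 // MinEdge P.v P.I e ∧ edge P.v e ⊆ squ P.v s},
              ENNReal.ofReal ((1 / 2 ^ e.1.1.1) ^ (1 - p)) *
                (P.ℓ e.1 + ENNReal.ofReal (β s)) ^ p := by
      intro D₁ D₂ h12 h1 hen
      refine (hen (edges hI hs) ℓ' (sc P.v s) s.2 _ hσ (squ_eq_sqr P.v s)
        (adapted_part hUo hI hs) ?_).trans ?_
      · intro e he
        obtain ⟨e', ⟨he1, -⟩, rfl⟩ := (mem_edges hI hs).1 he
        rw [hℓe]
        exact P.len e' he1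
      · rw [sum_edges hI hs]
        refine mul_le_mul' (ENNReal.ofReal_le_ofReal ?_) (ENNReal.tsum_le_tsum fun e => ?_)
        · have e1 : ((1:ℝ) / 2 / 2 ^ s.1.1) ^ 2 ≤ (1 / 2 ^ s.1.1) ^ 2 := by
            gcongr
            norm_num
          have e2 : 0 ≤ ((1:ℝ) / 2 / 2 ^ s.1.1) ^ 2 := by positivity
          nlinarith
        · rw [norm_segP, hℓe]
          gcongr
          have e1 := edge_len_le e.2.2
          have e2 := hε0 (⟨s, hs⟩ : {s : Idx × Fin 3 // MinSq P.v P.I s})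
          have e3 := hε1 (⟨s, hs⟩ : {s : Idx × Fin 3 // MinSq P.v P.I s})
          rw [div_le_iff₀ hσ]
          have e4 : (1:ℝ) / 2 / 2 ^ s.1.1 = 1 / 2 * (1 / 2 ^ s.1.1) := by ring
          rw [e4]
          have e5 : 0 < (1:ℝ) / 2 ^ s.1.1 := by positivity
          have e6 := hβ s
          nlinarith
    by_cases hm : meetY P.v Y (squ P.v s)
    · rw [if_pos hm]
      exact key D₀' D' hD0' hD1' (hg.out'.energy
        (⟨s, hs⟩ : {s : Idx × Fin 3 // MinSq P.v P.I s}) (mem_univ _))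
    · rw [if_neg hm]
      exact key D₀ D hD0 hD1 (hg.out.energy
        (⟨s, hs⟩ : {s : Idx × Fin 3 // MinSq P.v P.I s}) (hoff s hs hm))
  · -- speed on the edges
    intro s hs e he hes hℓt x hx y hy
    have key : ∀ (D₁ D₂ : ℝ), D₁ ≤ D₂ → 1 ≤ D₂ →
        (∀ ℓ : ℝ, 0 ≤ ℓ → (∃ W, WLe 0 P.ρ P.c P.h.toFun (segP P.v e) W ∧
            ENNReal.ofReal W * len (onSeg P.h.toFun (segP P.v e)) (Icc 0 1) ≤
              ENNReal.ofReal ℓ) →
          ∀ x ∈ edge P.v e, ∀ y ∈ edge P.v e, ‖g.toFun x - g.toFun y‖ ≤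
            D₁ * ((ℓ + ε (⟨s, hs⟩ : {s : Idx × Fin 3 // MinSq P.v P.I s})) /
              ‖(segP P.v e).2 - (segP P.v e).1‖) * ‖x - y‖) →
        ‖g.toFun x - g.toFun y‖ ≤ D₂ * (((P.ℓ e).toReal + β e) * 2 ^ e.1.1) * ‖x - y‖ := by
      intro D₁ D₂ h12 h1 hen
      refine (hen (P.ℓ e).toReal ENNReal.toReal_nonneg ?_ x hx y hy).trans ?_
      · rw [ENNReal.ofReal_toReal hℓt]
        exact P.len e he
      · rw [norm_segP]
        have e2 := hε0 (⟨s, hs⟩ : {s : Idx × Fin 3 // MinSq P.v P.I s})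
        have e3 := hε2 (⟨s, hs⟩ : {s : Idx × Fin 3 // MinSq P.v P.I s}) e he hes
        have e4 : ((P.ℓ e).toReal + ε (⟨s, hs⟩ : {s : Idx × Fin 3 // MinSq P.v P.I s})) /
            (1 / 2 ^ e.1.1) = ((P.ℓ e).toReal +
              ε (⟨s, hs⟩ : {s : Idx × Fin 3 // MinSq P.v P.I s})) * 2 ^ e.1.1 := by
          field_simp
        rw [e4]
        have e5 : 0 ≤ (P.ℓ e).toReal := ENNReal.toReal_nonneg
        refine mul_le_mul_of_nonneg_right ?_ (norm_nonneg _)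
        calc D₁ * (((P.ℓ e).toReal +
              ε (⟨s, hs⟩ : {s : Idx × Fin 3 // MinSq P.v P.I s})) * 2 ^ e.1.1)
            ≤ D₂ * (((P.ℓ e).toReal +
              ε (⟨s, hs⟩ : {s : Idx × Fin 3 // MinSq P.v P.I s})) * 2 ^ e.1.1) := by
              refine mul_le_mul_of_nonneg_right h12 ?_
              positivity
          _ ≤ D₂ * (((P.ℓ e).toReal + β e) * 2 ^ e.1.1) := by gcongr
    by_cases hm : meetY P.v Y (squ P.v s)
    · rw [if_pos hm]
      exact key D₀' D' hD0' hD1' fun ℓ h0 hℓ => hg.elip'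
        (⟨s, hs⟩ : {s : Idx × Fin 3 // MinSq P.v P.I s}) (mem_univ _) (segP P.v e)
        (isEdge_part hUo hI he) hes ℓ h0 hℓ
    · rw [if_neg hm]
      exact key D₀ D hD0 hD1 fun ℓ h0 hℓ => hg.elip _ (hoff s hs hm) (segP P.v e)
        (isEdge_part hUo hI he) hes ℓ h0 hℓ
  · -- sharp edges
    intro e he A hA hA' m z hd
    obtain ⟨r', hr', her⟩ := he.1
    obtain ⟨s, hs, hes, -⟩ := exists_minSq_of_minEdge hUo hI he hr' her
    have h1 := hg.sharp.tv (⟨s, hs⟩ : {s : Idx × Fin 3 // MinSq P.v P.I s}) (segP P.v e)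
      (isEdge_part hUo hI he) hes A hA hA' m z (Deep.mono (min_le_left _ _) hd)
    refine h1.trans ?_
    gcongr
    exact hε2 (⟨s, hs⟩ : {s : Idx × Fin 3 // MinSq P.v P.I s}) e he hes
  · -- sharp faces
    intro s hsY hs m z hd hed
    have hσ : (0:ℝ) < 1 / 2 / 2 ^ s.1.1 := by positivity
    have h2σ : 2 * ((1:ℝ) / 2 / 2 ^ s.1.1) = 1 / 2 ^ s.1.1 := by ring
    refine (hg.sharp.face (⟨s, hs⟩ : {s : Idx × Fin 3 // MinSq P.v P.I s}) hsY (sc P.v s) s.2 _ hσ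
      (squ_eq_sqr P.v s) m z (Deep.mono (min_le_left _ _) hd) ?_).trans ?_
    · intro i hi x hx hx' hxx
      obtain ⟨e, he1, he2, he3, he4⟩ := side_segP hi hx hx' hxx
      obtain ⟨h1, h2, h3, h4⟩ := hed e he1
      rw [← he4]
      refine ⟨isEdge_part hUo hI h1, ?_, ?_, ?_⟩
      · have e1 : x + (2 * (1 / 2 / 2 ^ s.1.1) : ℝ) • ev i = (segP P.v e).2 := by rw [he4]
        have e2 : x = (segP P.v e).1 := by rw [he4]
        rw [e1, e2, ← he2, h2σ, mul_one_div]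
        refine le_trans ?_ h2
        have : min r 1 ≤ r := min_le_left _ _
        gcongr
      · refine h3.trans (ENNReal.ofReal_le_ofReal ?_)
        rw [h2σ, mul_one_div]
        have : min r 1 ≤ r := min_le_left _ _
        gcongr
      · refine h4.trans (ENNReal.ofReal_le_ofReal ?_)
        rw [h2σ, mul_one_div]
        have : min r 1 ≤ r := min_le_left _ _
        gcongr
    · refine ENNReal.ofReal_le_ofReal ?_
      have e3 := hε1 (⟨s, hs⟩ : {s : Idx × Fin 3 // MinSq P.v P.I s})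
      have e2 := hε0 (⟨s, hs⟩ : {s : Idx × Fin 3 // MinSq P.v P.I s})
      have e6 := hβ s
      gcongr
      · simp only at e3
        linarith
      · norm_num

end Vale.Agent.P073.H687
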