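import Vale.Agent.P073.H73.K2A
import Vale.Agent.P073.H339.Ball23
import Vale.Agent.P073.SCH.Disc
import Vale.Agent.P073.ConicalStrata2

/-!
# P073, A15 [T2]: charts of convex polygons

Every convex polygon in a plane of `V` has a bi-Lipschitz conical chart (`exists_fat`), with a
constant `cst (nrm F)` which only depends on the polygon up to translations and homotheties.
-/

open Set Metric Topology Filter Module
open scoped NNReal

namespace Vale.Agent.P073.H687

open Vale.Agent.P073.St (V)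
open _root_.P073
open Vale.Agent.P073.H73 (usq Fat Mesh)

section
variable {E F : Type*} [NormedAddCommGroup E] [NormedSpace ℝ E] [FiniteDimensional ℝ E]
  [NormedAddCommGroup F] [NormedSpace ℝ F]

/-- conical continuous maps are Lipschitz on compact sets -/
theorem exists_lip {h : E → F} (H : ConicalOn h univ) (hc : Continuous h) {K : Set E}
    (hK : IsCompact K) : ∃ C : ℝ, 0 < C ∧ ∀ x ∈ K, ∀ y ∈ K, ‖h x - h y‖ ≤ C * ‖x - y‖ := by
  choose δ hδ hb M hM using fun x : E =>
    exists_lipschitz_near (Ω := univ) isOpen_univ H hc.continuousOn (mem_univ x)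
  obtain ⟨T, -, hT⟩ := hK.elim_nhds_subcover (fun x => ball x (δ x))
    (fun x _ => ball_mem_nhds x (hδ x))
  obtain ⟨ε, hε, hL⟩ := lebesgue_number_lemma_of_metric
    (c := fun x : {x // x ∈ T} => ball (x : E) (δ x)) hK (fun x => isOpen_ball) (by
      intro y hy
      obtain ⟨x, hx, hxy⟩ := mem_iUnion₂.1 (hT hy)
      exact mem_iUnion.2 ⟨⟨x, hx⟩, hxy⟩)
  obtain ⟨B, hB⟩ := (hK.image hc).isBounded.exists_norm_le
  have hS : (0:ℝ) ≤ ∑ x ∈ T, (M x : ℝ) := Finset.sum_nonneg fun x _ => (M x).2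
  have hBε : 0 ≤ 2 * |B| / ε := by positivity
  refine ⟨(∑ x ∈ T, (M x : ℝ)) + 2 * |B| / ε + 1, by positivity, fun x hx y hy => ?_⟩
  by_cases hxy : ‖x - y‖ < ε
  · obtain ⟨z, hz⟩ := hL x hx
    have h1 := (hM z).dist_le_mul x (hz (mem_ball_self hε)) y
      (hz (by rw [mem_ball, dist_comm, dist_eq_norm]; exact hxy))
    rw [dist_eq_norm, dist_eq_norm] at h1
    refine h1.trans (mul_le_mul_of_nonneg_right ?_ (norm_nonneg _))
    have h2 : (M z : ℝ) ≤ ∑ x ∈ T, (M x : ℝ) :=
      Finset.single_le_sum (f := fun x => (M x : ℝ)) (fun x _ => (M x).2) z.2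
    linarith
  · push Not at hxy
    have h1 : ‖h x‖ ≤ |B| := (hB _ ⟨x, hx, rfl⟩).trans (le_abs_self B)
    have h2 : ‖h y‖ ≤ |B| := (hB _ ⟨y, hy, rfl⟩).trans (le_abs_self B)
    calc ‖h x - h y‖ ≤ ‖h x‖ + ‖h y‖ := norm_sub_le _ _
      _ ≤ 2 * |B| / ε * ε := by rw [div_mul_cancel₀ _ hε.ne']; linarith
      _ ≤ 2 * |B| / ε * ‖x - y‖ := mul_le_mul_of_nonneg_left hxy hBε
      _ ≤ _ := mul_le_mul_of_nonneg_right (by linarith) (norm_nonneg _)

end

/-- doubling -/
noncomputable def dbl : ConHomeo (univ : Set (ℝ × ℝ)) (univ : Set (ℝ × ℝ)) where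
  toFun z := (2:ℝ) • z + (-1, -1)
  invFun z := (1 / 2 : ℝ) • (z + (1, 1))
  mapsTo := mapsTo_univ _ _
  mapsTo_inv := mapsTo_univ _ _
  left_inv := fun z _ => by
    ext <;> simp
  right_inv := fun z _ => by
    ext <;> simp
  cont := by fun_prop
  cont_inv := by fun_prop
  conical := ((conicalOn_id (IsOpen.conicalSet isOpen_univ)).const_smul 2).add
    (conicalOn_const _ (IsOpen.conicalSet isOpen_univ))

theorem dbl_usq : dbl.toFun '' usq = closedBall 0 1 := by
  ext z
  constructor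
  · rintro ⟨w, ⟨⟨h1, h2⟩, ⟨h3, h4⟩⟩, rfl⟩
    rw [mem_closedBall_zero_iff, Prod.norm_def, max_le_iff, Real.norm_eq_abs, Real.norm_eq_abs,
      abs_le, abs_le]
    simp only [dbl, Prod.fst_add, Prod.smul_fst, Prod.snd_add, Prod.smul_snd, smul_eq_mul]
    refine ⟨⟨?_, ?_⟩, ⟨?_, ?_⟩⟩ <;> linarith
  · intro h
    rw [mem_closedBall_zero_iff, Prod.norm_def, max_le_iff, Real.norm_eq_abs, Real.norm_eq_abs,
      abs_le, abs_le] at h
    obtain ⟨⟨h1, h2⟩, h3, h4⟩ := h
    refine ⟨dbl.invFun z, ⟨⟨?_, ?_⟩, ?_, ?_⟩, dbl.right_inv (mem_univ z)⟩ <;>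
      simp only [dbl, Prod.fst_add, Prod.smul_fst, Prod.snd_add, Prod.smul_snd, smul_eq_mul] <;>
      linarith

theorem isCompact_usq : IsCompact usq := isCompact_Icc.prod isCompact_Icc

theorem convex_usq : Convex ℝ usq := (convex_Icc 0 1).prod (convex_Icc 0 1)

/-- polygons of the plane are ambient images of the square -/
theorem exists_ambient_usq {P : Set (ℝ × ℝ)} (hP : H339.Poly P) (hc : IsCompact P)
    (hi : (interior P).Nonempty) :
    ∃ Φ : ConHomeo (univ : Set (ℝ × ℝ)) (univ : Set (ℝ × ℝ)), Φ.toFun '' usq = P := by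
  have h1 := (H339.polyBall_two (ℝ × ℝ) (by simp) P hP hc hi).conSphere
  rw [H339.conSphere_iff] at h1
  obtain ⟨Φ, hΦ⟩ := ambDisc_of_convex hc hP.convex hi h1
  refine ⟨dbl.trans Φ, ?_⟩
  rw [ConHomeo.trans_toFun, image_comp, dbl_usq, hΦ]

/-- the chart of a convex polygon in a plane -/
theorem exists_fat {F : Set V}
    (hF : ∃ (n : ℕ) (ν : Fin n → V →L[ℝ] ℝ) (t : Fin n → ℝ), F = {x | ∀ i, ν i x ≤ t i})
    (hc : IsCompact F) {μ : V →L[ℝ] ℝ} {s : ℝ} (hμ : μ ≠ 0) (hs : ∀ x ∈ F, μ x = s) {y : V}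
    (hy : y ∈ F) {r : ℝ} (hr : 0 < r) (hb : ∀ z ∈ ball y r, μ z = s → z ∈ F) :
    ∃ c, 0 < c ∧ Fat c 1 F := by
  classical
  have hys := hs y hy
  have hPoly : H339.Poly F := by
    obtain ⟨n, ν, t, rfl⟩ := hF
    refine ⟨Finset.univ.image fun i => (ν i, t i), ?_⟩
    ext x
    simp only [mem_ofPred_eq, Finset.mem_image, Finset.mem_univ, true_and, forall_exists_index,
      forall_apply_eq_imp_iff]
  let N : Submodule ℝ V := LinearMap.ker (μ : V →ₗ[ℝ] ℝ)
  have hN : finrank ℝ N = 2 := by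
    have h1 := Module.Dual.finrank_ker_add_one_of_ne_zero (f := (μ : V →ₗ[ℝ] ℝ)) (by
      intro h
      apply hμ
      ext x
      exact congrArg (fun g : V →ₗ[ℝ] ℝ => g x) h)
    have h3 : finrank ℝ V = 3 := by simp
    have h2 : finrank ℝ N + 1 = 3 := h1.trans h3
    omega
  obtain ⟨L⟩ : Nonempty ((ℝ × ℝ) ≃L[ℝ] N) :=
    FiniteDimensional.nonempty_continuousLinearEquiv_of_finrank_eq (by rw [hN]; simp)
  let A : (ℝ × ℝ) →L[ℝ] V := N.subtypeL.comp (L : (ℝ × ℝ) →L[ℝ] N)
  have hAi : Function.Injective A := Subtype.val_injective.comp L.injective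
  have hAμ : ∀ z, μ (A z) = 0 := fun z => (L z).2
  obtain ⟨K, hK0, hK⟩ := LinearMap.exists_antilipschitzWith (A : (ℝ × ℝ) →ₗ[ℝ] V)
    (LinearMap.ker_eq_bot.2 hAi)
  have hK' : ∀ z, ‖z‖ ≤ K * ‖A z‖ := by
    intro z
    have := hK.le_mul_dist z 0
    simpa [dist_eq_norm] using this
  set P : Set (ℝ × ℝ) := {z | y + A z ∈ F} with hPdef
  have hPP : H339.Poly P := hPoly.preimage A y
  have himg : (fun z => y + A z) '' P = F := by
    ext x
    constructor
    · rintro ⟨z, hz, rfl⟩; exact hz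
    · intro hx
      have h1 : x - y ∈ N := by
        show μ (x - y) = 0
        rw [map_sub, hs x hx, hys, sub_self]
      have h2 : A (L.symm ⟨x - y, h1⟩) = x - y := by
        show ((L (L.symm ⟨x - y, h1⟩) : N) : V) = x - y
        rw [L.apply_symm_apply]
      refine ⟨L.symm ⟨x - y, h1⟩, ?_, ?_⟩
      · show y + A _ ∈ F
        rw [h2, add_sub_cancel]; exact hx
      · show y + A _ = x
        rw [h2, add_sub_cancel]
  have hPc : IsCompact P := by
    refine Metric.isCompact_of_isClosed_isBounded hPP.isClosed ?_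
    obtain ⟨B, hB⟩ := hc.isBounded.exists_norm_le
    refine (isBounded_iff_forall_norm_le.2 ⟨K * (B + ‖y‖), fun z hz => ?_⟩)
    refine (hK' z).trans (mul_le_mul_of_nonneg_left ?_ K.2)
    have h1 : ‖y + A z‖ ≤ B := hB _ hz
    calc ‖A z‖ = ‖(y + A z) - y‖ := by rw [add_sub_cancel_left]
      _ ≤ ‖y + A z‖ + ‖y‖ := norm_sub_le _ _
      _ ≤ B + ‖y‖ := by linarith
  have hPi : (interior P).Nonempty := by
    refine ⟨0, mem_interior_iff_mem_nhds.2 ?_⟩
    have h1 : ContinuousAt (fun z : ℝ × ℝ => y + A z) 0 := by fun_prop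
    have h2 : ball y r ∈ 𝓝 (y + A 0) := by
      rw [map_zero, add_zero]; exact ball_mem_nhds y hr
    filter_upwards [h1.preimage_mem_nhds h2] with z hz
    refine hb _ hz ?_
    rw [map_add, hAμ, hys, add_zero]
  obtain ⟨Φ, hΦ⟩ := exists_ambient_usq hPP hPc hPi
  have hΦc : Continuous Φ.toFun := continuousOn_univ.1 Φ.cont
  have hΦc' : Continuous Φ.invFun := continuousOn_univ.1 Φ.cont_inv
  obtain ⟨C₁, hC₁, h₁⟩ := exists_lip Φ.conical hΦc isCompact_usq
  obtain ⟨C₂, hC₂, h₂⟩ := exists_lip Φ.conical_inv hΦc' hPc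
  have husq : ConicalSet usq := Convex.conicalSet convex_usq
  have hcon : ConicalOn (fun z => y + A (Φ.toFun z)) usq :=
    (conicalOn_const y husq).add
      ((Φ.conical.mono husq (subset_univ _)).linear_comp (A : (ℝ × ℝ) →ₗ[ℝ] V))
  have hinj : InjOn (fun z => y + A (Φ.toFun z)) usq := by
    intro z _ w _ hzw
    have h1 : A (Φ.toFun z) = A (Φ.toFun w) := add_left_cancel hzw
    have h2 := hAi h1
    exact Φ.injOn (mem_univ z) (mem_univ w) h2
  have hYimg : (fun z => y + A (Φ.toFun z)) '' usq = F := by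
    rw [← himg, ← hΦ, image_image]
  let φ : ConHomeo usq F := ConHomeo.ofCompact isCompact_usq (fun z => y + A (Φ.toFun z))
    (by fun_prop) hinj hcon hYimg
  have hφ : φ.toFun = fun z => y + A (Φ.toFun z) := ConHomeo.ofCompact_toFun _ _ _ _ _ _
  refine ⟨‖A‖ * C₁ + C₂ * K + 1, by positivity, ⟨hF, ⟨μ, s, hμ, hs⟩, φ, ?_, ?_⟩⟩
  · intro z hz w hw
    rw [hφ]
    simp only
    rw [add_sub_add_left_eq_sub, ← map_sub]
    calc ‖A (Φ.toFun z - Φ.toFun w)‖ ≤ ‖A‖ * ‖Φ.toFun z - Φ.toFun w‖ := A.le_opNorm _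
      _ ≤ ‖A‖ * (C₁ * ‖z - w‖) := mul_le_mul_of_nonneg_left (h₁ z hz w hw) (norm_nonneg _)
      _ ≤ (‖A‖ * C₁ + C₂ * K + 1) * 1 * ‖z - w‖ := by
        rw [mul_one, ← mul_assoc]
        refine mul_le_mul_of_nonneg_right ?_ (norm_nonneg _)
        have : 0 ≤ C₂ * (K : ℝ) := mul_nonneg hC₂.le K.2
        linarith
  · intro z hz w hw
    rw [hφ]
    simp only
    rw [add_sub_add_left_eq_sub, ← map_sub, one_mul]
    have e1 : Φ.invFun (Φ.toFun z) = z := Φ.left_inv (mem_univ z)
    have e2 : Φ.invFun (Φ.toFun w) = w := Φ.left_inv (mem_univ w)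
    have m1 : Φ.toFun z ∈ P := hΦ ▸ mem_image_of_mem _ hz
    have m2 : Φ.toFun w ∈ P := hΦ ▸ mem_image_of_mem _ hw
    calc ‖z - w‖ = ‖Φ.invFun (Φ.toFun z) - Φ.invFun (Φ.toFun w)‖ := by rw [e1, e2]
      _ ≤ C₂ * ‖Φ.toFun z - Φ.toFun w‖ := h₂ _ m1 _ m2
      _ ≤ C₂ * (K * ‖A (Φ.toFun z - Φ.toFun w)‖) := mul_le_mul_of_nonneg_left (hK' _) hC₂.le
      _ ≤ (‖A‖ * C₁ + C₂ * K + 1) * ‖A (Φ.toFun z - Φ.toFun w)‖ := by
        rw [← mul_assoc]
        refine mul_le_mul_of_nonneg_right ?_ (norm_nonneg _)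
        have : 0 ≤ ‖A‖ * C₁ := mul_nonneg (norm_nonneg _) hC₁.le
        linarith

/-! ### Homotheties -/

/-- homotheties of conical sets -/
noncomputable def hom (r : ℝ) (a : V) (hr : 0 < r) {G : Set V} (hG : ConicalSet G) :
    ConHomeo G ((fun x => r • x + a) '' G) where
  toFun := fun x => r • x + a
  invFun := fun y => r⁻¹ • (y - a)
  mapsTo := mapsTo_image _ _
  mapsTo_inv := by
    rintro _ ⟨x, hx, rfl⟩
    simp only
    rw [add_sub_cancel_right, smul_smul, inv_mul_cancel₀ hr.ne', one_smul]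
    exact hx
  left_inv := fun x _ => by
    simp only
    rw [add_sub_cancel_right, smul_smul, inv_mul_cancel₀ hr.ne', one_smul]
  right_inv := fun y _ => by
    simp only
    rw [smul_smul, mul_inv_cancel₀ hr.ne', one_smul, sub_add_cancel]
  cont := by fun_prop
  cont_inv := by fun_prop
  conical := ((conicalOn_id hG).const_smul r).add (conicalOn_const a hG)

theorem Fat.mono {c c' r : ℝ} {F : Set V} (h : Fat c r F) (hcc : c ≤ c') (hr : 0 ≤ r) :
    Fat c' r F := by
  obtain ⟨φ, h1, h2⟩ := h.chart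
  exact ⟨h.half, h.plane, φ, fun x hx y hy => (h1 x hx y hy).trans (by gcongr),
    fun x hx y hy => (h2 x hx y hy).trans (by gcongr)⟩

theorem Fat.image {c r : ℝ} {F : Set V} (h : Fat c r F) {s : ℝ} (hs : 0 < s) (a : V) :
    Fat c (s * r) ((fun x => s • x + a) '' F) := by
  obtain ⟨n, ν, t, hF⟩ := h.half
  obtain ⟨μ, u, hμ, hu⟩ := h.plane
  obtain ⟨φ, h1, h2⟩ := h.chart
  refine ⟨⟨n, ν, fun i => s * t i + ν i a, ?_⟩, ⟨μ, s * u + μ a, hμ, ?_⟩, ?_⟩
  · ext x
    constructor
    · rintro ⟨y, hy, rfl⟩ i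
      rw [hF] at hy
      have := hy i
      rw [map_add, map_smul, smul_eq_mul]
      have := mul_le_mul_of_nonneg_left this hs.le
      linarith
    · intro hx
      refine ⟨s⁻¹ • (x - a), ?_, ?_⟩
      · rw [hF]
        intro i
        have h3 : ν i x ≤ s * t i + ν i a := hx i
        rw [map_smul, map_sub, smul_eq_mul, inv_mul_le_iff₀ hs]
        linarith
      · simp only
        rw [smul_smul, mul_inv_cancel₀ hs.ne', one_smul, sub_add_cancel]
  · rintro _ ⟨x, hx, rfl⟩
    rw [map_add, map_smul, smul_eq_mul, hu x hx]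
  · refine ⟨φ.trans (hom s a hs φ.conicalSet_right), ?_, ?_⟩
    · intro x hx y hy
      have e : (φ.trans (hom s a hs φ.conicalSet_right)).toFun x -
          (φ.trans (hom s a hs φ.conicalSet_right)).toFun y = s • (φ.toFun x - φ.toFun y) := by
        show (s • φ.toFun x + a) - (s • φ.toFun y + a) = _
        module
      rw [e, norm_smul, Real.norm_of_nonneg hs.le]
      have := mul_le_mul_of_nonneg_left (h1 x hx y hy) hs.le
      linarith
    · intro x hx y hy
      have e : (φ.trans (hom s a hs φ.conicalSet_right)).toFun x -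
          (φ.trans (hom s a hs φ.conicalSet_right)).toFun y = s • (φ.toFun x - φ.toFun y) := by
        show (s • φ.toFun x + a) - (s • φ.toFun y + a) = _
        module
      rw [e, norm_smul, Real.norm_of_nonneg hs.le]
      have := mul_le_mul_of_nonneg_left (h2 x hx y hy) hs.le
      linarith

/-- the lower corner of the bounding box -/
noncomputable def cor (F : Set V) : V := fun k => sInf ((fun x : V => x k) '' F)

/-- normalisation: size one, corner at the origin -/
noncomputable def nrm (F : Set V) : Set V := (fun x => (diam F)⁻¹ • (x - cor F)) '' F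

/-- the shape constant of a normalised polygon -/
noncomputable def cst (G : Set V) : ℝ := by
  classical exact if h : ∃ c, 0 < c ∧ Fat c 1 G then h.choose else 1

theorem cst_pos (G : Set V) : 0 < cst G := by
  classical
  unfold cst
  split_ifs with h
  · exact h.choose_spec.1
  · exact one_pos

theorem fat_cst {G : Set V} (h : ∃ c, 0 < c ∧ Fat c 1 G) : Fat (cst G) 1 G := by
  classical
  unfold cst
  rw [dif_pos h]
  exact h.choose_spec.2

theorem nrm_image {F : Set V} (hd : 0 < diam F) :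
    (fun x => diam F • x + cor F) '' nrm F = F := by
  rw [nrm, image_image]
  have : ∀ x ∈ F, diam F • ((diam F)⁻¹ • (x - cor F)) + cor F = x := by
    intro x _
    rw [smul_smul, mul_inv_cancel₀ hd.ne', one_smul, sub_add_cancel]
  rw [image_congr this, image_id']

theorem Fat.size {c ρ : ℝ} {F : Set V} (h : Fat c ρ F) (hc : 0 < c) (hρ : 0 < ρ) :
    Fat (c * (ρ + ρ⁻¹)) 1 F := by
  obtain ⟨φ, h1, h2⟩ := h.chart
  have hi : 0 < ρ⁻¹ := inv_pos.2 hρ
  refine ⟨h.half, h.plane, φ, fun x hx y hy => (h1 x hx y hy).trans ?_, fun x hx y hy => ?_⟩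
  · refine mul_le_mul_of_nonneg_right ?_ (norm_nonneg _)
    rw [mul_one]
    exact mul_le_mul_of_nonneg_left (by linarith) hc.le
  · have h3 := h2 x hx y hy
    rw [one_mul]
    have h4 : ‖x - y‖ ≤ ρ⁻¹ * (c * ‖φ.toFun x - φ.toFun y‖) := by
      rw [← div_eq_inv_mul, le_div_iff₀ hρ, mul_comm]
      exact h3
    refine h4.trans ?_
    rw [← mul_assoc]
    refine mul_le_mul_of_nonneg_right ?_ (norm_nonneg _)
    rw [mul_comm ρ⁻¹ c]
    exact mul_le_mul_of_nonneg_left (by linarith) hc.le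

/-- **the chart with the normalised constant** -/
theorem fat_nrm {F : Set V} (hd : 0 < diam F) (h : ∃ c, 0 < c ∧ Fat c 1 F) :
    Fat (cst (nrm F)) (diam F) F := by
  obtain ⟨c, hc, h⟩ := h
  have hd' : 0 < (diam F)⁻¹ := inv_pos.2 hd
  have h1 := Fat.image h hd' (-((diam F)⁻¹ • cor F))
  have e : (fun x => (diam F)⁻¹ • x + -((diam F)⁻¹ • cor F)) '' F = nrm F := by
    refine image_congr fun x _ => ?_
    rw [smul_sub, sub_eq_add_neg]
  rw [e, mul_one] at h1
  have h2 := Fat.size h1 hc hd'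
  have h3 := fat_cst ⟨_, by positivity, h2⟩
  have h4 := Fat.image h3 hd (cor F)
  rwa [nrm_image hd, mul_one] at h4

theorem nrm_hom {F : Set V} (hF : Bornology.IsBounded F) (hne : F.Nonempty) {s : ℝ} (hs : 0 < s)
    (a : V) : nrm ((fun x => s • x + a) '' F) = nrm F := by
  have h1 : diam ((fun x => s • x + a) '' F) = s * diam F := by
    have : (fun x => s • x + a) '' F = (fun x => x + a) '' ((fun x => s • x) '' F) := by
      rw [image_image]
    rw [this, (isometry_add_right a).diam_image]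
    have h2 := diam_smul₀ s F
    rw [Real.norm_of_nonneg hs.le] at h2
    exact h2
  have h2 : cor ((fun x => s • x + a) '' F) = s • cor F + a := by
    ext k
    rw [cor, image_image]
    have hb : BddBelow ((fun x : V => x k) '' F) := by
      obtain ⟨B, hB⟩ := hF.exists_norm_le
      refine ⟨-B, ?_⟩
      rintro _ ⟨x, hx, rfl⟩
      have := (norm_le_pi_norm x k).trans (hB x hx)
      rw [Real.norm_eq_abs, abs_le] at this
      exact this.1
    have h3 : (fun x : V => (s • x + a) k) '' F = (fun t => s * t + a k) '' ((fun x : V => x k) '' F) := by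
      rw [image_image]; rfl
    rw [h3]
    have h4 := (hne.image (fun x : V => x k))
    have h5 : Monotone fun t : ℝ => s * t + a k := fun u v huv => by
      have := mul_le_mul_of_nonneg_left huv hs.le
      simp only
      linarith
    have h6 : Continuous fun t : ℝ => s * t + a k := by fun_prop
    have := h5.map_csInf_of_continuousAt h6.continuousAt h4 hb
    rw [← this]
    rfl
  rw [nrm, h1, h2, image_image, nrm]
  refine image_congr fun x _ => ?_
  rw [add_sub_add_right_eq_sub, ← smul_sub, smul_smul, mul_inv, mul_comm s⁻¹, mul_assoc,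
    inv_mul_cancel₀ hs.ne', mul_one]

end Vale.Agent.P073.H687
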