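import Vale.Agent.P073.H687.PBa
import Vale.Agent.P073.H687.TW
import Vale.Agent.P073.H235.PreFlatB

/-!
# P073, rank one, `2 ≤ p < 3`: the data `PreBeam` are built
-/

namespace Vale.Agent.P073.H687

open MeasureTheory Set Filter Topology Metric Vale.Agent.P073.St Vale.Agent.P073.AB
open Vale.Agent.P073.SQ (ev)
open Vale.Agent.P073.LOC (Near Q1 BdClose)
open Vale.Agent.P073.H73 (MinEdge segP onSeg ctr)
open Vale.Agent.P073.H194 (sInt Gen idx RgN KRN up cW gW refine Sc sc_up mem_rectN mem_redgeN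
  squ_sub_RgN edge_sub_RgN eInSq FlatOut)
open Vale.Agent.P073.H83 (GenB)
open Vale.Agent.P073.H471 (zt st)
open Vale.Agent.P073.H333 (tw)
open Vale.Agent.P073.H235
open Vale.Agent.P073.H253 (rectN redgeN ledge xL BVData lpt PreBeam jv mem_ledge eInt_ledge)
open Vale.Agent.P073.H732 (XL upz SpecCountB)
open _root_.P073 (ConHomeo)
open _root_.P073.Net (len dyc dyo IsTile SizeFn)
open scoped ENNReal

/-! ### Children on the line -/

theorem jo_sub {v₀ : ℝ} {n N : ℕ} (h : n ≤ N) {k s : ℤ} (hk : k / 2 ^ (N - n) = s) :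
    jv v₀ (1 / 2 ^ N) k ⊆ jv v₀ (1 / 2 ^ n) s := by
  obtain ⟨d, rfl⟩ := Nat.exists_eq_add_of_le h
  have e : n + d - n = d := by omega
  rw [e] at hk
  have hD : (0 : ℤ) < 2 ^ d := by positivity
  have h1 : 2 ^ d * s ≤ k := by rw [← hk]; exact Int.mul_ediv_self_le hD.ne'
  have h2 : k + 1 ≤ 2 ^ d * (s + 1) := by
    have := Int.lt_ediv_add_one_mul_self k hD
    rw [hk, mul_comm] at this
    omega
  have h1' : (2:ℝ) ^ d * s ≤ k := by exact_mod_cast h1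
  have h2' : (k:ℝ) + 1 ≤ 2 ^ d * (s + 1) := by exact_mod_cast h2
  have hp : (0:ℝ) < 1 / 2 ^ (n + d) := by positivity
  have e1 : (1:ℝ) / 2 ^ n = 2 ^ d * (1 / 2 ^ (n + d)) := by rw [pow_add]; field_simp
  rintro u ⟨hu1, hu2⟩
  constructor
  · calc v₀ + s * (1 / 2 ^ n) = v₀ + (2 ^ d * s) * (1 / 2 ^ (n + d)) := by rw [e1]; ring
      _ ≤ v₀ + k * (1 / 2 ^ (n + d)) := by gcongr
      _ ≤ u := hu1
  · calc u ≤ v₀ + (k + 1) * (1 / 2 ^ (n + d)) := hu2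
      _ ≤ v₀ + (2 ^ d * (s + 1)) * (1 / 2 ^ (n + d)) := by gcongr
      _ = v₀ + (s + 1) * (1 / 2 ^ n) := by rw [e1]; ring

theorem ledge_sub {v : V} {n N : ℕ} (h : n ≤ N) {k₁ k₂ k s : ℤ} (hk : k / 2 ^ (N - n) = s) :
    edge v (ledge N (upz n N k₁) (upz n N k₂) k) ⊆ edge v (ledge n k₁ k₂ s) := by
  intro x hx
  obtain ⟨u, hu, rfl⟩ := mem_ledge.1 hx
  rw [upz_div h, upz_div h]
  exact mem_ledge.2 ⟨u, jo_sub h hk hu, rfl⟩

theorem sum_ledge_le (v : V) {n N : ℕ} (h : n ≤ N) (k₁ k₂ : ℤ) {S T : Finset ℤ}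
    (hT : ∀ k ∈ T, k / 2 ^ (N - n) ∈ S) (W : V → ℝ≥0∞) :
    ∑ k ∈ T, eInt v (ledge N (upz n N k₁) (upz n N k₂) k) W ≤
      ∑ k ∈ S, eInt v (ledge n k₁ k₂ k) W := by
  classical
  rw [← Finset.sum_fiberwise_of_maps_to (s := T) (t := S) (g := fun k => k / 2 ^ (N - n)) hT]
  refine Finset.sum_le_sum fun s _ => ?_
  rw [eInt_ledge]
  set Fn : ℝ → ℝ≥0∞ := fun u => W (lpt (v 1 + k₁ / 2 ^ n) (v 2 + k₂ / 2 ^ n) u) with hFn
  have h1 : ∀ k : ℤ, eInt v (ledge N (upz n N k₁) (upz n N k₂) k) W =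
      ∫⁻ u in Ioo (v 0 + k * (1 / 2 ^ N)) (v 0 + (k + 1) * (1 / 2 ^ N)), Fn u := by
    intro k
    rw [eInt_ledge, upz_div h, upz_div h]
    exact (setLIntegral_congr Ioo_ae_eq_Icc).symm
  rw [Finset.sum_congr rfl fun k _ => h1 k]
  have hdis : Set.PairwiseDisjoint (↑(T.filter fun k => k / 2 ^ (N - n) = s) : Set ℤ)
      fun k : ℤ => Ioo (v 0 + k * (1 / 2 ^ N)) (v 0 + (k + 1) * (1 / 2 ^ N)) := by
    intro k _ k' _ hkk
    show Disjoint (Ioo _ _) (Ioo _ _)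
    rw [Set.disjoint_left]
    rintro u ⟨hu1, hu2⟩ ⟨hu3, hu4⟩
    have hp : (0:ℝ) < 1 / 2 ^ N := by positivity
    have h2 : (k : ℝ) < k' + 1 := by
      by_contra hcon
      push Not at hcon
      have : (k' + 1 : ℝ) * (1 / 2 ^ N) ≤ k * (1 / 2 ^ N) := by gcongr
      linarith
    have h3 : (k' : ℝ) < k + 1 := by
      by_contra hcon
      push Not at hcon
      have : (k + 1 : ℝ) * (1 / 2 ^ N) ≤ k' * (1 / 2 ^ N) := by gcongr
      linarith
    have h2' : k < k' + 1 := by exact_mod_cast h2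
    have h3' : k' < k + 1 := by exact_mod_cast h3
    exact hkk (by omega)
  rw [← lintegral_biUnion_finset hdis (fun _ _ => measurableSet_Ioo)]
  refine lintegral_mono_set ?_
  refine iUnion₂_subset fun k hk => ?_
  rw [Finset.mem_filter] at hk
  exact Ioo_subset_Icc_self.trans (jo_sub h hk.2)

/-- **the bad edges of the line** -/
theorem bad_line {p : ℝ} (hp : 1 ≤ p) (v : V) {n N : ℕ} (h : n ≤ N) (k₁ k₂ : ℤ)
    {S T : Finset ℤ} (hT : ∀ k ∈ T, k / 2 ^ (N - n) ∈ S) {C : ℝ≥0∞} (hC : C ≠ ⊤)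
    {g W : V → ℝ≥0∞}
    (hg : ∀ k ∈ T, ∀ x ∈ edge v (ledge N (upz n N k₁) (upz n N k₂) k), g x ^ p ≤ C * W x) :
    ∑ k ∈ T, ENNReal.ofReal ((1 / 2 ^ N) ^ (1 - p)) *
      eInt v (ledge N (upz n N k₁) (upz n N k₂) k) g ^ p ≤
        C * ∑ k ∈ S, eInt v (ledge n k₁ k₂ k) W := by
  refine le_trans ?_ (mul_le_mul' le_rfl (sum_ledge_le v h k₁ k₂ hT W))
  rw [Finset.mul_sum]
  refine Finset.sum_le_sum fun k hk => ?_
  refine (H687.term_le hp v (ledge N (upz n N k₁) (upz n N k₂) k) g le_rfl).trans ?_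
  rw [← H333.eInt_const_mul v _ hC]
  exact H333.eInt_mono_on fun x hx => hg k hk x hx

/-- the parents are in the rectangle -/
theorem parent_mem {m n N : ℕ} (h1 : m ≤ n) (h2 : n ≤ N) {α β k : ℤ}
    (hk : k ∈ Finset.Ico (upz m N α) (upz m N β)) :
    k / 2 ^ (N - n) ∈ Finset.Ico (upz m n α) (upz m n β) := by
  have hD : (0 : ℤ) < 2 ^ (N - n) := by positivity
  obtain ⟨h3, h4⟩ := Finset.mem_Ico.1 hk
  rw [← upz_upz h1 h2] at h3 h4
  rw [Finset.mem_Ico, Int.le_ediv_iff_mul_le hD, Int.ediv_lt_iff_lt_mul hD, mul_comm,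
    mul_comm (upz m n β)]
  exact ⟨h3, h4⟩

theorem card_upz {m n : ℕ} (h : m ≤ n) {α β : ℤ} (hαβ : α < β) :
    ((Finset.Ico (upz m n α) (upz m n β)).card : ℝ) / 2 ^ n = (β - α) / 2 ^ m := by
  have h1 : upz m n α ≤ upz m n β := by
    unfold upz
    exact mul_le_mul_of_nonneg_left hαβ.le (by positivity)
  rw [Int.card_Ico]
  have h2 : (((upz m n β - upz m n α).toNat : ℕ) : ℝ) = (upz m n β : ℝ) - upz m n α := by
    have : (((upz m n β - upz m n α).toNat : ℕ) : ℤ) = upz m n β - upz m n α :=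
      Int.toNat_of_nonneg (by omega)
    exact_mod_cast this
  rw [h2, sub_div, upz_div h, upz_div h, sub_div]

end Vale.Agent.P073.H687
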