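import Vale.Agent.P073.H196.Cells

/-!
# P073, H687: [P-LEV4], part 1: levels on the line with a compensation window

The cells of `[lo, m₁]` and `[m₂, hi]` have the spacing `δ`; in `[m₁, m₂]` there are big slivers `J`
and the spacing is smaller, so that the levels off `(m₁, m₂)` are displaced only a little with
respect to the uniform target cells.
-/

open Set Metric Topology

namespace Vale.Agent.P073.H687

open _root_.P073.Croft (Cells exists_cells SepL levs)

/-- levels with a compensation window -/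
structure Lev3 (lo hi θ δ η b₀ m₁ m₂ S Bg : ℝ) (T : Finset (ℝ × ℝ)) (n : ℕ) (a : ℕ → ℝ) :
    Prop where
  ge : ∀ k < n, lo + δ / 4 < a k
  le : ∀ k < n, a k + δ / 4 < hi
  succ : ∀ k, k + 1 < n → (1 - 2 * η) * (1 - b₀) * δ ≤ a (k + 1) - a k
  sliver : ∀ k < n, ∀ p ∈ T, p.2 < a k - δ / 4 ∨ a k + δ / 4 < p.1
  rat : ∀ k, ∃ r : ℚ, a k = θ + r
  num_le : n * δ ≤ hi - lo
  le_num : hi - lo ≤ n * δ + S
  disp : ∀ k < n, |a k - (lo + (k + 1 / 2) * δ)| ≤ S + Bg
  cnt : ∀ t, lo ≤ t → t ≤ hi → (t ≤ m₁ ∨ m₂ ≤ t) → ∃ k ≤ n, (∀ j < k, a j ≤ t) ∧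
    (∀ j < n, k ≤ j → t < a j) ∧ |k * δ - (t - lo)| ≤ S

/-- the number of levels below a point -/
theorem cells_cnt {lo hi θ δ η : ℝ} {T : Finset (ℝ × ℝ)} {n : ℕ} {x a : ℕ → ℝ}
    (H : Cells lo hi θ δ η T n x a) (hδ : 0 < δ) (hη : η ≤ 1 / 4) {S : ℝ}
    (hS : ∑ p ∈ T, (p.2 - p.1) + 2 * T.card * δ + δ ≤ S) (hS0 : δ ≤ S) {t : ℝ} (h1 : lo ≤ t)
    (h2 : t ≤ hi) : ∃ k ≤ n, (∀ j < k, a j ≤ t) ∧ (∀ j < n, k ≤ j → t < a j) ∧
      |k * δ - (t - lo)| ≤ S := by
  classical
  have hmono : ∀ {i j : ℕ}, i < j → j < n → a i < a j := by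
    intro i j hij hj
    have h3 := H.sep hδ hij hj
    have h4 : 0 < (1 - 2 * η) * δ := mul_pos (by linarith) hδ
    linarith
  have hlow : ∀ k : ℕ, k ≤ n → (∀ j < k, a j ≤ t) → k * δ - (t - lo) ≤ δ := by
    intro k hk hj
    rcases Nat.eq_zero_or_pos k with h0 | h0
    · rw [h0]; push_cast; linarith
    · obtain ⟨i, rfl⟩ : ∃ i, k = i + 1 := ⟨k - 1, by omega⟩
      have h3 := hj i (by omega)
      have h4 := H.lt_a hδ hη i
      have h5 := H.disp_nonneg i (by omega)
      push_cast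
      linarith [h4.1]
  by_cases hall : ∀ j < n, a j ≤ t
  · refine ⟨n, le_rfl, hall, fun j hj hj' => absurd hj' (by omega), ?_⟩
    have h3 := hlow n le_rfl hall
    have h4 := H.le_num
    have h5 : (2 * (T.card : ℝ) + 1) * δ = 2 * T.card * δ + δ := by ring
    rw [abs_le]
    constructor <;> linarith
  · push Not at hall
    have hex : ∃ j, j < n ∧ t < a j := hall
    set k := Nat.find hex with hk
    obtain ⟨hk1, hk2⟩ := Nat.find_spec hex
    have hbelow : ∀ j < k, a j ≤ t := by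
      intro j hj
      have h3 := Nat.find_min hex hj
      by_contra hcon
      push Not at hcon
      exact h3 ⟨by omega, hcon⟩
    refine ⟨k, hk1.le, hbelow, fun j hj hkj => ?_, ?_⟩
    · rcases eq_or_lt_of_le hkj with h3 | h3
      · rw [← h3]; exact hk2
      · exact hk2.trans (hmono h3 hj)
    · have h3 := hlow k hk1.le hbelow
      have h4 := H.lt_a hδ hη k
      have h5 := H.disp_le k hk1
      rw [abs_le]
      constructor <;> linarith [h4.2]

/-- fewer levels -/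
theorem Lev3.trunc {lo hi θ δ η b₀ m₁ m₂ S Bg : ℝ} {T : Finset (ℝ × ℝ)} {n : ℕ} {a : ℕ → ℝ}
    (H : Lev3 lo hi θ δ η b₀ m₁ m₂ S Bg T n a) (hδ : 0 < δ) {n' : ℕ} (hn : n' ≤ n)
    (h : hi - lo ≤ n' * δ + S) : Lev3 lo hi θ δ η b₀ m₁ m₂ S Bg T n' a where
  ge k hk := H.ge k (hk.trans_le hn)
  le k hk := H.le k (hk.trans_le hn)
  succ k hk := H.succ k (hk.trans_le hn)
  sliver k hk := H.sliver k (hk.trans_le hn)
  rat := H.rat
  num_le := by
    have h1 : (n' : ℝ) ≤ n := by exact_mod_cast hn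
    have h2 := mul_le_mul_of_nonneg_right h1 hδ.le
    linarith [H.num_le]
  le_num := h
  disp k hk := H.disp k (hk.trans_le hn)
  cnt t h1 h2 h3 := by
    obtain ⟨k, hk, h4, h5, h6⟩ := H.cnt t h1 h2 h3
    rcases le_or_gt k n' with hkn | hkn
    · exact ⟨k, hkn, h4, fun j hj => h5 j (hj.trans_le hn), h6⟩
    · refine ⟨n', le_rfl, fun j hj => h4 j (hj.trans hkn), fun j hj hj' => absurd hj' (by omega), ?_⟩
      have h7 : (n' : ℝ) * δ ≤ k * δ := by
        have : (n' : ℝ) ≤ k := by exact_mod_cast hkn.le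
        gcongr
      rw [abs_le] at h6 ⊢
      constructor <;> linarith [h6.1, h6.2]

/-- the position of the levels and the slivers, in one window -/
theorem cells_near {lo hi θ d δ η : ℝ} {T : Finset (ℝ × ℝ)} {n : ℕ} {x a : ℕ → ℝ}
    (H : Cells lo hi θ d η T n x a) (hδ : 0 < δ) (hd : 7 / 8 * δ ≤ d) (hη : η ≤ 1 / 8) {k : ℕ}
    (hk : k < n) : lo ≤ x k ∧ x k < a k - δ / 4 ∧ a k + δ / 4 < x k + d ∧ x k + d ≤ hi := by
  have hd0 : 0 < d := by linarith
  have h1 := abs_lt.1 (H.mid k)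
  have h2 : η * d ≤ 1 / 8 * d := by gcongr
  exact ⟨H.ge k hk, by linarith [h1.1], by linarith [h1.2], H.le k hk⟩

set_option maxHeartbeats 800000 in
/-- **levels with a compensation window** -/
theorem exists_lev3 {lo hi δ η b₀ m₁ m₂ B : ℝ} (θ : ℝ) (h1 : lo ≤ m₁) (h2 : m₁ ≤ m₂)
    (h3 : m₂ ≤ hi) (hδ : 0 < δ) (hη : 0 < η) (hη2 : η ≤ 1 / 4) (hb : 0 ≤ b₀) (hb8 : b₀ ≤ 1 / 8)
    {T Sm J : Finset (ℝ × ℝ)}
    (hT : ∀ p ∈ T, p ∈ Sm ∨ p.2 ≤ lo ∨ hi ≤ p.1 ∨ ∃ q ∈ J, q.1 ≤ p.1 ∧ p.2 ≤ q.2)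
    (hSm : ∀ p ∈ Sm, p.1 ≤ p.2) (hJ : ∀ q ∈ J, m₁ ≤ q.1 ∧ q.1 ≤ q.2 ∧ q.2 ≤ m₂)
    (hB : ∑ q ∈ J, (q.2 - q.1) ≤ B) (hBm : B ≤ b₀ * (m₂ - m₁)) {S : ℝ}
    (hS : 6 * (∑ p ∈ Sm, (p.2 - p.1) + (2 * (Sm.card + J.card) + 2) * δ) ≤ S) :
    ∃ (n : ℕ) (a : ℕ → ℝ), Lev3 lo hi θ δ η b₀ m₁ m₂ S B T n a := by
  classical
  set L := m₂ - m₁ with hL
  have hL0 : 0 ≤ L := by rw [hL]; linarith
  have hJ0 : 0 ≤ ∑ q ∈ J, (q.2 - q.1) := Finset.sum_nonneg fun q hq => by
    have := (hJ q hq).2.1; linarith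
  have hB0 : 0 ≤ B := hJ0.trans hB
  have hSm0 : 0 ≤ ∑ p ∈ Sm, (p.2 - p.1) := Finset.sum_nonneg fun p hp => by
    have := hSm p hp; linarith
  set s := ∑ p ∈ Sm, (p.2 - p.1) + (2 * (Sm.card + J.card) + 2) * δ with hs
  have hcS : (0:ℝ) ≤ Sm.card := Nat.cast_nonneg _
  have hcJ : (0:ℝ) ≤ J.card := Nat.cast_nonneg _
  have hs2 : ∑ p ∈ Sm, (p.2 - p.1) + 2 * Sm.card * δ + 2 * J.card * δ + 2 * δ = s := by
    rw [hs]; ring
  have hSδ : 0 ≤ 2 * (Sm.card : ℝ) * δ := by positivity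
  have hJδ : 0 ≤ 2 * (J.card : ℝ) * δ := by positivity
  have hs0 : 2 * δ ≤ s := by linarith
  -- the factor
  obtain ⟨q, hq1, hq2, hqL, hqb⟩ : ∃ q : ℝ, 7 / 8 ≤ q ∧ q ≤ 1 ∧ L * q = L - B ∧ 1 - b₀ ≤ q := by
    rcases eq_or_lt_of_le hL0 with h0 | h0
    · have hB' : B = 0 := le_antisymm (by rw [← h0, mul_zero] at hBm; exact hBm) hB0
      exact ⟨1, by norm_num, le_rfl, by rw [← h0, hB']; ring, by linarith⟩
    · refine ⟨1 - B / L, ?_, ?_, by field_simp, ?_⟩
      · have : B / L ≤ b₀ := by rw [div_le_iff₀ h0]; exact hBm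
        linarith
      · have : 0 ≤ B / L := by positivity
        linarith
      · have : B / L ≤ b₀ := by rw [div_le_iff₀ h0]; exact hBm
        linarith
  set δ₂ := δ * q with hδ₂
  have hδ₂0 : 0 < δ₂ := mul_pos hδ (by linarith)
  have hδ₂l : 7 / 8 * δ ≤ δ₂ := by rw [hδ₂, mul_comm]; gcongr
  have hδ₂u : δ₂ ≤ δ := by rw [hδ₂]; exact mul_le_of_le_one_right hδ.le hq2
  set η₀ := min η (1 / 8) with hη₀
  have hη₀0 : 0 < η₀ := lt_min hη (by norm_num)
  have hη₀8 : η₀ ≤ 1 / 8 := min_le_right _ _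
  have hη₀η : η₀ ≤ η := min_le_left _ _
  obtain ⟨n₁, x₁, a₁, C₁⟩ := exists_cells (lo := lo) (hi := m₁) θ h1 hδ hη₀0 Sm hSm
  obtain ⟨n₂, x₂, a₂, C₂⟩ := exists_cells (lo := m₁) (hi := m₂) θ h2 hδ₂0 hη₀0 (Sm ∪ J) (by
    intro p hp
    rcases Finset.mem_union.1 hp with h | h
    · exact hSm p h
    · exact (hJ p h).2.1)
  obtain ⟨n₃, x₃, a₃, C₃⟩ := exists_cells (lo := m₂) (hi := hi) θ h3 hδ hη₀0 Sm hSm
  have hU1 : ∑ p ∈ Sm ∪ J, (p.2 - p.1) ≤ ∑ p ∈ Sm, (p.2 - p.1) + B := by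
    have h := Finset.sum_union_inter (s₁ := Sm) (s₂ := J) (f := fun p : ℝ × ℝ => p.2 - p.1)
    have h' : 0 ≤ ∑ p ∈ Sm ∩ J, (p.2 - p.1) := Finset.sum_nonneg fun p hp => by
      have := hSm p (Finset.mem_inter.1 hp).1; linarith
    linarith
  have hU2 : ((Sm ∪ J).card : ℝ) ≤ Sm.card + J.card := by
    exact_mod_cast Finset.card_union_le Sm J
  have hU3 : 2 * ((Sm ∪ J).card : ℝ) * δ₂ ≤ 2 * (Sm.card + J.card) * δ := by gcongr
  set N₂ := min n₂ ⌊L / δ⌋₊ with hN₂
  have hN₂n : N₂ ≤ n₂ := min_le_left _ _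
  have hN₂u : (N₂ : ℝ) * δ ≤ L := by
    have h : (N₂ : ℝ) ≤ L / δ := by
      have h4 : (N₂ : ℝ) ≤ ⌊L / δ⌋₊ := by exact_mod_cast min_le_right _ _
      exact h4.trans (Nat.floor_le (by positivity))
    calc (N₂ : ℝ) * δ ≤ L / δ * δ := by gcongr
      _ = L := by field_simp
  have hN₂l : L ≤ N₂ * δ + 2 * s := by
    rcases min_choice n₂ ⌊L / δ⌋₊ with h | h
    · have h4 : (N₂ : ℝ) = n₂ := by rw [hN₂, h]
      have h5 := C₂.le_num
      have h6 : (2 * ((Sm ∪ J).card : ℝ) + 1) * δ₂ = 2 * (Sm ∪ J).card * δ₂ + δ₂ := by ring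
      have h7 : L - B ≤ n₂ * δ₂ + s := by linarith
      rw [h4]
      have h8 : L * q ≤ (n₂ * δ + 8 / 7 * s) * q := by
        calc L * q = L - B := hqL
          _ ≤ n₂ * δ₂ + s := h7
          _ = n₂ * δ * q + s := by rw [hδ₂]; ring
          _ ≤ n₂ * δ * q + 8 / 7 * s * q := by nlinarith
          _ = _ := by ring
      have h9 := le_of_mul_le_mul_right h8 (by linarith : (0:ℝ) < q)
      linarith
    · have h4 : (N₂ : ℝ) = ⌊L / δ⌋₊ := by rw [hN₂, h]
      have h5 := (Nat.lt_floor_add_one (L / δ)).le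
      have h6 : L ≤ (⌊L / δ⌋₊ + 1) * δ := by
        calc L = L / δ * δ := by field_simp
          _ ≤ _ := by gcongr
      rw [h4]
      linarith
  have hn₁u := C₁.num_le
  have hn₁l := C₁.le_num
  have hn₃u := C₃.num_le
  have hn₃l := C₃.le_num
  have e2 : (2 * (Sm.card : ℝ) + 1) * δ = 2 * Sm.card * δ + δ := by ring
  -- the levels
  set a : ℕ → ℝ := fun k => if k < n₁ then a₁ k else if k < n₁ + N₂ then a₂ (k - n₁)
    else a₃ (k - n₁ - N₂) with ha
  have ha1 : ∀ k, k < n₁ → a k = a₁ k := fun k hk => by simp only [ha, if_pos hk]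
  have ha2 : ∀ k, ¬ k < n₁ → k < n₁ + N₂ → a k = a₂ (k - n₁) := fun k hk hk' => by
    simp only [ha, if_neg hk, if_pos hk']
  have ha3 : ∀ k, ¬ k < n₁ + N₂ → a k = a₃ (k - n₁ - N₂) := fun k hk => by
    have : ¬ k < n₁ := by omega
    simp only [ha, if_neg this, if_neg hk]
  have p1 : ∀ k, k < n₁ → lo + δ / 4 < a₁ k ∧ a₁ k + δ / 4 < m₁ := fun k hk => by
    obtain ⟨g1, g2, g3, g4⟩ := cells_near C₁ hδ (by linarith) hη₀8 hk
    exact ⟨by linarith, by linarith⟩
  have p2 : ∀ k, k < n₂ → m₁ + δ / 4 < a₂ k ∧ a₂ k + δ / 4 < m₂ := fun k hk => by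
    obtain ⟨g1, g2, g3, g4⟩ := cells_near C₂ hδ hδ₂l hη₀8 hk
    exact ⟨by linarith, by linarith⟩
  have p3 : ∀ k, k < n₃ → m₂ + δ / 4 < a₃ k ∧ a₃ k + δ / 4 < hi := fun k hk => by
    obtain ⟨g1, g2, g3, g4⟩ := cells_near C₃ hδ (by linarith) hη₀8 hk
    exact ⟨by linarith, by linarith⟩
  -- separation
  have hη1 : (1 - 2 * η) * (1 - b₀) * δ ≤ (1 - 2 * η₀) * δ₂ := by
    have g1 : 0 ≤ 1 - 2 * η := by linarith
    have g2 : 0 ≤ 1 - b₀ := by linarith
    calc (1 - 2 * η) * (1 - b₀) * δ ≤ (1 - 2 * η₀) * q * δ := by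
          have : (1 - 2 * η) * (1 - b₀) ≤ (1 - 2 * η₀) * q := by
            apply mul_le_mul (by linarith) hqb g2 (by linarith)
          gcongr
      _ = _ := by rw [hδ₂]; ring
  have hη2' : (1 - 2 * η₀) * δ₂ ≤ (1 - 2 * η₀) * δ := by
    have : 0 ≤ 1 - 2 * η₀ := by linarith
    gcongr
  have hηδ : η₀ * δ₂ ≤ η₀ * δ := by gcongr
  -- positions near the ends of the windows
  have r1 : ∀ k, k < n₁ → a₁ k ≤ m₁ - (1 / 2 - η₀) * δ := fun k hk => by
    have g1 := abs_lt.1 (C₁.mid k)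
    have g2 := C₁.le k hk
    linarith [g1.2]
  have r2 : ∀ k, k < n₂ → m₁ + (1 / 2 - η₀) * δ₂ ≤ a₂ k ∧ a₂ k ≤ m₂ - (1 / 2 - η₀) * δ₂ :=
    fun k hk => by
    have g1 := abs_lt.1 (C₂.mid k)
    have g2 := C₂.le k hk
    have g3 := C₂.ge k hk
    constructor <;> linarith [g1.1, g1.2]
  have r3 : ∀ k, k < n₃ → m₂ + (1 / 2 - η₀) * δ ≤ a₃ k := fun k hk => by
    have g1 := abs_lt.1 (C₃.mid k)
    have g3 := C₃.ge k hk
    linarith [g1.1]
  set n := n₁ + N₂ + n₃ with hn
  have hnr : (n : ℝ) = n₁ + N₂ + n₃ := by rw [hn]; push_cast; ring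
  refine ⟨n, a, ?_, ?_, ?_, ?_, ?_, ?_, ?_, ?_, ?_⟩
  · -- ge
    intro k hk
    rcases lt_or_ge k n₁ with g | g
    · rw [ha1 k g]; exact (p1 k g).1
    · rcases lt_or_ge k (n₁ + N₂) with g' | g'
      · rw [ha2 k (by omega) g']
        have := (p2 (k - n₁) (by omega)).1
        linarith
      · rw [ha3 k (by omega)]
        have := (p3 (k - n₁ - N₂) (by omega)).1
        linarith
  · -- le
    intro k hk
    rcases lt_or_ge k n₁ with g | g
    · rw [ha1 k g]
      have := (p1 k g).2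
      linarith
    · rcases lt_or_ge k (n₁ + N₂) with g' | g'
      · rw [ha2 k (by omega) g']
        have := (p2 (k - n₁) (by omega)).2
        linarith
      · rw [ha3 k (by omega)]
        exact (p3 (k - n₁ - N₂) (by omega)).2
  · -- succ
    intro k hk
    rcases lt_or_ge (k + 1) n₁ with g | g
    · rw [ha1 _ g, ha1 k (by omega)]
      have := C₁.sep hδ (Nat.lt_succ_self k) g
      linarith
    · rcases lt_or_ge (k + 1) (n₁ + N₂) with g' | g'
      · rw [ha2 _ (by omega) g']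
        rcases lt_or_ge k n₁ with f | f
        · rw [ha1 k f]
          have g1 := r1 k f
          have g2 := (r2 (k + 1 - n₁) (by omega)).1
          linarith
        · rw [ha2 k (by omega) (by omega)]
          have := C₂.sep hδ₂0 (show k - n₁ < k + 1 - n₁ by omega) (by omega)
          linarith
      · rw [ha3 _ (by omega)]
        rcases lt_or_ge k n₁ with f | f
        · rw [ha1 k f]
          have g1 := r1 k f
          have g2 := r3 (k + 1 - n₁ - N₂) (by omega)
          linarith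
        · rcases lt_or_ge k (n₁ + N₂) with f' | f'
          · rw [ha2 k (by omega) f']
            have g1 := (r2 (k - n₁) (by omega)).2
            have g2 := r3 (k + 1 - n₁ - N₂) (by omega)
            linarith
          · rw [ha3 k (by omega)]
            have := C₃.sep hδ (show k - n₁ - N₂ < k + 1 - n₁ - N₂ by omega) (by omega)
            linarith
  · -- sliver
    intro k hk p hp
    rcases lt_or_ge k n₁ with g | g
    · rw [ha1 k g]
      obtain ⟨g1, g2, g3, g4⟩ := cells_near C₁ hδ (by linarith) hη₀8 g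
      rcases hT p hp with h | h | h | ⟨j, hj, h, h'⟩
      · rcases C₁.sliver k g p h with f | f
        · right; linarith
        · left; linarith
      · left; linarith
      · right; linarith
      · right; have := (hJ j hj).1; linarith
    · rcases lt_or_ge k (n₁ + N₂) with g' | g'
      · rw [ha2 k (by omega) g']
        have hk2 : k - n₁ < n₂ := by omega
        obtain ⟨g1, g2, g3, g4⟩ := cells_near C₂ hδ hδ₂l hη₀8 hk2
        rcases hT p hp with h | h | h | ⟨j, hj, h, h'⟩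
        · rcases C₂.sliver (k - n₁) hk2 p (Finset.mem_union_left _ h) with f | f
          · right; linarith
          · left; linarith
        · left; linarith
        · right; linarith
        · rcases C₂.sliver (k - n₁) hk2 j (Finset.mem_union_right _ hj) with f | f
          · right; linarith
          · left; linarith
      · rw [ha3 k (by omega)]
        have hk3 : k - n₁ - N₂ < n₃ := by omega
        obtain ⟨g1, g2, g3, g4⟩ := cells_near C₃ hδ (by linarith) hη₀8 hk3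
        rcases hT p hp with h | h | h | ⟨j, hj, h, h'⟩
        · rcases C₃.sliver (k - n₁ - N₂) hk3 p h with f | f
          · right; linarith
          · left; linarith
        · left; linarith
        · right; linarith
        · left; have := (hJ j hj).2.2; linarith
  · -- rat
    intro k
    rcases lt_or_ge k n₁ with g | g
    · rw [ha1 k g]; exact C₁.rat k
    · rcases lt_or_ge k (n₁ + N₂) with g' | g'
      · rw [ha2 k (by omega) g']; exact C₂.rat _
      · rw [ha3 k (by omega)]; exact C₃.rat _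
  · -- num_le
    rw [hnr, add_mul, add_mul]
    linarith
  · -- le_num
    rw [hnr, add_mul, add_mul]
    linarith
  · -- disp
    intro k hk
    rcases lt_or_ge k n₁ with g | g
    · rw [ha1 k g]
      have g1 := C₁.lt_a hδ (by linarith) k
      have g2 := C₁.disp_nonneg k g
      have g3 := C₁.disp_le k g
      rw [abs_le]
      constructor <;> linarith [g1.1, g1.2]
    · rcases lt_or_ge k (n₁ + N₂) with g' | g'
      · rw [ha2 k (by omega) g']
        obtain ⟨i, rfl⟩ := Nat.exists_eq_add_of_le g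
        have ei : n₁ + i - n₁ = i := by omega
        rw [ei]
        have hi2 : i < n₂ := by omega
        have g1 := C₂.lt_a hδ₂0 (by linarith) i
        have g2 := C₂.disp_nonneg i hi2
        have g3 := C₂.disp_le i hi2
        have g4 : (i : ℝ) * δ ≤ L := by
          have : (i : ℝ) ≤ N₂ := by exact_mod_cast (show i ≤ N₂ by omega)
          have := mul_le_mul_of_nonneg_right this hδ.le
          linarith
        have g5 : (i : ℝ) * δ - B ≤ i * δ₂ := by
          have f1 : (i : ℝ) * δ₂ = i * δ * q := by rw [hδ₂]; ring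
          have f2 : (i : ℝ) * δ * (1 - q) ≤ L * (1 - q) := by
            apply mul_le_mul_of_nonneg_right g4 (by linarith)
          have f3 : L * (1 - q) = B := by rw [mul_sub, hqL]; ring
          rw [f1]; linarith
        have g6 : (i : ℝ) * δ₂ ≤ i * δ := by gcongr
        push_cast
        rw [abs_le]
        constructor <;> linarith [g1.1, g1.2]
      · rw [ha3 k (by omega)]
        obtain ⟨i, rfl⟩ := Nat.exists_eq_add_of_le g'
        have ei : n₁ + N₂ + i - n₁ - N₂ = i := by omega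
        rw [ei]
        have hi3 : i < n₃ := by omega
        have g1 := C₃.lt_a hδ (by linarith) i
        have g2 := C₃.disp_nonneg i hi3
        have g3 := C₃.disp_le i hi3
        push_cast
        rw [abs_le]
        constructor <;> linarith [g1.1, g1.2]
  · -- cnt
    intro t ht1 ht2 ht
    rcases ht with ht | ht
    · obtain ⟨k, hk, f1, f2, f3⟩ := cells_cnt C₁ hδ (by linarith) (S := s) (by linarith)
        (by linarith) ht1 ht
      refine ⟨k, by omega, fun j hj => ?_, fun j hj hkj => ?_, f3.trans (by linarith)⟩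
      · rw [ha1 j (by omega)]; exact f1 j hj
      · rcases lt_or_ge j n₁ with g | g
        · rw [ha1 j g]; exact f2 j g hkj
        · rcases lt_or_ge j (n₁ + N₂) with g' | g'
          · rw [ha2 j (by omega) g']
            have := (p2 (j - n₁) (by omega)).1
            linarith
          · rw [ha3 j (by omega)]
            have := (p3 (j - n₁ - N₂) (by omega)).1
            linarith
    · obtain ⟨k, hk, f1, f2, f3⟩ := cells_cnt C₃ hδ (by linarith) (S := s) (by linarith)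
        (by linarith) ht ht2
      refine ⟨n₁ + N₂ + k, by omega, fun j hj => ?_, fun j hj hkj => ?_, ?_⟩
      · rcases lt_or_ge j n₁ with g | g
        · rw [ha1 j g]
          have := (p1 j g).2
          linarith
        · rcases lt_or_ge j (n₁ + N₂) with g' | g'
          · rw [ha2 j (by omega) g']
            have := (p2 (j - n₁) (by omega)).2
            linarith
          · rw [ha3 j (by omega)]; exact f1 _ (by omega)
      · rw [ha3 j (by omega)]; exact f2 _ (by omega) (by omega)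
      · have g1 := abs_le.1 f3
        push_cast
        rw [abs_le]
        constructor <;> linarith [g1.1, g1.2]

theorem Lev3.sepL {lo hi θ δ η b₀ m₁ m₂ S Bg : ℝ} {T : Finset (ℝ × ℝ)} {n : ℕ} {a : ℕ → ℝ}
    (H : Lev3 lo hi θ δ η b₀ m₁ m₂ S Bg T n a) (hδ : 0 < δ) (hη : η ≤ 1 / 4) (hb : b₀ ≤ 1 / 8) :
    SepL ((1 - 2 * η) * (1 - b₀) * δ) (levs n a) := by
  have h0 : 0 < (1 - 2 * η) * (1 - b₀) * δ :=
    mul_pos (mul_pos (by linarith) (by linarith)) hδ
  have key : ∀ {k l : ℕ}, k < l → l < n → (1 - 2 * η) * (1 - b₀) * δ ≤ a l - a k := by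
    intro k l hkl hl
    induction l, hkl using Nat.le_induction with
    | base => exact H.succ k hl
    | succ l hkl ih =>
      have := H.succ l hl
      have := ih (by omega)
      linarith
  rintro _ ⟨k, hk, rfl⟩ _ ⟨l, hl, rfl⟩ hlt
  rcases lt_trichotomy k l with h | h | h
  · exact key h hl
  · subst h; exact absurd hlt (lt_irrefl _)
  · have := key h hk
    linarith

end Vale.Agent.P073.H687
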