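import Vale.Agent.P073.H687.PL4C
import Vale.Agent.P073.H333.PLW0

/-!
# P073, H687: **[P-LEV4]**, existence of the levels of round P with compensation windows

`exists_levW`: the real line (from 333's `exists_cellsW`); `exists_plw`: all levels.
-/

open Set Metric Topology Filter
open scoped ENNReal

namespace Vale.Agent.P073.H687

open _root_.P073 _root_.P073.TR _root_.P073.Net _root_.P073.PA691
open _root_.P073.PR720 (LF)
open Vale.Agent.P073.St (V)
open Vale.Agent.P073.H471 (Rad Wid Boxes Near lf_ss ss_subset)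
open Vale.Agent.P073.H267
open _root_.P073.Croft (Cells Crs levs Generic onS cross varIn TransAt SepL)
open _root_.P073.H345 (tg tg_ne tg_ne_not tg_cases bt bt_tg tg_bt PK PB_sub_PK PK_sub_ss PK_unique
  PLev)
open Vale.Agent.P073.H669

/-! ### the real line -/

/-- **levels with compensation windows** -/
theorem exists_levW {lo hi δ η r j R : ℝ} (θ : ℝ) (hlh : lo ≤ hi) (hδ : 0 < δ) (hη : 0 < η)
    (hr : 0 ≤ r) (hr7 : r ≤ 1 / 7) {T T₀ : Finset (ℝ × ℝ)} (hT : ∀ p ∈ T, p.1 ≤ p.2)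
    (hT₀ : ∀ p ∈ T₀, p.1 ≤ p.2) {Q : Finset ℝ} (hj : 0 ≤ j) (hjR : j < R)
    (hjr : ∀ q ∈ Q, j ≤ r * (R - j)) (hQlo : ∀ q ∈ Q, lo ≤ q - R) (hQhi : ∀ q ∈ Q, q + R ≤ hi)
    (hsep : ∀ q ∈ Q, ∀ q' ∈ Q, q ≠ q' → 2 * R ≤ |q - q'|)
    (hTT : ∀ p ∈ T, p ∈ T₀ ∨ p.2 ≤ lo ∨ hi ≤ p.1 ∨ ∃ q ∈ Q, q - j ≤ p.1 ∧ p.2 ≤ q + j) {S : ℝ}
    (hS : 2 * (∑ p ∈ T₀, (p.2 - p.1) + (2 * T.card + 4) * δ) ≤ S) :
    ∃ (n : ℕ) (a : ℕ → ℝ),
      LevW lo hi θ δ η r S j (⋃ q ∈ Q, Ioo (q - R) (q + R)) T n a := by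
  have hT0 : 0 ≤ ∑ p ∈ T₀, (p.2 - p.1) := Finset.sum_nonneg fun p hp => by
    have := hT₀ p hp; linarith
  have hc0 : (0:ℝ) ≤ T.card := Nat.cast_nonneg _
  have hcδ : 0 ≤ (T.card : ℝ) * δ := mul_nonneg hc0 hδ.le
  set d := δ / (1 + r) with hd
  have h1r : 0 < 1 + r := by linarith
  have hd0 : 0 < d := div_pos hδ h1r
  have hdδ : d ≤ δ := div_le_self hδ.le (by linarith)
  have hd7 : 7 / 8 * δ ≤ d := by
    rw [hd, le_div_iff₀ h1r]
    nlinarith
  set m := (1 + r) * ∑ p ∈ T₀, (p.2 - p.1) + δ + (2 * T.card + 2) * δ with hm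
  have hm1 : m ≤ 8 / 7 * ∑ p ∈ T₀, (p.2 - p.1) + 2 * (T.card * δ) + 3 * δ := by
    have : (1 + r) * ∑ p ∈ T₀, (p.2 - p.1) ≤ 8 / 7 * ∑ p ∈ T₀, (p.2 - p.1) :=
      mul_le_mul_of_nonneg_right (by linarith) hT0
    have e : (2 * (T.card : ℝ) + 2) * δ = 2 * (T.card * δ) + 2 * δ := by ring
    rw [hm, e]
    linarith
  have hS' : 2 * ∑ p ∈ T₀, (p.2 - p.1) + 4 * (T.card * δ) + 8 * δ ≤ S := by
    have e : 2 * (∑ p ∈ T₀, (p.2 - p.1) + (2 * (T.card : ℝ) + 4) * δ) =
      2 * ∑ p ∈ T₀, (p.2 - p.1) + 4 * (T.card * δ) + 8 * δ := by ring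
    linarith
  have hη' : 0 < min η (1 / 8) := lt_min hη (by norm_num)
  obtain ⟨n, x, a, H⟩ := H333.PLW.exists_cellsW (B := j) (m := m) (ε := δ) (η := min η (1 / 8))
    θ hlh hδ hη' hr T T₀ hT hT₀ Q (fun q => q) (fun _ => j) (fun _ => R) (fun _ _ => hj)
    (fun _ _ => hjR) hjr hQlo hQhi (fun q hq q' hq' hne => by
      have := hsep q hq q' hq' hne
      linarith) (fun p hp => by
      rcases hTT p hp with h | h | h | h
      · exact Or.inl h
      · exact Or.inr (Or.inr (Or.inl h))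
      · exact Or.inr (Or.inr (Or.inr h))
      · exact Or.inr (Or.inl h)) hδ le_rfl hj (fun _ _ => le_rfl)
  have hmid : ∀ k, x k + δ / 4 < a k ∧ a k + δ / 4 < x k + d := by
    intro k
    have h1 := abs_lt.1 (H.mid k)
    rw [← hd] at h1
    have h2 : min η (1 / 8) * d ≤ 1 / 8 * d := by
      gcongr
      exact min_le_right _ _
    constructor <;> linarith [h1.1, h1.2]
  refine ⟨n, a, ?_, ?_, ?_, ?_, ?_, H.rat, H.num_le, ?_, ?_, ?_⟩
  · intro k hk
    have h1 := H.ge k hk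
    linarith [(hmid k).1]
  · intro k hk
    have h1 := H.le k hk
    linarith [(hmid k).2]
  · intro k hk
    have h1 := H.succ k hk
    linarith [(hmid k).2, (hmid (k + 1)).1]
  · intro k hk
    have h1 := H.succ k hk
    have h2 := abs_lt.1 (H.mid k)
    have h3 := abs_lt.1 (H.mid (k + 1))
    rw [← hd] at h1 h2 h3
    have h4 : min η (1 / 8) * d ≤ η * d := by
      gcongr
      exact min_le_left _ _
    have h5 : (1 - 2 * η) * δ / (1 + r) = d - 2 * (η * d) := by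
      rw [hd]; ring
    rw [h5]
    linarith [h2.1, h2.2, h3.1, h3.2]
  · intro k hk p hp
    rcases H.sliver k hk p hp with h1 | h1
    · right; linarith [(hmid k).2]
    · left; linarith [(hmid k).1]
  · have := H.le_num
    linarith
  · intro k hk
    have h1 := abs_le.1 (H.disp k hk)
    have h2 := hmid k
    have h3 : ((k:ℝ) + 1 / 2) * δ = k * δ + δ / 2 := by ring
    rw [h3, abs_le]
    constructor <;> linarith [h1.1, h1.2, h2.1, h2.2]
  · intro t ht1 ht2 ht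
    obtain ⟨k, hk, h1, h2, h3⟩ := H.cnt t ⟨ht1, ht2⟩ ht
    have h3' := abs_le.1 h3
    have hb : ∀ i < k, a i ≤ t := fun i hi => by
      have := h1 i hi
      linarith [(hmid i).2]
    have hab : ∀ i < n, k < i → t < a i := fun i hi hki => by
      have := h2 i hki hi
      linarith [(hmid i).1]
    by_cases hkt : k < n ∧ a k ≤ t
    · refine ⟨k + 1, hkt.1, fun i hi => ?_, fun i hi hki => hab i hi hki, ?_⟩
      · rcases Nat.lt_succ_iff_lt_or_eq.1 hi with h4 | h4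
        · exact hb i h4
        · rw [h4]; exact hkt.2
      · push_cast
        rw [abs_le]
        constructor <;> linarith
    · refine ⟨k, hk, hb, fun i hi hki => ?_, ?_⟩
      · rcases eq_or_lt_of_le hki with h4 | h4
        · subst h4
          by_contra hcon
          push Not at hcon
          exact hkt ⟨hi, hcon⟩
        · exact hab i hi h4
      · rw [abs_le]
        constructor <;> linarith

/-! ### Croft's bounds for a part of the index set -/

theorem cross_empty_of {h : V → V} {a b : V} {i : Fin 3} {L : Set ℝ} {P : Set V}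
    (hP : ¬ (h '' segment ℝ a b ∩ P).Nonempty) : cross (onS h a b) i L P = ∅ := by
  rw [Set.eq_empty_iff_forall_notMem]
  rintro t ⟨ht, htP, -⟩
  exact hP ⟨_, ⟨_, _root_.P073.Croft.onS_mem ht, rfl⟩, htP⟩

theorem crs_of_one {κ : Type*} {h : V → V} {a b : V} {i : κ → Fin 3}
    {P : κ → Set V} {δ : κ → ℝ} {L : κ → Set ℝ} {K ε' ε : ℝ}
    (H1 : ∀ f, (cross (onS h a b) (i f) (L f) (P f)).Finite)
    (H2 : ∀ f, ∀ t ∈ cross (onS h a b) (i f) (L f) (P f), TransAt (onS h a b) (i f) t)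
    (H3 : ∀ f, ENNReal.ofReal (δ f) * cnt (cross (onS h a b) (i f) (L f) (P f)) ≤
      ENNReal.ofReal K * varIn (onS h a b) (i f) (P f) 0 1 + ENNReal.ofReal ε')
    (hfin : {f : κ | (h '' segment ℝ a b ∩ P f).Nonempty}.Finite)
    (hε : hfin.toFinset.card * ENNReal.ofReal ε' ≤ ENNReal.ofReal ε) (hε1 : ε' ≤ ε) :
    Crs h a b i P δ L K ε where
  fin := H1
  trans := H2
  one f := (H3 f).trans (by gcongr)
  sum := by
    classical
    have h0 : ∀ f, f ∉ hfin.toFinset → ENNReal.ofReal (δ f) *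
        cnt (cross (onS h a b) (i f) (L f) (P f)) = 0 := by
      intro f hf
      rw [Set.Finite.mem_toFinset] at hf
      rw [cross_empty_of hf]
      simp [cnt]
    rw [tsum_eq_sum fun f hf => h0 f hf]
    calc ∑ f ∈ hfin.toFinset, ENNReal.ofReal (δ f) *
          cnt (cross (onS h a b) (i f) (L f) (P f))
        ≤ ∑ f ∈ hfin.toFinset, (ENNReal.ofReal K * varIn (onS h a b) (i f) (P f) 0 1 +
          ENNReal.ofReal ε') := Finset.sum_le_sum fun f _ => H3 f
      _ = ENNReal.ofReal K * ∑ f ∈ hfin.toFinset, varIn (onS h a b) (i f) (P f) 0 1 +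
          hfin.toFinset.card * ENNReal.ofReal ε' := by
        rw [Finset.sum_add_distrib, Finset.mul_sum, Finset.sum_const, nsmul_eq_mul]
      _ ≤ _ := by
        gcongr
        exact ENNReal.sum_le_tsum _

/-- a bound for the spacing `δ / (1 + r)` gives a bound for the spacing `δ` -/
theorem one_mul_of {X Y : ℝ≥0∞} {δ r K ε' : ℝ} (hr : 0 ≤ r)
    (H : ENNReal.ofReal (δ / (1 + r)) * X ≤ ENNReal.ofReal K * Y + ENNReal.ofReal ε') :
    ENNReal.ofReal δ * X ≤ ENNReal.ofReal (K * (1 + r)) * Y + ENNReal.ofReal ((1 + r) * ε') := by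
  have h1 : 0 < 1 + r := by linarith
  have e1 : δ = (1 + r) * (δ / (1 + r)) := by field_simp
  calc ENNReal.ofReal δ * X = ENNReal.ofReal (1 + r) * (ENNReal.ofReal (δ / (1 + r)) * X) := by
        rw [← mul_assoc, ← ENNReal.ofReal_mul h1.le, ← e1]
    _ ≤ ENNReal.ofReal (1 + r) * (ENNReal.ofReal K * Y + ENNReal.ofReal ε') := by gcongr
    _ = _ := by
        rw [mul_add, ← mul_assoc, ← ENNReal.ofReal_mul h1.le, ← ENNReal.ofReal_mul h1.le,
          mul_comm (1 + r) K]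

theorem finite_inf_pos {κ : Type*} {A : Set κ} (hA : A.Finite) (d : κ → ℝ) (hd : ∀ f, 0 < d f) :
    ∃ c > 0, ∀ f ∈ A, c ≤ d f := by
  classical
  induction A, hA using Set.Finite.induction_on with
  | empty => exact ⟨1, one_pos, fun f hf => absurd hf (Set.notMem_empty f)⟩
  | insert _ _ ih =>
    rename_i f A _ _
    obtain ⟨c, hc, h⟩ := ih
    refine ⟨min c (d f), lt_min hc (hd f), fun g hg => ?_⟩
    rcases hg with rfl | hg
    · exact min_le_right _ _
    · exact (min_le_left _ _).trans (h g hg)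

theorem convex_slab (l : Fin 3) (c d : ℝ) : Convex ℝ {y : V | c ≤ y l ∧ y l ≤ d} := by
  intro y hy z hz a b ha hb hab
  have e1 : (a • y + b • z) l = a * y l + b * z l := by simp
  have e2 : a * c + b * c = c := by rw [← add_mul, hab, one_mul]
  have e3 : a * d + b * d = d := by rw [← add_mul, hab, one_mul]
  have h1 := mul_le_mul_of_nonneg_left hy.1 ha
  have h2 := mul_le_mul_of_nonneg_left hy.2 ha
  have h3 := mul_le_mul_of_nonneg_left hz.1 hb
  have h4 := mul_le_mul_of_nonneg_left hz.2 hb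
  constructor
  · rw [e1]; linarith
  · rw [e1]; linarith

/-! ### all levels -/

variable {Ω Λ : Set V} {v : V} {K : BoxCx Λ v} {S : Rad K} {W : Wid K S} {B : Boxes W}

/-- **[P-LEV4]**: the levels of round P with compensation windows -/
theorem exists_plw (hΩ : IsOpen Ω) (G : Geo B) (h : ConHomeo Ω Λ)
    (hsq : ∀ s : K.S, K.shi s (tg s false) - K.slo s (tg s false) =
      K.shi s (tg s true) - K.slo s (tg s true)) {T T₀ : K.S → Bool → Finset (ℝ × ℝ)}
    (hT : ∀ s β, ∀ p ∈ T s β, p.1 ≤ p.2) (hT₀ : ∀ s β, ∀ p ∈ T₀ s β, p.1 ≤ p.2)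
    {Q : K.S → Bool → Finset ℝ} {J R : K.S → ℝ} {r : ℝ} (hr : 0 ≤ r) (hr7 : r ≤ 1 / 7)
    (hJ : ∀ s, 0 ≤ J s) (hJR : ∀ s, J s < R s) (hJr : ∀ s, J s ≤ r * (R s - J s))
    (hQlo : ∀ s β, ∀ q ∈ Q s β, K.slo s (tg s β) + G.a s + R s ≤ q)
    (hQhi : ∀ s β, ∀ q ∈ Q s β, q + R s ≤ K.shi s (tg s β) - G.a s)
    (hQs : ∀ s β, ∀ q ∈ Q s β, ∀ q' ∈ Q s β, q ≠ q' → 2 * R s ≤ |q - q'|)
    (hTT : ∀ s β, ∀ p ∈ T s β, p ∈ T₀ s β ∨ p.2 ≤ K.slo s (tg s β) + G.a s ∨
      K.shi s (tg s β) - G.a s ≤ p.1 ∨ ∃ q ∈ Q s β, q - J s ≤ p.1 ∧ p.2 ≤ q + J s)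
    {μ : K.S → ℝ} (hμ : ∀ s, 0 < μ s) (hμa : ∀ s, μ s ≤ G.a s)
    (hsum : ∀ s β, ∑ p ∈ T₀ s β, (p.2 - p.1) ≤ μ s / 16) {τ : Type*} {F : τ → Set V}
    (hF : ∀ t, ∀ x ∈ Ω, LocConeAt (F t) x)
    (hFlf : ∀ x ∈ Ω, ∃ U ∈ 𝓝 x, {t | (F t ∩ U).Nonempty}.Finite)
    {ξ : Type*} {sa sb : ξ → V} (hseg : ∀ e, segment ℝ (sa e) (sb e) ⊆ Ω)
    (hslf : ∀ X ⊆ Ω, IsCompact X → {e | (segment ℝ (sa e) (sb e) ∩ X).Nonempty}.Finite)
    {εE : ξ → ℝ} (hε : ∀ e, 0 < εE e) {C : Set ℝ} (hC : C.Countable) {η : ℝ} (hη : 0 < η)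
    (hη4 : η ≤ 1 / 4) (Jn : K.S → Bool → Finset (ℝ × ℝ)) {dmax : K.S → ℝ}
    (hd : ∀ s, 0 < dmax s) :
    ∃ δ : K.S → ℝ, (∀ s, δ s ≤ dmax s) ∧ Nonempty (PLw G h T η r F C sa sb εE
      (fun s β => ⋃ q ∈ Q s β, Ioo (q - R s) (q + R s)) Jn μ J δ) := by
  classical
  have hcount : Countable K.S := Croft.countable_of_lf (P := fun s => PK G s)
    (fun s => PK_nonempty G s) (fun s => PK_sub G s) (lf_PK G)
  have h2η : 0 < 1 - 2 * η := by linarith
  have hr1 : 0 < 1 + r := by linarith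
  have hK : 1 ≤ (1 - 2 * η)⁻¹ := (one_le_inv₀ h2η).2 (by linarith)
  have hK0 : 0 ≤ (1 - 2 * η)⁻¹ := by linarith
  -- no compensation, if there is no marked point
  let r' : K.S × Bool → ℝ := fun q => if Q q.1 q.2 = ∅ then 0 else r
  have hr'0 : ∀ q, 0 ≤ r' q := fun q => by
    show 0 ≤ if Q q.1 q.2 = ∅ then 0 else r
    split_ifs <;> linarith
  have hr'r : ∀ q, r' q ≤ r := fun q => by
    show (if Q q.1 q.2 = ∅ then 0 else r) ≤ r
    split_ifs <;> linarith
  have hr'e : ∀ q : K.S × Bool, Q q.1 q.2 = ∅ → r' q = 0 := fun q hq => if_pos hq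
  have hr'n : ∀ q : K.S × Bool, Q q.1 q.2 ≠ ∅ → r' q = r := fun q hq => if_neg hq
  -- the index set
  let κ : Type := (K.S × Bool) ⊕ (Σ q : K.S × Bool, {p // p ∈ Jn q.1 q.2})
  let pr : κ → K.S × Bool := Sum.elim id (fun w => w.1)
  let P : κ → Set V := Sum.elim (fun q => PK G q.1)
    (fun w => PK G w.1.1 ∩ {y | w.2.1.1 ≤ y (tg w.1.1 w.1.2) ∧ y (tg w.1.1 w.1.2) ≤ w.2.1.2})
  have hPsub : ∀ f : κ, P f ⊆ PK G (pr f).1 := by
    rintro (q | w)
    · exact Subset.rfl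
    · exact inter_subset_left
  have hPc : ∀ f : κ, Convex ℝ (P f) := by
    rintro (q | w)
    · exact PK_convex G q.1
    · exact (PK_convex G w.1.1).inter (convex_slab _ _ _)
  have hfinq : ∀ e, {q : K.S × Bool | (h.toFun '' segment ℝ (sa e) (sb e) ∩ PK G q.1).Nonempty}.Finite :=
    fun e => ((Croft.finite_inter_image h (lf_PK G) (H805.isCompact_seg (sa e) (sb e)) (hseg e)).prod
      (Set.toFinite (univ : Set Bool))).subset fun q hq => ⟨hq, mem_univ _⟩
  have hprfin : ∀ A : Set (K.S × Bool), A.Finite → (pr ⁻¹' A).Finite := by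
    intro A hA
    refine ((hA.image Sum.inl).union (hA.biUnion (t := fun q =>
      range (fun p : {p // p ∈ Jn q.1 q.2} => (Sum.inr ⟨q, p⟩ : κ)))
      fun q _ => finite_range _)).subset ?_
    rintro (q | ⟨q, p⟩) hf
    · exact Or.inl ⟨q, hf, rfl⟩
    · exact Or.inr (mem_biUnion (x := q) hf ⟨p, rfl⟩)
  set ε' : ξ → ℝ := fun e => εE e / ((hfinq e).toFinset.card + 1) with hε'
  have hc1 : ∀ e, (0:ℝ) < (hfinq e).toFinset.card + 1 := fun e => by positivity
  have hε0' : ∀ e, 0 < ε' e := fun e => div_pos (hε e) (hc1 e)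
  have hε0 : ∀ e, 0 < ε' e / 2 := fun e => by have := hε0' e; linarith
  have hεle : ∀ e, ε' e ≤ εE e := fun e => div_le_self (hε e).le (by
    have : (0:ℝ) ≤ (hfinq e).toFinset.card := Nat.cast_nonneg _
    linarith)
  obtain ⟨θ, -, hgen, δ₀, hδ₀, H⟩ := Croft.exists_croft (κ := κ) h hΩ
    (M := F) hF hFlf hseg (P := P) hPc
    (fun e => (hprfin _ (hfinq e)).subset fun f hf => by
      obtain ⟨y, hy, hyP⟩ := hf
      exact ⟨y, hy, hPsub f hyP⟩)
    (fun f => (Croft.finite_image_inter h hseg hslf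
      (PK_compact G (pr f).1) (PK_sub G (pr f).1)).subset fun e he => by
        obtain ⟨y, hy, hyP⟩ := he
        exact ⟨y, hy, hPsub f hyP⟩) (fun f => tg (pr f).1 (pr f).2) hε0 hC
    isOpen_univ univ_nonempty hK
  -- the spacings
  set cd : K.S → ℝ := fun s => ((T s false).card : ℝ) +
    ((T s true).card : ℝ) with hcd
  have hcd0 : ∀ s β, ((T s β).card : ℝ) ≤ cd s := fun s β => by
    have h1 : (0:ℝ) ≤ ((T s false).card : ℝ) := Nat.cast_nonneg _
    have h2 : (0:ℝ) ≤ ((T s true).card : ℝ) := Nat.cast_nonneg _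
    simp only [hcd]
    cases β <;> linarith
  have hcdn : ∀ s, 0 ≤ cd s := fun s => (Nat.cast_nonneg _).trans (hcd0 s true)
  -- one bound for all parts of the square
  have hδ1 : ∀ q : K.S × Bool, ∃ d > 0, ∀ f : κ, pr f = q → d ≤ δ₀ f := by
    intro q
    have hf : (pr ⁻¹' {q}).Finite := hprfin _ (finite_singleton q)
    obtain ⟨d, hd0, hd⟩ := finite_inf_pos hf δ₀ hδ₀
    exact ⟨d, hd0, fun f hf => hd f hf⟩
  choose d₁ hd₁ hd₁' using hδ1
  set δ : K.S → ℝ := fun s => min (min (d₁ (s, false)) (d₁ (s, true))) (min (dmax s)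
    (μ s / 16 / (2 * cd s + 4))) with hδ
  have hδ0 : ∀ s, 0 < δ s := fun s => lt_min (lt_min (hd₁ _) (hd₁ _))
    (lt_min (hd s) (div_pos (by linarith [hμ s]) (by linarith [hcdn s])))
  have hδf : ∀ f : κ, δ (pr f).1 ≤ δ₀ f := by
    intro f
    refine le_trans ?_ (hd₁' (pr f) f rfl)
    obtain ⟨s, β⟩ := pr f
    cases β
    · exact (min_le_left _ _).trans (min_le_left _ _)
    · exact (min_le_left _ _).trans (min_le_right _ _)
  have hδm : ∀ s, δ s ≤ dmax s := fun s => (min_le_right _ _).trans (min_le_left _ _)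
  have hδμ : ∀ s, (2 * cd s + 4) * δ s ≤ μ s / 16 := fun s => by
    have h1 : δ s ≤ μ s / 16 / (2 * cd s + 4) := (min_le_right _ _).trans (min_le_right _ _)
    rw [le_div_iff₀ (by linarith [hcdn s])] at h1
    linarith
  have hlh : ∀ (s : K.S) (β : Bool),
      K.slo s (tg s β) + G.a s ≤ K.shi s (tg s β) - G.a s := fun s β => by
    have h1 := wl_pos G s β
    have h2 := G.a_pos s
    unfold wl at h1
    linarith
  have hex : ∀ (s : K.S) (β : Bool), ∃ (n : ℕ) (a : ℕ → ℝ),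
      LevW (K.slo s (tg s β) + G.a s) (K.shi s (tg s β) - G.a s) (θ (tg s β)) (δ s) η (r' (s, β))
        (μ s / 4) (J s) (⋃ q ∈ Q s β, Ioo (q - R s) (q + R s)) (T s β) n a := fun s β => by
    refine exists_levW (θ (tg s β)) (hlh s β) (hδ0 s) hη (hr'0 _) ((hr'r _).trans hr7) (hT s β)
      (hT₀ s β) (hJ s) (hJR s) (fun q hq => ?_) (fun q hq => by linarith [hQlo s β q hq])
      (fun q hq => hQhi s β q hq) (hQs s β) (hTT s β) ?_
    · rw [hr'n (s, β) (Finset.ne_empty_of_mem hq)]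
      exact hJr s
    · have h1 := hsum s β
      have h2 := hδμ s
      have h3 : (2 * ((T s β).card : ℝ) + 4) * δ s ≤ (2 * cd s + 4) * δ s :=
        mul_le_mul_of_nonneg_right (by linarith [hcd0 s β]) (hδ0 s).le
      linarith
  choose N' a hc using hex
  have hwl : ∀ (s : K.S) (β β' : Bool), wl G s β = wl G s β' := by
    have h1 : ∀ s : K.S, wl G s false = wl G s true := fun s => by
      have := hsq s
      unfold wl
      linarith
    intro s β β'
    cases β <;> cases β'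
    · rfl
    · exact h1 s
    · exact (h1 s).symm
    · rfl
  have hnum : ∀ s β, wl G s β ≤ (N' s β) * δ s + μ s / 4 := fun s β => (hc s β).le_num
  set N : K.S → ℕ := fun s => min (N' s false) (N' s true) with hN
  have hNle : ∀ s β, N s ≤ N' s β := fun s β => by
    cases β
    · exact min_le_left _ _
    · exact min_le_right _ _
  have hnumN : ∀ s β, wl G s β ≤ N s * δ s + μ s / 4 := fun s β => by
    rcases min_choice (N' s false) (N' s true) with h1 | h1
    · have h2 : N s = N' s false := h1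
      rw [h2, hwl s β false]
      exact hnum s false
    · have h2 : N s = N' s true := h1
      rw [h2, hwl s β true]
      exact hnum s true
  have hpos : ∀ s, 0 < N s := by
    intro s
    rcases Nat.eq_zero_or_pos (N s) with h0 | h0
    · exfalso
      have h1 := hnumN s true
      rw [h0] at h1
      have h2 := wl_pos G s true
      have h3 := G.a_pos s
      have h4 := hμa s
      push_cast at h1
      linarith
    · exact h0
  have hcN' : ∀ s β, LevW (K.slo s (tg s β) + G.a s) (K.shi s (tg s β) - G.a s) (θ (tg s β))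
      (δ s) η (r' (s, β)) (μ s / 4) (J s) (⋃ q ∈ Q s β, Ioo (q - R s) (q + R s)) (T s β) (N s)
      (a s β) := fun s β => (hc s β).trunc (hδ0 s) (hNle s β) (hnumN s β)
  have hcN : ∀ s β, LevW (K.slo s (tg s β) + G.a s) (K.shi s (tg s β) - G.a s) (θ (tg s β))
      (δ s) η r (μ s / 4) (J s) (⋃ q ∈ Q s β, Ioo (q - R s) (q + R s)) (T s β) (N s) (a s β) :=
    fun s β => (hcN' s β).mono_r (hδ0 s) hη4 (hr'0 _) (hr'r _)
  have Hc := H (fun f => δ (pr f).1 / (1 + r' (pr f)))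
    (fun f => levs (N (pr f).1) (a (pr f).1 (pr f).2))
    (fun f => div_pos (hδ0 (pr f).1) (by linarith [hr'0 (pr f)]))
    (fun f => (div_le_self (hδ0 (pr f).1).le (by linarith [hr'0 (pr f)])).trans (hδf f))
    (fun f => by
      have h1 := (hcN' (pr f).1 (pr f).2).sepL (hδ0 (pr f).1) hη4 (hr'0 _)
      have e : δ (pr f).1 / (1 + r' (pr f)) / (1 - 2 * η)⁻¹ =
          (1 - 2 * η) * δ (pr f).1 / (1 + r' (pr f)) := by
        rw [div_inv_eq_mul]; ring
      show SepL (δ (pr f).1 / (1 + r' (pr f)) / (1 - 2 * η)⁻¹) _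
      rw [e]
      exact h1) (fun f t ht => by
      obtain ⟨k, -, rfl⟩ := ht
      exact (hcN (pr f).1 (pr f).2).rat k)
  have hone : ∀ e (f : κ), ENNReal.ofReal (δ (pr f).1) *
        cnt (cross (onS h.toFun (sa e) (sb e)) (tg (pr f).1 (pr f).2)
          (levs (N (pr f).1) (a (pr f).1 (pr f).2)) (P f)) ≤
      ENNReal.ofReal ((1 - 2 * η)⁻¹ * (1 + r' (pr f))) *
        varIn (onS h.toFun (sa e) (sb e)) (tg (pr f).1 (pr f).2) (P f) 0 1 +
        ENNReal.ofReal (ε' e) := by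
    intro e f
    refine (one_mul_of (hr'0 (pr f)) ((Hc e).one f)).trans (add_le_add le_rfl
      (ENNReal.ofReal_le_ofReal ?_))
    nlinarith [hε0' e, hr'r (pr f), hr'0 (pr f)]
  have hone' : ∀ e (f : κ), ENNReal.ofReal (δ (pr f).1) *
        cnt (cross (onS h.toFun (sa e) (sb e)) (tg (pr f).1 (pr f).2)
          (levs (N (pr f).1) (a (pr f).1 (pr f).2)) (P f)) ≤
      ENNReal.ofReal ((1 - 2 * η)⁻¹ * (1 + r)) *
        varIn (onS h.toFun (sa e) (sb e)) (tg (pr f).1 (pr f).2) (P f) 0 1 +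
        ENNReal.ofReal (ε' e) := by
    intro e f
    refine (hone e f).trans ?_
    have h1 : (1 - 2 * η)⁻¹ * (1 + r' (pr f)) ≤ (1 - 2 * η)⁻¹ * (1 + r) :=
      mul_le_mul_of_nonneg_left (by linarith [hr'r (pr f)]) hK0
    gcongr
  refine ⟨δ, hδm, ⟨⟨θ, N, a, hδ0, hη, hη4, hr, hr7, hJ, hμa, fun s => ?_, hwl, hpos, hcN, hgen,
    fun e => ?_, fun e s β hW => ?_, fun e s β p hp => ?_⟩⟩⟩
  · have h1 := hδμ s
    have h2 : 4 * δ s ≤ (2 * cd s + 4) * δ s :=
      mul_le_mul_of_nonneg_right (by linarith [hcdn s]) (hδ0 s).le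
    linarith [hμ s]
  · have key : ((hfinq e).toFinset.card : ℝ≥0∞) * ENNReal.ofReal (ε' e) ≤
        ENNReal.ofReal (εE e) := by
      rw [← ENNReal.ofReal_natCast, ← ENNReal.ofReal_mul (Nat.cast_nonneg _)]
      refine ENNReal.ofReal_le_ofReal ?_
      simp only [hε']
      rw [mul_div_assoc', div_le_iff₀ (hc1 e)]
      nlinarith [hε e]
    exact crs_of_one (κ := K.S × Bool) (fun q => (Hc e).fin (Sum.inl q))
      (fun q => (Hc e).trans (Sum.inl q)) (fun q => hone' e (Sum.inl q)) (hfinq e) key (hεle e)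
  · have h1 := hone e (Sum.inl (s, β))
    have hQ : Q s β = ∅ := by
      by_contra hne
      obtain ⟨q, hq⟩ := Finset.nonempty_iff_ne_empty.2 hne
      have h2 : q ∈ ⋃ q ∈ Q s β, Ioo (q - R s) (q + R s) :=
        mem_biUnion hq ⟨by linarith [hJ s, hJR s], by linarith [hJ s, hJR s]⟩
      rw [hW] at h2
      exact h2
    have h3 : r' (pr (Sum.inl (s, β))) = 0 := hr'e (s, β) hQ
    rw [h3, add_zero, mul_one] at h1
    exact h1.trans (add_le_add le_rfl (ENNReal.ofReal_le_ofReal (hεle e)))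
  · have h1 := hone' e (Sum.inr ⟨(s, β), ⟨p, hp⟩⟩)
    exact h1.trans (add_le_add le_rfl (ENNReal.ofReal_le_ofReal (hεle e)))

end Vale.Agent.P073.H687
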