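import Vale.Agent.P073.H687.PL4E
import Vale.Agent.P073.H669.PLevH

/-!
# P073, H687: **[P-LEV5]** `exists_plev5`

The levels of round P for `K3C` if all slivers of round T are short (no compensation windows):
`PLw` with `Wn = ∅`, `Bg = 0`, `r = 0`.
-/

open Set Metric Topology Filter
open scoped ENNReal

namespace Vale.Agent.P073.H687

open _root_.P073 _root_.P073.TR _root_.P073.Net _root_.P073.PA691
open _root_.P073.PR720 (LF)
open Vale.Agent.P073.St (V)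
open Vale.Agent.P073.H471 (Rad Wid Boxes Near lf_ss ss_subset)
open Vale.Agent.P073.H267
open _root_.P073.H345 (tg tg_ne tg_ne_not tg_cases bt bt_tg tg_bt PK)
open Vale.Agent.P073.H669

variable {Λ : Set V} {v : V} {K : BoxCx Λ v} {S : Rad K} {W : Wid K S} {B : Boxes W}

/-- **[P-LEV5]**: the widths `σ` of the slivers are chosen first; `μ` is the displacement,
`dmax` bounds the spacings (the steps are at most `2 δ`). -/
theorem exists_plev5 {ρ : V → ℝ} (D : H471.Cells ρ v K) (G : Geo B) {μ : K.S → ℝ}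
    (hμ : ∀ s, 0 < μ s) :
    ∃ (μ' : K.S → ℝ) (σ : TBx K → ℝ), (∀ s, 0 < μ' s) ∧ (∀ s, μ' s ≤ μ s) ∧ (∀ b, 0 < σ b) ∧
      ∀ {Ω : Set V} (_ : IsOpen Ω) (h : ConHomeo Ω Λ)
        {sl : TBx K → Finset (ℝ × ℝ)} (_ : ∀ b, ∀ p ∈ sl b, p.1 ≤ p.2)
        (_ : ∀ b, ∑ p ∈ sl b, (p.2 - p.1) ≤ σ b) {τ : Type} {F : τ → Set V}
        (_ : ∀ t, ∀ x ∈ Ω, LocConeAt (F t) x)
        (_ : ∀ x ∈ Ω, ∃ U ∈ 𝓝 x, {t | (F t ∩ U).Nonempty}.Finite)
        {ξ : Type} {sa sb : ξ → V} (_ : ∀ e, segment ℝ (sa e) (sb e) ⊆ Ω)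
        (_ : ∀ X ⊆ Ω, IsCompact X → {e | (segment ℝ (sa e) (sb e) ∩ X).Nonempty}.Finite)
        {εE : ξ → ℝ} (_ : ∀ e, 0 < εE e) {C : Set ℝ} (_ : C.Countable) {η : ℝ} (_ : 0 < η)
        (_ : η ≤ 1 / 4) (Jn : K.S → Bool → Finset (ℝ × ℝ)) {dmax : K.S → ℝ}
        (_ : ∀ s, 0 < dmax s),
        ∃ δ : K.S → ℝ, (∀ s, δ s ≤ dmax s) ∧
          Nonempty (PLw G h (plT3 G h F sl) η 0 F C sa sb εE (fun _ _ => ∅) Jn μ'
            (fun _ => 0) δ) := by
  have hμ' : ∀ s, 0 < min (μ s) (G.a s) := fun s => lt_min (hμ s) (G.a_pos s)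
  obtain ⟨σ, hσ0, hσ, -⟩ := exists_sig (K := K) (μ := fun s => min (μ s) (G.a s) / 16)
    fun s => by have := hμ' s; positivity
  refine ⟨fun s => min (μ s) (G.a s), σ, hμ', fun s => min_le_left _ _, hσ0, ?_⟩
  intro Ω hΩ h sl hsl hsum τ F hF hFlf ξ sa sb hseg hslf εE hε C hC η hη hη4 Jn dmax hd
  have key := exists_plw hΩ G h (fun s => side_eq D s (tg_ne s false) (tg_ne s true))
    (T := plT3 G h F sl) (T₀ := plT3 G h F sl) (fun s β => plT3_le hsl s β)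
    (fun s β => plT3_le hsl s β) (Q := fun _ _ => ∅) (J := fun _ => 0) (R := fun _ => 1) (r := 0)
    le_rfl (by norm_num) (fun _ => le_rfl) (fun _ => one_pos) (fun _ => by norm_num)
    (fun s β q hq => absurd hq (Finset.notMem_empty q))
    (fun s β q hq => absurd hq (Finset.notMem_empty q))
    (fun s β q hq => absurd hq (Finset.notMem_empty q)) (fun s β p hp => Or.inl hp) hμ'
    (fun s => min_le_right _ _)
    (fun s β => (sum_plT3_le hsl hsum s β).trans (hσ s (tg s β))) hF hFlf hseg hslf hε hC hη hη4 Jn hd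
  have e : (fun (s : K.S) (β : Bool) =>
      ⋃ q ∈ ((fun _ _ => ∅ : K.S → Bool → Finset ℝ) s β), Ioo (q - 1) (q + 1)) =
      fun _ _ => ∅ := by
    funext s β
    simp
  rw [e] at key
  exact key

end Vale.Agent.P073.H687
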