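import Vale.Agent.P073.H253.R1Spec
import Mathlib.MeasureTheory.Covering.Vitali

/-!
# P073, rank one, `[SEG]`: choice of good dyadic intervals on a line
-/

open Set Metric Topology Filter MeasureTheory
open scoped ENNReal

namespace Vale.Agent.P073.H687.Seg

open Vale.Agent.P073.St (V)
open Vale.Agent.P073.SQ (ev)
open Vale.Agent.P073.H253 (iv ivm BeamsAt SpecSeg)

/-! ### A maximal inequality -/

theorem uIcc_eq_closedBall (s t : ℝ) : uIcc t s = closedBall ((t + s) / 2) (|s - t| / 2) := by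
  rw [Real.closedBall_eq_Icc]
  rcases le_total t s with h | h
  · rw [uIcc_of_le h, abs_of_nonneg (by linarith)]
    congr 1 <;> ring
  · rw [uIcc_of_ge h, abs_of_nonpos (by linarith)]
    congr 1 <;> ring

theorem ofReal_abs_integral {a b : ℝ} {ψ : ℝ → ℝ} (hψ : IntegrableOn ψ (Icc a b))
    (h0 : ∀ t, 0 ≤ ψ t) {s t : ℝ} (hs : s ∈ Icc a b) (ht : t ∈ Icc a b) :
    ENNReal.ofReal |∫ x in t..s, ψ x| = ∫⁻ x in uIcc t s, ENNReal.ofReal (ψ x) := by
  have hsub : uIcc t s ⊆ Icc a b := by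
    rw [← uIcc_of_le (ht.1.trans ht.2)]
    exact uIcc_subset_uIcc (by rwa [uIcc_of_le (ht.1.trans ht.2)])
      (by rwa [uIcc_of_le (ht.1.trans ht.2)])
  have hi : IntegrableOn ψ (uIcc t s) := hψ.mono_set hsub
  have h1 : |∫ x in t..s, ψ x| = ∫ x in uIcc t s, ψ x := by
    rcases le_total t s with h | h
    · rw [uIcc_of_le h, intervalIntegral.integral_of_le h, integral_Icc_eq_integral_Ioc]
      exact abs_of_nonneg (integral_nonneg h0)
    · rw [uIcc_of_ge h, intervalIntegral.integral_of_ge h, integral_Icc_eq_integral_Ioc, abs_neg]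
      exact abs_of_nonneg (integral_nonneg h0)
  rw [h1, ofReal_integral_eq_lintegral_ofReal hi (ae_of_all _ h0)]

/-- the weak type inequality -/
theorem maximal {a b κ : ℝ} (hκ : 0 < κ) {ψ : ℝ → ℝ} (hψ : IntegrableOn ψ (Icc a b))
    (h0 : ∀ t, 0 ≤ ψ t) :
    volume {t | t ∈ Icc a b ∧ ∃ s ∈ Icc a b, κ * |s - t| < |∫ x in t..s, ψ x|} ≤
      ENNReal.ofReal (5 / κ * ∫ t in Icc a b, ψ t) := by
  set T : Set (ℝ × ℝ) := {q | q.1 ∈ Icc a b ∧ q.2 ∈ Icc a b ∧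
    κ * |q.2 - q.1| < |∫ x in q.1..q.2, ψ x|} with hT
  set c : ℝ × ℝ → ℝ := fun q => (q.1 + q.2) / 2 with hc
  set r : ℝ × ℝ → ℝ := fun q => |q.2 - q.1| / 2 with hr
  have hrpos : ∀ q ∈ T, 0 < r q := by
    intro q hq
    have hne : q.2 ≠ q.1 := by
      intro he
      have := hq.2.2
      rw [he] at this
      simp at this
    have : 0 < |q.2 - q.1| := abs_pos.2 (sub_ne_zero.2 hne)
    simp only [hr]
    positivity
  have hball : ∀ q, closedBall (c q) (r q) = uIcc q.1 q.2 := fun q =>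
    (uIcc_eq_closedBall q.2 q.1).symm
  have hrle : ∀ q ∈ T, r q ≤ b - a := by
    intro q hq
    have h1 := hq.1
    have h2 := hq.2.1
    have h3 : |q.2 - q.1| ≤ b - a := by
      rw [abs_le]
      constructor <;> linarith [h1.1, h1.2, h2.1, h2.2]
    have h4 : 0 ≤ |q.2 - q.1| := abs_nonneg _
    simp only [hr]
    linarith
  obtain ⟨u, huT, hud, hcov⟩ := Vitali.exists_disjoint_subfamily_covering_enlargement_closedBall
    T c r (b - a) hrle 5 (by norm_num)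
  have hucount : u.Countable := by
    refine hud.countable_of_nonempty_interior fun q hq => ?_
    rw [interior_closedBall _ (hrpos q (huT hq)).ne']
    exact nonempty_ball.2 (hrpos q (huT hq))
  have hsub : {t | t ∈ Icc a b ∧ ∃ s ∈ Icc a b, κ * |s - t| < |∫ x in t..s, ψ x|} ⊆
      ⋃ q ∈ u, closedBall (c q) (5 * r q) := by
    rintro t ⟨ht, s, hs, hts⟩
    obtain ⟨q, hq, hq'⟩ := hcov (t, s) ⟨ht, hs, hts⟩
    refine mem_iUnion₂.2 ⟨q, hq, hq' ?_⟩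
    rw [hball]
    exact left_mem_uIcc
  have hvol : ∀ q ∈ u, volume (closedBall (c q) (5 * r q)) ≤
      ENNReal.ofReal (5 / κ) * ∫⁻ x in closedBall (c q) (r q), ENNReal.ofReal (ψ x) := by
    intro q hq
    have hqT := huT hq
    rw [hball, ← ofReal_abs_integral hψ h0 hqT.2.1 hqT.1, Real.volume_closedBall,
      ← ENNReal.ofReal_mul (by positivity)]
    refine ENNReal.ofReal_le_ofReal ?_
    have h1 := hqT.2.2.le
    have h2 : 2 * (5 * r q) = 5 / κ * (κ * |q.2 - q.1|) := by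
      simp only [hr]
      field_simp
    rw [h2]
    gcongr
  calc volume {t | t ∈ Icc a b ∧ ∃ s ∈ Icc a b, κ * |s - t| < |∫ x in t..s, ψ x|}
      ≤ volume (⋃ q ∈ u, closedBall (c q) (5 * r q)) := measure_mono hsub
    _ ≤ ∑' q : u, volume (closedBall (c q) (5 * r q)) := measure_biUnion_le _ hucount _
    _ ≤ ∑' q : u, ENNReal.ofReal (5 / κ) *
        ∫⁻ x in closedBall (c q) (r q), ENNReal.ofReal (ψ x) :=
        ENNReal.tsum_le_tsum fun q => hvol q q.2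
    _ = ENNReal.ofReal (5 / κ) * ∫⁻ x in ⋃ q ∈ u, closedBall (c q) (r q),
        ENNReal.ofReal (ψ x) := by
        rw [ENNReal.tsum_mul_left, lintegral_biUnion hucount
          (fun q _ => isClosed_closedBall.measurableSet) hud]
    _ ≤ ENNReal.ofReal (5 / κ) * ∫⁻ x in Icc a b, ENNReal.ofReal (ψ x) := by
        gcongr
        refine iUnion₂_subset fun q hq => ?_
        rw [hball, ← uIcc_of_le ((huT hq).1.1.trans (huT hq).1.2)]
        exact uIcc_subset_uIcc (Icc_subset_uIcc (huT hq).1) (Icc_subset_uIcc (huT hq).2.1)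
    _ = ENNReal.ofReal (5 / κ * ∫ t in Icc a b, ψ t) := by
        rw [ENNReal.ofReal_mul (by positivity),
          ofReal_integral_eq_lintegral_ofReal hψ (ae_of_all _ h0)]

/-! ### The dyadic intervals -/

theorem two_pow_eq {m n : ℕ} (h : m ≤ n) : (2:ℝ) ^ n = 2 ^ (n - m) * 2 ^ m := by
  rw [← pow_add, Nat.sub_add_cancel h]

theorem dy_eq {m n : ℕ} (h : m ≤ n) (z : ℤ) :
    (z : ℝ) / 2 ^ m = ((2 ^ (n - m) * z : ℤ) : ℝ) / 2 ^ n := by
  rw [two_pow_eq h]; push_cast; field_simp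

/-- the intervals of generation `n` cover -/
theorem cover_iv {v₀ : ℝ} {n : ℕ} {A B : ℤ} (hAB : A < B) {t : ℝ}
    (ht : t ∈ Icc (v₀ + A / 2 ^ n) (v₀ + B / 2 ^ n)) : ∃ z ∈ Finset.Ico A B, t ∈ iv v₀ n z := by
  have hp : (0:ℝ) < 2 ^ n := by positivity
  by_cases htB : t = v₀ + B / 2 ^ n
  · refine ⟨B - 1, Finset.mem_Ico.2 ⟨by omega, by omega⟩, ?_⟩
    rw [htB]
    unfold iv
    push_cast
    constructor
    · gcongr; linarith
    · gcongr; linarith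
  · have hlt : t < v₀ + B / 2 ^ n := lt_of_le_of_ne ht.2 htB
    set x : ℝ := (t - v₀) * 2 ^ n with hx
    have hx1 : t = v₀ + x / 2 ^ n := by rw [hx]; field_simp; ring
    have h1 := Int.floor_le x
    have h2 := Int.lt_floor_add_one x
    have h3 : (A : ℝ) ≤ x := by
      have := ht.1
      rw [hx1] at this
      have h4 : (A : ℝ) / 2 ^ n ≤ x / 2 ^ n := by linarith
      exact (div_le_div_iff_of_pos_right hp).1 h4
    have h4 : x < B := by
      rw [hx1] at hlt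
      have h5 : x / 2 ^ n < (B : ℝ) / 2 ^ n := by linarith
      exact (div_lt_div_iff_of_pos_right hp).1 h5
    refine ⟨⌊x⌋, Finset.mem_Ico.2 ⟨Int.le_floor.2 h3, Int.floor_lt.2 h4⟩, ?_⟩
    rw [hx1]
    unfold iv
    constructor
    · gcongr
    · gcongr

theorem iv_sub {v₀ : ℝ} {n : ℕ} {A B z : ℤ} (hz : z ∈ Finset.Ico A B) :
    iv v₀ n z ⊆ Icc (v₀ + A / 2 ^ n) (v₀ + B / 2 ^ n) := by
  rw [Finset.mem_Ico] at hz
  have h1 : (A : ℝ) ≤ z := by exact_mod_cast hz.1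
  have h2 : (z : ℝ) + 1 ≤ B := by exact_mod_cast hz.2
  unfold iv
  refine Icc_subset_Icc ?_ ?_
  · gcongr
  · gcongr

theorem ivm_sub {v₀ ϑ : ℝ} (hϑ : 0 ≤ ϑ) (n : ℕ) (z : ℤ) : ivm v₀ ϑ n z ⊆ iv v₀ n z := by
  unfold iv ivm
  refine Icc_subset_Icc ?_ ?_
  · gcongr; linarith
  · gcongr; linarith

theorem volume_margin {v₀ ϑ : ℝ} (hϑ : 0 ≤ ϑ) (n : ℕ) (z : ℤ) :
    volume (iv v₀ n z \ ivm v₀ ϑ n z) ≤ ENNReal.ofReal (2 * ϑ / 2 ^ n) := by
  have h1 : iv v₀ n z \ ivm v₀ ϑ n z ⊆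
      Icc (v₀ + z / 2 ^ n) (v₀ + (z + ϑ) / 2 ^ n) ∪
        Icc (v₀ + (z + 1 - ϑ) / 2 ^ n) (v₀ + (z + 1) / 2 ^ n) := by
    rintro t ⟨ht, ht'⟩
    unfold iv at ht
    unfold ivm at ht'
    by_cases h : v₀ + (z + ϑ) / 2 ^ n ≤ t
    · right
      refine ⟨?_, ht.2⟩
      by_contra hcon
      exact ht' ⟨h, (not_le.1 hcon).le⟩
    · left
      exact ⟨ht.1, (not_le.1 h).le⟩
  refine (measure_mono h1).trans ((measure_union_le _ _).trans (le_of_eq ?_))
  rw [Real.volume_Icc, Real.volume_Icc, ← ENNReal.ofReal_add]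
  · congr 1
    ring
  · have : 0 ≤ ϑ / 2 ^ n := by positivity
    have h2 : v₀ + (z + ϑ) / 2 ^ n - (v₀ + z / 2 ^ n) = ϑ / 2 ^ n := by ring
    rw [h2]; exact this
  · have : 0 ≤ ϑ / 2 ^ n := by positivity
    have h2 : v₀ + ((z:ℝ) + 1) / 2 ^ n - (v₀ + (z + 1 - ϑ) / 2 ^ n) = ϑ / 2 ^ n := by ring
    rw [h2]; exact this

theorem le_abs_integral {a b : ℝ} {γ : ℝ → V} {ψ : ℝ → ℝ}
    (hγ : ∀ s t, a ≤ s → s ≤ t → t ≤ b →
      ‖(γ t - t • ev 0) - (γ s - s • ev 0)‖ ≤ ∫ x in s..t, ψ x) {s t : ℝ} (hs : s ∈ Icc a b)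
    (ht : t ∈ Icc a b) :
    ‖(γ t - t • ev 0) - (γ s - s • ev 0)‖ ≤ |∫ x in s..t, ψ x| := by
  rcases le_total s t with h | h
  · exact (hγ s t hs.1 h ht.2).trans (le_abs_self _)
  · rw [norm_sub_rev, intervalIntegral.integral_symm, abs_neg]
    exact (hγ t s ht.1 h hs.2).trans (le_abs_self _)

/-- **[SEG]** -/
theorem specSeg : SpecSeg := by
  intro κ ϑ hκ hκϑ hϑ v₀ m₀ z₀ z₁ Λ γ ψ hz hΛ hγc hγm hψ h0 hγ
  have hϑ0 : 0 < ϑ := by linarith
  set a : ℝ := v₀ + z₀ / 2 ^ m₀ with ha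
  set b : ℝ := v₀ + z₁ / 2 ^ m₀ with hb
  have hzR : (z₀ : ℝ) < z₁ := by exact_mod_cast hz
  have hab : a < b := by
    rw [ha, hb]
    gcongr
  -- the distance to the boundary
  have hcomp : IsCompact (γ '' Icc a b) := isCompact_Icc.image_of_continuousOn hγc
  obtain ⟨δ, hδ, hδΛ⟩ := hcomp.exists_cthickening_subset_open hΛ (image_subset_iff.2 hγm)
  have hev : ∀ᶠ n : ℕ in atTop, (1 + κ) * (1 / 2) ^ n ≤ δ := by
    have h1 : Tendsto (fun n : ℕ => (1 + κ) * (1 / 2 : ℝ) ^ n) atTop (𝓝 ((1 + κ) * 0)) :=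
      (tendsto_pow_atTop_nhds_zero_of_lt_one (by norm_num) (by norm_num)).const_mul _
    rw [mul_zero] at h1
    exact (h1.eventually (ge_mem_nhds hδ))
  filter_upwards [hev, eventually_ge_atTop m₀] with n hn hm
  have hp : (0:ℝ) < 2 ^ n := by positivity
  have hpn : (1 / 2 : ℝ) ^ n = 1 / 2 ^ n := by rw [one_div, one_div, inv_pow]
  rw [hpn] at hn
  set Z : Finset ℤ := Finset.Ico (2 ^ (n - m₀) * z₀) (2 ^ (n - m₀) * z₁) with hZ
  have ha' : a = v₀ + ((2 ^ (n - m₀) * z₀ : ℤ) : ℝ) / 2 ^ n := by rw [ha, dy_eq hm]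
  have hb' : b = v₀ + ((2 ^ (n - m₀) * z₁ : ℤ) : ℝ) / 2 ^ n := by rw [hb, dy_eq hm]
  have hZsub : ∀ z ∈ Z, iv v₀ n z ⊆ Icc a b := fun z hzZ => by
    rw [ha', hb']; exact iv_sub hzZ
  have hlt : 2 ^ (n - m₀) * z₀ < 2 ^ (n - m₀) * z₁ := by
    have : (0:ℤ) < 2 ^ (n - m₀) := by positivity
    exact mul_lt_mul_of_pos_left hz this
  set G : Set ℝ := {t | t ∈ Icc a b ∧ ∀ s ∈ Icc a b, |∫ x in t..s, ψ x| ≤ κ * |s - t|} with hG
  classical
  set J : Finset ℤ := Z.filter fun z => (iv v₀ n z ∩ G).Nonempty with hJ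
  have hJ' : ∀ z ∈ J, z ∈ Z ∧ (iv v₀ n z ∩ G).Nonempty := fun z hz => Finset.mem_filter.1 hz
  have hex : ∀ z, ∃ t, z ∈ J → t ∈ iv v₀ n z ∩ G := by
    intro z
    by_cases hzJ : z ∈ J
    · obtain ⟨t, ht⟩ := (hJ' z hzJ).2
      exact ⟨t, fun _ => ht⟩
    · exact ⟨0, fun h => absurd h hzJ⟩
  choose τ hτ using hex
  set A : ℤ → V := fun z => γ (τ z) - τ z • ev 0 with hA
  have hτ1 : ∀ z ∈ J, τ z ∈ iv v₀ n z := fun z hz => (hτ z hz).1
  have hτ2 : ∀ z ∈ J, τ z ∈ Icc a b := fun z hz => (hτ z hz).2.1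
  have hτ3 : ∀ z ∈ J, ∀ s ∈ Icc a b, |∫ x in (τ z)..s, ψ x| ≤ κ * |s - τ z| :=
    fun z hz => (hτ z hz).2.2
  have hdiff : ∀ z ∈ J, ∀ t ∈ Icc a b, ‖γ t - (t • ev 0 + A z)‖ ≤ κ * |t - τ z| := by
    intro z hz t ht
    have h1 : γ t - (t • ev 0 + A z) = (γ t - t • ev 0) - (γ (τ z) - τ z • ev 0) := by
      rw [hA]; simp only; abel
    rw [h1]
    exact (le_abs_integral hγ (hτ2 z hz) ht).trans (hτ3 z hz t ht)
  have hlen : ∀ z : ℤ, ∀ t ∈ iv v₀ n z, ∀ s ∈ iv v₀ n z, |t - s| ≤ 1 / 2 ^ n := by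
    intro z t ht s hs
    unfold iv at ht hs
    have h1 : v₀ + ((z:ℝ) + 1) / 2 ^ n = v₀ + z / 2 ^ n + 1 / 2 ^ n := by ring
    rw [h1] at ht hs
    rw [abs_le]
    constructor <;> linarith [ht.1, ht.2, hs.1, hs.2]
  have hnear : ∀ z ∈ J, ∀ t ∈ iv v₀ n z, ‖γ t - (t • ev 0 + A z)‖ ≤ κ / 2 ^ n := by
    intro z hz t ht
    refine (hdiff z hz t (hZsub z (hJ' z hz).1 ht)).trans ?_
    have := hlen z t ht (τ z) (hτ1 z hz)
    calc κ * |t - τ z| ≤ κ * (1 / 2 ^ n) := by gcongr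
      _ = κ / 2 ^ n := by ring
  refine ⟨J, A, ⟨hnear, ?_, ?_, ?_⟩, fun z hz => hZsub z (hJ' z hz).1, ?_⟩
  · -- small
    intro z hz
    have h1 := hτ1 z hz
    have hsub := hZsub z (hJ' z hz).1
    have hle : v₀ + (z:ℝ) / 2 ^ n ≤ v₀ + (z + 1) / 2 ^ n := by gcongr; linarith
    have hl : v₀ + (z:ℝ) / 2 ^ n ∈ Icc a b := hsub ⟨le_rfl, hle⟩
    have hr : v₀ + ((z:ℝ) + 1) / 2 ^ n ∈ Icc a b := hsub ⟨hle, le_rfl⟩
    have hii : ∀ s ∈ Icc a b, ∀ t ∈ Icc a b, IntervalIntegrable ψ volume s t := by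
      intro s hs t ht
      rw [intervalIntegrable_iff']
      exact hψ.mono_set (uIcc_subset_Icc hs ht)
    have h2 : ∫ t in iv v₀ n z, ψ t = ∫ t in (v₀ + (z:ℝ) / 2 ^ n)..(v₀ + (z + 1) / 2 ^ n), ψ t := by
      unfold iv
      rw [intervalIntegral.integral_of_le hle, integral_Icc_eq_integral_Ioc]
    have h3 := intervalIntegral.integral_add_adjacent_intervals
      (hii _ hl _ (hτ2 z hz)) (hii _ (hτ2 z hz) _ hr)
    have h4 := (le_abs_self _).trans (hτ3 z hz _ hr)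
    have h5 := (neg_abs_le _).trans' (neg_le_neg (hτ3 z hz _ hl))
    rw [intervalIntegral.integral_symm] at h5
    unfold iv at h1
    rw [abs_of_nonneg (by linarith [h1.2])] at h4
    rw [abs_of_nonpos (by linarith [h1.1])] at h5
    rw [h2, ← h3]
    have h6 : v₀ + ((z:ℝ) + 1) / 2 ^ n = v₀ + z / 2 ^ n + 1 / 2 ^ n := by ring
    have h7 : κ / 2 ^ n = κ * (v₀ + (z + 1) / 2 ^ n - τ z) + κ * (τ z - (v₀ + z / 2 ^ n)) := by
      rw [h6]; ring
    rw [h7]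
    linarith
  · -- sep
    intro z hz z' hz' hzz t ht t' ht'
    have hm1 : (1:ℝ) ≤ (z' : ℝ) - z := by
      have : z + 1 ≤ z' := hzz
      have : (z : ℝ) + 1 ≤ z' := by exact_mod_cast this
      linarith
    set m : ℝ := (z' : ℝ) - z with hm
    have h1 : -(κ * ((m + 1) / 2 ^ n)) ≤ A z' 0 - A z 0 := by
      have h2 := le_abs_integral hγ (hτ2 z hz) (hτ2 z' hz')
      have h3 := hτ3 z hz _ (hτ2 z' hz')
      have h4 : |(A z' - A z) 0| ≤ ‖A z' - A z‖ := norm_le_pi_norm (A z' - A z) 0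
      have h5 : |τ z' - τ z| ≤ (m + 1) / 2 ^ n := by
        have h6 := hτ1 z hz
        have h7 := hτ1 z' hz'
        unfold iv at h6 h7
        have e1 : v₀ + ((z:ℝ) + 1) / 2 ^ n = v₀ + z / 2 ^ n + 1 / 2 ^ n := by ring
        have e2 : v₀ + ((z':ℝ) + 1) / 2 ^ n = v₀ + z / 2 ^ n + (m + 1) / 2 ^ n := by
          rw [hm]; ring
        have e3 : (z':ℝ) / 2 ^ n = z / 2 ^ n + m / 2 ^ n := by rw [hm]; ring
        have e4 : (m + 1) / 2 ^ n = m / 2 ^ n + 1 / 2 ^ n := by ring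
        have e5 : (0:ℝ) ≤ 1 / 2 ^ n := by positivity
        have e6 : 1 / 2 ^ n ≤ m / 2 ^ n := by gcongr
        rw [e1] at h6
        rw [e2, e3] at h7
        rw [e4] at h7 ⊢
        rw [abs_le]
        constructor <;> linarith [h6.1, h6.2, h7.1, h7.2]
      have h8 : |(A z' - A z) 0| ≤ κ * ((m + 1) / 2 ^ n) :=
        h4.trans (h2.trans (h3.trans (by gcongr)))
      have h9 := (abs_le.1 h8).1
      simpa using h9
    unfold ivm at ht ht'
    have h2 := ht.2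
    have h3 := ht'.1
    have e1 : (z' + ϑ) / 2 ^ n - (z + 1 - ϑ) / 2 ^ n = (m - 1 + 2 * ϑ) / 2 ^ n := by
      rw [hm]; ring
    have h4 : κ * ((m + 1) / 2 ^ n) ≤ ϑ / 8 * ((m + 1) / 2 ^ n) := by
      have : 0 ≤ (m + 1) / 2 ^ n := by positivity
      gcongr
    have h5 : ϑ / 2 ^ n ≤ (m - 1 + 2 * ϑ) / 2 ^ n - ϑ / 8 * ((m + 1) / 2 ^ n) := by
      have h6 : (m - 1 + 2 * ϑ) / 2 ^ n - ϑ / 8 * ((m + 1) / 2 ^ n) =
        (m - 1 + 2 * ϑ - ϑ / 8 * (m + 1)) / 2 ^ n := by ring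
      rw [h6]
      refine div_le_div_of_nonneg_right ?_ hp.le
      nlinarith
    linarith
  · -- inside
    intro z hz t ht
    have htab := hZsub z (hJ' z hz).1 ht
    intro y hy
    refine hδΛ ?_
    refine mem_cthickening_of_dist_le y (γ t) δ _ ⟨t, htab, rfl⟩ ?_
    calc dist y (γ t) ≤ dist y (t • ev 0 + A z) + dist (t • ev 0 + A z) (γ t) :=
          dist_triangle _ _ _
      _ ≤ 1 / 2 ^ n + κ / 2 ^ n := by
          refine add_le_add (mem_closedBall.1 hy) ?_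
          rw [dist_eq_norm, norm_sub_rev]
          exact hnear z hz t ht
      _ = (1 + κ) * (1 / 2 ^ n) := by ring
      _ ≤ δ := hn
  · -- measure
    have hsub : Icc a b \ ⋃ z ∈ J, ivm v₀ ϑ n z ⊆
        (⋃ z ∈ Z, iv v₀ n z \ ivm v₀ ϑ n z) ∪
          {t | t ∈ Icc a b ∧ ∃ s ∈ Icc a b, κ * |s - t| < |∫ x in t..s, ψ x|} := by
      rintro t ⟨ht, htJ⟩
      obtain ⟨z, hzZ, htz⟩ := cover_iv (v₀ := v₀) (n := n) hlt (t := t)
        (by rw [← ha', ← hb']; exact ht)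
      by_cases htm : t ∈ ivm v₀ ϑ n z
      · right
        refine ⟨ht, ?_⟩
        by_contra hcon
        push Not at hcon
        have hzJ : z ∈ J := Finset.mem_filter.2 ⟨hzZ, t, htz, ht, hcon⟩
        exact htJ (mem_iUnion₂.2 ⟨z, hzJ, htm⟩)
      · left
        exact mem_iUnion₂.2 ⟨z, hzZ, htz, htm⟩
    have hcard : (Z.card : ℝ) = 2 ^ (n - m₀) * (z₁ - z₀) := by
      rw [hZ, Int.card_Ico]
      have h1 : (0:ℤ) ≤ 2 ^ (n - m₀) * z₁ - 2 ^ (n - m₀) * z₀ := by linarith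
      have h2 : (((2 ^ (n - m₀) * z₁ - 2 ^ (n - m₀) * z₀).toNat : ℤ) : ℝ) =
        ((2 ^ (n - m₀) * z₁ - 2 ^ (n - m₀) * z₀ : ℤ) : ℝ) := by rw [Int.toNat_of_nonneg h1]
      rw [Int.cast_natCast] at h2
      rw [h2]; push_cast; ring
    have hI0 : 0 ≤ ∫ t in Icc a b, ψ t := integral_nonneg h0
    calc volume (Icc a b \ ⋃ z ∈ J, ivm v₀ ϑ n z)
        ≤ volume (⋃ z ∈ Z, iv v₀ n z \ ivm v₀ ϑ n z) +
          volume {t | t ∈ Icc a b ∧ ∃ s ∈ Icc a b, κ * |s - t| < |∫ x in t..s, ψ x|} :=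
          (measure_mono hsub).trans (measure_union_le _ _)
      _ ≤ ENNReal.ofReal (2 * ϑ * ((z₁ - z₀) / 2 ^ m₀)) +
          ENNReal.ofReal (5 / κ * ∫ t in Icc a b, ψ t) := by
          refine add_le_add ?_ (maximal hκ hψ h0)
          refine (measure_biUnion_finset_le _ _).trans ?_
          refine (Finset.sum_le_sum fun z _ => volume_margin hϑ0.le n z).trans (le_of_eq ?_)
          rw [Finset.sum_const, nsmul_eq_mul, ← ENNReal.ofReal_natCast,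
            ← ENNReal.ofReal_mul (by positivity), hcard, two_pow_eq hm]
          congr 1
          field_simp
      _ ≤ ENNReal.ofReal (1000 / κ * (∫ t in Icc a b, ψ t) + 2 * ϑ * ((z₁ - z₀) / 2 ^ m₀)) := by
          rw [← ENNReal.ofReal_add (by positivity) (by positivity)]
          refine ENNReal.ofReal_le_ofReal ?_
          have : 5 / κ * (∫ t in Icc a b, ψ t) ≤ 1000 / κ * (∫ t in Icc a b, ψ t) := by
            gcongr
            norm_num
          linarith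

end Vale.Agent.P073.H687.Seg
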