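import Mathlib

/-!
# P073, H687: the total length of the slivers of round T

Against the body of the new `SlIn` (both end slivers and the inner ones have length at most `σ`,
up to a factor).
-/

namespace Vale.Agent.P073.H687

open Finset

theorem sum_len_union_le {A B : Finset (ℝ × ℝ)} [DecidableEq (ℝ × ℝ)]
    (hA : ∀ p ∈ A, p.1 ≤ p.2) (hB : ∀ p ∈ B, p.1 ≤ p.2) :
    ∑ p ∈ A ∪ B, (p.2 - p.1) ≤ ∑ p ∈ A, (p.2 - p.1) + ∑ p ∈ B, (p.2 - p.1) := by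
  have h1 := Finset.sum_union_inter (s₁ := A) (s₂ := B) (f := fun p : ℝ × ℝ => p.2 - p.1)
  have h2 : 0 ≤ ∑ p ∈ A ∩ B, (p.2 - p.1) := Finset.sum_nonneg fun p hp => by
    have := hA p (Finset.mem_inter.1 hp).1
    linarith
  linarith

theorem sum_len_mono {A B : Finset (ℝ × ℝ)} (h : A ⊆ B) (hB : ∀ p ∈ B, p.1 ≤ p.2) :
    ∑ p ∈ A, (p.2 - p.1) ≤ ∑ p ∈ B, (p.2 - p.1) :=
  Finset.sum_le_sum_of_subset_of_nonneg h fun p hp _ => by
    have := hB p hp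
    linarith

/-- **slSum** -/
theorem slSum_of {tlo thi σ : ℝ} {sl : Finset (ℝ × ℝ)}
    (H : ∃ (q₀ q₁ q₂ q₃ : ℝ) (inner : Finset (ℝ × ℝ)), tlo - σ ≤ q₀ ∧ q₀ < tlo ∧ tlo < q₁ ∧
      q₁ ≤ tlo + σ ∧ thi - σ ≤ q₂ ∧ q₂ < thi ∧ thi < q₃ ∧ q₃ ≤ thi + σ ∧ (q₀, q₁) ∈ sl ∧
      (q₂, q₃) ∈ sl ∧ (∀ p ∈ sl, p = (q₀, q₁) ∨ p = (q₂, q₃) ∨ p ∈ inner) ∧
      (∀ p ∈ inner, p.1 ≤ p.2) ∧ ∑ p ∈ inner, (p.2 - p.1) ≤ σ) :
    (∀ p ∈ sl, p.1 ≤ p.2) ∧ ∑ p ∈ sl, (p.2 - p.1) ≤ 5 * σ := by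
  classical
  obtain ⟨q₀, q₁, q₂, q₃, inner, a1, a2, a3, a4, a5, a6, a7, a8, -, -, h5, h6, h7⟩ := H
  have h01 : q₀ ≤ q₁ := by linarith
  have h23 : q₂ ≤ q₃ := by linarith
  have hpair : ∀ p ∈ ({(q₀, q₁), (q₂, q₃)} : Finset (ℝ × ℝ)), p.1 ≤ p.2 := by
    intro p hp
    rcases Finset.mem_insert.1 hp with rfl | hp
    · exact h01
    · rw [Finset.mem_singleton] at hp
      subst hp
      exact h23
  have hsub : sl ⊆ ({(q₀, q₁), (q₂, q₃)} : Finset (ℝ × ℝ)) ∪ inner := by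
    intro p hp
    rcases h5 p hp with rfl | rfl | h
    · simp
    · simp
    · exact Finset.mem_union_right _ h
  have hall : ∀ p ∈ ({(q₀, q₁), (q₂, q₃)} : Finset (ℝ × ℝ)) ∪ inner, p.1 ≤ p.2 := by
    intro p hp
    rcases Finset.mem_union.1 hp with h | h
    · exact hpair p h
    · exact h6 p h
  refine ⟨fun p hp => hall p (hsub hp), ?_⟩
  have h8 := sum_len_mono hsub hall
  have h9 := sum_len_union_le hpair h6
  have h10 : ∑ p ∈ ({(q₀, q₁), (q₂, q₃)} : Finset (ℝ × ℝ)), (p.2 - p.1) ≤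
      (q₁ - q₀) + (q₃ - q₂) := by
    rw [show ({(q₀, q₁), (q₂, q₃)} : Finset (ℝ × ℝ)) = {(q₀, q₁)} ∪ {(q₂, q₃)} from rfl]
    refine (sum_len_union_le (fun p hp => ?_) (fun p hp => ?_)).trans ?_
    · rw [Finset.mem_singleton] at hp
      subst hp
      exact h01
    · rw [Finset.mem_singleton] at hp
      subst hp
      exact h23
    · simp
  linarith

/-- **the fattened family** -/
theorem slpSum_of {tlo thi σ : ℝ} (hσ : 0 ≤ σ) {sl : Finset (ℝ × ℝ)} [DecidableEq (ℝ × ℝ)]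
    (H : (∀ p ∈ sl, p.1 ≤ p.2) ∧ ∑ p ∈ sl, (p.2 - p.1) ≤ 5 * σ) :
    (∀ p ∈ sl ∪ {(tlo - σ, tlo + σ), (thi - σ, thi + σ)}, p.1 ≤ p.2) ∧
      ∑ p ∈ sl ∪ {(tlo - σ, tlo + σ), (thi - σ, thi + σ)}, (p.2 - p.1) ≤ 9 * σ := by
  have hpair : ∀ p ∈ ({(tlo - σ, tlo + σ), (thi - σ, thi + σ)} : Finset (ℝ × ℝ)), p.1 ≤ p.2 := by
    intro p hp
    rcases Finset.mem_insert.1 hp with rfl | hp
    · dsimp only; linarith
    · rw [Finset.mem_singleton] at hp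
      subst hp
      dsimp only; linarith
  refine ⟨fun p hp => ?_, ?_⟩
  · rcases Finset.mem_union.1 hp with h | h
    · exact H.1 p h
    · exact hpair p h
  · have h9 := sum_len_union_le H.1 hpair
    have h10 : ∑ p ∈ ({(tlo - σ, tlo + σ), (thi - σ, thi + σ)} : Finset (ℝ × ℝ)), (p.2 - p.1) ≤
        4 * σ := by
      rw [show ({(tlo - σ, tlo + σ), (thi - σ, thi + σ)} : Finset (ℝ × ℝ)) =
        insert (tlo - σ, tlo + σ) {(thi - σ, thi + σ)} from rfl]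
      by_cases h : ((tlo - σ, tlo + σ) : ℝ × ℝ) ∈ ({(thi - σ, thi + σ)} : Finset (ℝ × ℝ))
      · rw [Finset.insert_eq_self.2 h]
        simp only [Finset.sum_singleton]
        linarith
      · rw [Finset.sum_insert h]
        simp only [Finset.sum_singleton]
        linarith
    linarith [H.2]

end Vale.Agent.P073.H687
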