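import Vale.Agent.P073.H687.PL4E
import Vale.Agent.P073.H880.RP0
import Vale.Agent.P073.H142.Hull
import Vale.Agent.P073.H196.Croft6
import Vale.Agent.P073.H155.FatStar

/-!
# P073, H687: **[SMALL3]**, the small numbers `e` of the second staircases

The faces which meet `PK G s` are finitely many, and the third map is Lipschitz on each of them.
-/

open Set Metric Topology Filter

namespace P073.H687

open _root_.P073 _root_.P073.Net _root_.P073.PA691 _root_.P073.H236 _root_.P073.H579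
  _root_.P073.H345 _root_.P073.H880 _root_.P073.H880.RP
open Vale.Agent.P073.St (V)
open Vale.Agent.P073.H471 Vale.Agent.P073.H267 Vale.Agent.P073.H267.Geo
open Vale.Agent.P073.H73 (Mesh)
open Vale.Agent.P073.H669 (PK_compact PK_sub)

variable {Ω Λ : Set V} {v : V} {K : BoxCx Λ v} {S : Rad K} {W : Wid K S} {B : Boxes W}
  {M : Mesh Ω}

theorem face_sub (M : Mesh Ω) (k : M.κ) : M.F k ⊆ Ω := by
  obtain ⟨i, _, _, h⟩ := M.two k
  exact (h.trans inter_subset_left).trans (M.sub i)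

theorem face_convex (M : Mesh Ω) (k : M.κ) : Convex ℝ (M.F k) := by
  obtain ⟨n, ν, t, h⟩ := (M.fat k).half
  rw [h, ofPred_forall]
  exact convex_iInter fun i => convex_halfSpace_le (ν i).toLinearMap.isLinear (t i)

/-- **[SMALL3]** -/
theorem exists_e3 (hΩ : IsOpen Ω) (G : Geo B) (D : Dat K M) (h1 h3 : ConHomeo Ω Λ)
    {c : K.S → Bool → ℝ} (hc : ∀ s β, 0 < c s β)
    {ν : M.κ → ℝ} (hν : ∀ k, 0 < ν k) {e₁ : Bool → D.S₀ → ℝ} (he₁ : ∀ β s, 0 < e₁ β s) :
    ∃ e : Bool → D.S₀ → ℝ, (∀ β s, 0 < e β s) ∧ (∀ β s, e β s ≤ e₁ β s) ∧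
      ∀ (s : D.S₀) k, (h1.toFun '' M.F k ∩ PK G s.1).Nonempty → ∃ Lam, 0 ≤ Lam ∧
        (∀ x ∈ M.F k, ∀ y ∈ M.F k, ‖h3.toFun x - h3.toFun y‖ ≤ Lam * ‖x - y‖) ∧
        ∀ β, e β s * Lam ≤ ν k * c s.1 β := by
  have hL : ∀ k, ∃ L : ℝ, 0 ≤ L ∧ ∀ x ∈ M.F k, ∀ y ∈ M.F k,
      ‖h3.toFun x - h3.toFun y‖ ≤ L * ‖x - y‖ := fun k =>
    _root_.P073.H142.exists_lip_of_compact hΩ h3.conical h3.cont
      (Vale.Agent.P073.H155.Fat.isCompact (M.fat k))
      (face_convex M k) (face_sub M k)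
  choose L hL0 hL using hL
  have hs : ∀ s : D.S₀, ∃ a > 0, ∀ k ∈ {k | (h1.toFun '' M.F k ∩ PK G s.1).Nonempty},
      a ≤ min (ν k * c s.1 false / (L k + 1)) (ν k * c s.1 true / (L k + 1)) := fun s =>
    Vale.Agent.P073.H687.finite_inf_pos (_root_.P073.Croft.finite_image_inter h1 (face_sub M) M.ffin (PK_compact G s.1)
      (PK_sub G s.1)) _ fun k => lt_min
        (div_pos (mul_pos (hν k) (hc _ _)) (by linarith [hL0 k]))
        (div_pos (mul_pos (hν k) (hc _ _)) (by linarith [hL0 k]))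
  choose a ha0 ha using hs
  refine ⟨fun β s => min (e₁ β s) (a s), fun β s => lt_min (he₁ β s) (ha0 s),
    fun β s => min_le_left _ _, fun s k hk => ⟨L k, hL0 k, hL k, fun β => ?_⟩⟩
  have h1 : a s ≤ ν k * c s.1 β / (L k + 1) := by
    cases β
    · exact (ha s k hk).trans (min_le_left _ _)
    · exact (ha s k hk).trans (min_le_right _ _)
  have h2 : 0 < L k + 1 := by linarith [hL0 k]
  rw [le_div_iff₀ h2] at h1
  have h3 : min (e₁ β s) (a s) ≤ a s := min_le_right _ _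
  have h4 := hL0 k
  have h5 := ha0 s
  show min (e₁ β s) (a s) * L k ≤ ν k * c s.1 β
  nlinarith [mul_le_mul_of_nonneg_right h3 h4]

end P073.H687
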